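import Vale.Agent.P073.MathlibUsed
attribute [-instance] ProperSMul.toContinuousSMul IsTopologicalTorsor.toContinuousSMul IdemSemiring.toCanonicallyOrderedAdd IdemSemiring.toMulLeftMono IdemSemiring.toMulRightMono AddQuantale.instAddLeftMono AddQuantale.instAddRightMono Quantale.instMulLeftMono Quantale.instMulRightMono FiniteDimensional.rclike_to_real IsScalarTower.complexToReal FiniteDimensional.complexToReal

set_option linter.all false

section

/-!
# P073: definitions for the Ball-Evans approximation problem in dimension three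
-/

namespace Vale.Agent.P073

open MeasureTheory Set Filter Topology
open scoped ENNReal ContDiff

/-- Euclidean three-space. -/
abbrev E3 : Type := EuclideanSpace ℝ (Fin 3)

/-- A bounded domain: a bounded, nonempty, connected, open set. -/
def IsBoundedDomain (Ω : Set E3) : Prop :=
  IsOpen Ω ∧ IsConnected Ω ∧ Bornology.IsBounded Ω

/-- `F` is the weak derivative matrix of `f` on `Ω`. -/
def IsWeakDeriv (Ω : Set E3) (f : E3 → E3) (F : E3 → (E3 →L[ℝ] E3)) : Prop :=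
  LocallyIntegrableOn f Ω ∧ LocallyIntegrableOn F Ω ∧
    ∀ φ : E3 → ℝ, ContDiff ℝ ∞ φ → HasCompactSupport φ → tsupport φ ⊆ Ω → ∀ v : E3,
      ∫ x in Ω, φ x • F x v = - ∫ x in Ω, (fderiv ℝ φ x v) • f x

/-- `f` belongs to `W^{1,p}(Ω; ℝ³)`, with weak derivative matrix `F`. -/
def IsSobolev (p : ℝ) (Ω : Set E3) (f : E3 → E3) (F : E3 → (E3 →L[ℝ] E3)) : Prop :=
  IsWeakDeriv Ω f F ∧ MemLp f (ENNReal.ofReal p) (volume.restrict Ω) ∧
    MemLp F (ENNReal.ofReal p) (volume.restrict Ω)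

/-- `f` is a homeomorphism of `Ω` onto `Λ`. -/
def IsHomeo (Ω Λ : Set E3) (f : E3 → E3) : Prop :=
  BijOn f Ω Λ ∧ ContinuousOn f Ω ∧ ∃ h : E3 → E3, ContinuousOn h Λ ∧ InvOn h f Ω Λ

/-- `g` is a `C^∞` diffeomorphism of `Ω` onto `Λ`. -/
def IsDiffeo (Ω Λ : Set E3) (g : E3 → E3) : Prop :=
  BijOn g Ω Λ ∧ ContDiffOn ℝ ∞ g Ω ∧ ∃ h : E3 → E3, ContDiffOn ℝ ∞ h Λ ∧ InvOn h g Ω Λ

/-- The Euclidean (Frobenius) norm of a 3×3 matrix. -/
noncomputable def frobNorm (A : E3 →L[ℝ] E3) : ℝ :=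
  Real.sqrt (∑ j : Fin 3, ‖A (EuclideanSpace.single j 1)‖ ^ 2)

/-- `f : Ω → Λ`, with weak derivative matrix `F`, is diffeomorphically approximable in `W^{1,p}`:
there are `C^∞` diffeomorphisms `g j` of `Ω` onto the same `Λ`, each in `W^{1,p}(Ω; ℝ³)`, with
`∫_Ω |g j - f|^p + |D (g j) - D f|^p → 0`. -/
def DiffeoApproximable (p : ℝ) (Ω Λ : Set E3) (f : E3 → E3) (F : E3 → (E3 →L[ℝ] E3)) : Prop :=
  ∃ g : ℕ → E3 → E3,
    (∀ j, IsDiffeo Ω Λ (g j) ∧ IsSobolev p Ω (g j) (fderiv ℝ (g j))) ∧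
    Tendsto (fun j => ∫⁻ x in Ω,
      ENNReal.ofReal (‖g j x - f x‖ ^ p + frobNorm (fderiv ℝ (g j) x - F x) ^ p)) atTop (𝓝 0)

end Vale.Agent.P073
end

section

/-!
# Radial profile and the integrals used in the averaging argument
-/

namespace Vale.Agent.P073

open MeasureTheory Set Filter Topology Metric
open scoped ENNReal ContDiff Real

/-- A smooth non-increasing profile, equal to one on `(-∞, a²]` and to zero on `[1, ∞)`. -/
structure Profile (a : ℝ) (P : ℝ → ℝ) : Prop where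
  smooth : ContDiff ℝ ∞ P
  anti : Antitone P
  one_of_le : ∀ s, s ≤ a ^ 2 → P s = 1
  zero_of_ge : ∀ s, 1 ≤ s → P s = 0
  nonneg : ∀ s, 0 ≤ P s
  le_one : ∀ s, P s ≤ 1

theorem exists_profile {a : ℝ} (ha0 : 0 < a) (ha1 : a < 1) : ∃ P, Profile a P := by
  have hb : 0 < 1 - a ^ 2 := by nlinarith only [ha1, ha0]
  refine ⟨fun s => Real.smoothTransition ((1 - s) / (1 - a ^ 2)), ?_, ?_, ?_, ?_, ?_, ?_⟩
  · exact Real.smoothTransition.contDiff.comp ((contDiff_const.sub contDiff_id).div_const _)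
  · intro s t hst
    apply Real.smoothTransition.monotone
    gcongr
  · intro s hs
    apply Real.smoothTransition.one_of_one_le
    rw [le_div_iff₀ hb]; linarith only [hs]
  · intro s hs
    apply Real.smoothTransition.zero_of_nonpos
    exact div_nonpos_of_nonpos_of_nonneg (by linarith) hb.le
  · intro s; exact Real.smoothTransition.nonneg _
  · intro s; exact Real.smoothTransition.le_one _

namespace Profile

variable {a : ℝ} {P : ℝ → ℝ}

theorem differentiable (hP : Profile a P) : Differentiable ℝ P := hP.smooth.differentiable (by simp only [ne_eq, WithTop.coe_eq_zero, ENat.top_ne_zero, not_false_eq_true])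

theorem continuous (hP : Profile a P) : Continuous P := hP.smooth.continuous

theorem continuous_deriv (hP : Profile a P) : Continuous (deriv P) :=
  hP.smooth.continuous_deriv (by simp only [WithTop.one_le_coe, le_top])

theorem deriv_nonpos (hP : Profile a P) (s : ℝ) : deriv P s ≤ 0 := hP.anti.deriv_nonpos

theorem abs_deriv (hP : Profile a P) (s : ℝ) : |deriv P s| = - deriv P s :=
  abs_of_nonpos (hP.deriv_nonpos s)

theorem deriv_eq_zero (hP : Profile a P) {s : ℝ} (hs : 1 < s) : deriv P s = 0 := by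
  have : P =ᶠ[𝓝 s] fun _ => (0 : ℝ) := by
    filter_upwards [Ioi_mem_nhds hs] with t ht
    exact hP.zero_of_ge t (le_of_lt ht)
  rw [this.deriv_eq]; simp

theorem line_integral (hP : Profile a P) {s : ℝ} :
    ∫ t : ℝ, |t| * |deriv P (t ^ 2 + s)| = P s := by
  have h1 : ∫ t : ℝ, |t| * |deriv P (t ^ 2 + s)|
      = ∫ t : ℝ, (fun r : ℝ => r * |deriv P (r ^ 2 + s)|) |t| := by
    congr 1; ext t; simp
  rw [h1, integral_comp_abs (f := fun r : ℝ => r * |deriv P (r ^ 2 + s)|)]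
  have h2 : ∀ t : ℝ, t * |deriv P (t ^ 2 + s)| =
      (-(1 / 2)) * deriv (fun r : ℝ => P (r ^ 2 + s)) t := by
    intro t
    have h3 : HasDerivAt (fun r : ℝ => P (r ^ 2 + s)) (deriv P (t ^ 2 + s) * (2 * t)) t := by
      have h4 : HasDerivAt (fun r : ℝ => r ^ 2 + s) (2 * t) t := by
        simpa using (hasDerivAt_pow 2 t).add_const s
      exact HasDerivAt.comp t (hP.differentiable _).hasDerivAt h4
    rw [h3.deriv, hP.abs_deriv]; ring
  simp_rw [h2]
  rw [integral_const_mul]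
  have hf : ContDiff ℝ 1 (fun r : ℝ => P (r ^ 2 + s)) :=
    (hP.smooth.of_le (by simp only [WithTop.one_le_coe, le_top])).comp ((contDiff_id.pow 2).add contDiff_const)
  have hc : HasCompactSupport (fun r : ℝ => P (r ^ 2 + s)) := by
    apply HasCompactSupport.of_support_subset_isCompact (isCompact_closedBall (0 : ℝ) (1 + |s|))
    intro r hr
    rw [Function.mem_support] at hr
    by_contra hcon
    apply hr
    apply hP.zero_of_ge
    rw [mem_closedBall_zero_iff, Real.norm_eq_abs, not_le] at hcon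
    have h5 : (1 + |s|) ^ 2 ≤ r ^ 2 := by
      rw [← sq_abs r]; (clear * - hcon; gcongr)
    have h6 : -s ≤ |s| := neg_le_abs s
    nlinarith only [h5, h6, abs_nonneg s]
  rw [hc.integral_Ioi_deriv_eq hf 0]
  simp only [one_div, ne_eq, OfNat.ofNat_ne_zero, not_false_eq_true, zero_pow, zero_add, mul_neg, neg_mul, neg_neg, mul_inv_cancel_left₀]

end Profile

/-- three-space -/
abbrev R3 : Type := EuclideanSpace ℝ (Fin 3)

/-- Integration over three-space by slicing in the first coordinate. -/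
theorem integral_slice (F : ℝ → ℝ → ℝ)
    (hF : Integrable (fun z : R3 => F (z 0) (z 1 ^ 2 + z 2 ^ 2))) :
    ∫ z : R3, F (z 0) (z 1 ^ 2 + z 2 ^ 2)
      = ∫ q : Fin 2 → ℝ, ∫ t : ℝ, F t (q 0 ^ 2 + q 1 ^ 2) := by
  have e1 := EuclideanSpace.volume_preserving_symm_measurableEquiv_toLp (Fin 3)
  have e2 := volume_preserving_piFinSuccAbove (fun _ : Fin 3 => ℝ) 0
  have e3 := e2.comp e1
  set e : R3 ≃ᵐ ℝ × (Fin 2 → ℝ) := (MeasurableEquiv.toLp 2 (Fin 3 → ℝ)).symm.trans
    (MeasurableEquiv.piFinSuccAbove (fun _ : Fin 3 => ℝ) 0) with he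
  have e4 : MeasurePreserving e := e3
  let G : ℝ × (Fin 2 → ℝ) → ℝ := fun w => F w.1 (w.2 0 ^ 2 + w.2 1 ^ 2)
  have hG : ∀ z : R3, F (z 0) (z 1 ^ 2 + z 2 ^ 2) = G (e z) := by
    intro z
    rfl
  have hint : Integrable G := by
    have : Integrable (G ∘ e) := by
      refine hF.congr (Eventually.of_forall fun z => hG z)
    exact (e4.integrable_comp_emb e.measurableEmbedding).1 this
  calc ∫ z : R3, F (z 0) (z 1 ^ 2 + z 2 ^ 2) = ∫ z : R3, G (e z) := by
        congr 1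
    _ = ∫ w, G w := e4.integral_comp e.measurableEmbedding G
    _ = ∫ q : Fin 2 → ℝ, ∫ t : ℝ, F t (q 0 ^ 2 + q 1 ^ 2) := by
        rw [Measure.volume_eq_prod] at hint ⊢
        rw [integral_prod_symm _ hint]

theorem norm_sq_R3 (z : R3) : ‖z‖ ^ 2 = z 0 ^ 2 + (z 1 ^ 2 + z 2 ^ 2) := by
  rw [EuclideanSpace.norm_sq_eq, Fin.sum_univ_three]
  simp only [Real.norm_eq_abs, sq_abs]; ring

namespace Profile

variable {a : ℝ} {P : ℝ → ℝ}

theorem continuous_normSq (hP : Profile a P) : Continuous fun z : R3 => P (‖z‖ ^ 2) :=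
  hP.continuous.comp (by (clear * -; fun_prop))

theorem continuous_deriv_normSq (hP : Profile a P) :
    Continuous fun z : R3 => deriv P (‖z‖ ^ 2) :=
  hP.continuous_deriv.comp (by (clear * -; fun_prop))

theorem hasCompactSupport_mul (hP : Profile a P) {F : R3 → ℝ} :
    HasCompactSupport fun z : R3 => F z * deriv P (‖z‖ ^ 2) := by
  apply HasCompactSupport.of_support_subset_isCompact (isCompact_closedBall (0 : R3) 1)
  intro z hz
  by_contra hcon
  rw [mem_closedBall_zero_iff, not_le] at hcon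
  apply hz
  have : 1 < ‖z‖ ^ 2 := by nlinarith only [hcon]
  simp [hP.deriv_eq_zero this]

theorem hasCompactSupport_normSq (hP : Profile a P) :
    HasCompactSupport fun z : R3 => P (‖z‖ ^ 2) := by
  apply HasCompactSupport.of_support_subset_isCompact (isCompact_closedBall (0 : R3) 1)
  intro z hz
  by_contra hcon
  rw [mem_closedBall_zero_iff, not_le] at hcon
  apply hz
  have : 1 < ‖z‖ ^ 2 := by nlinarith only [hcon]
  simp [hP.zero_of_ge _ this.le]

theorem integrable_normSq (hP : Profile a P) : Integrable fun z : R3 => P (‖z‖ ^ 2) :=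
  hP.continuous_normSq.integrable_of_hasCompactSupport hP.hasCompactSupport_normSq

theorem integrable_mul_deriv (hP : Profile a P) {F : R3 → ℝ} (hF : Continuous F) :
    Integrable fun z : R3 => F z * deriv P (‖z‖ ^ 2) :=
  (hF.mul hP.continuous_deriv_normSq).integrable_of_hasCompactSupport hP.hasCompactSupport_mul

/-- The normalization constant of the profile. -/
noncomputable def Z (P : ℝ → ℝ) : ℝ := ∫ z : R3, P (‖z‖ ^ 2)

theorem Z_ge (hP : Profile a P) (ha : 0 < a) : π * 4 / 3 * a ^ 3 ≤ Z P := by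
  have h1 : ∫ z : R3, (closedBall (0 : R3) a).indicator (fun _ => (1 : ℝ)) z ≤ Z P := by
    apply integral_mono_of_nonneg
    · exact Eventually.of_forall fun z => indicator_nonneg (fun _ _ => zero_le_one) z
    · exact hP.integrable_normSq
    · refine Eventually.of_forall fun z => ?_
      by_cases hz : z ∈ closedBall (0 : R3) a
      · rw [indicator_of_mem hz]
        rw [mem_closedBall_zero_iff] at hz
        have : ‖z‖ ^ 2 ≤ a ^ 2 := by (clear * - hz; gcongr)
        simp only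
        rw [hP.one_of_le _ this]
      · rw [indicator_of_notMem hz]; exact hP.nonneg _
  rw [integral_indicator measurableSet_closedBall] at h1
  simp only [integral_const, smul_eq_mul, mul_one] at h1
  rw [measureReal_restrict_apply MeasurableSet.univ, univ_inter, Measure.real,
    EuclideanSpace.volume_closedBall_fin_three] at h1
  rw [ENNReal.toReal_mul, ENNReal.toReal_pow, ENNReal.toReal_ofReal ha.le,
    ENNReal.toReal_ofReal (by positivity)] at h1
  linarith only [h1]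

theorem Z_pos (hP : Profile a P) (ha : 0 < a) : 0 < Z P :=
  lt_of_lt_of_le (by positivity) (hP.Z_ge ha)

/-- The key integral bound. -/
theorem J_le (hP : Profile a P) : ∫ z : R3, |z 0| * |deriv P (‖z‖ ^ 2)| ≤ π := by
  have hint : Integrable fun z : R3 => |z 0| * |deriv P (‖z‖ ^ 2)| := by
    have h1 : Integrable fun z : R3 => z 0 * deriv P (‖z‖ ^ 2) :=
      hP.integrable_mul_deriv (by fun_prop)
    refine h1.abs.congr (Eventually.of_forall fun z => ?_)
    simp only [abs_mul]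
  have h2 : ∀ z : R3, |z 0| * |deriv P (‖z‖ ^ 2)|
      = (fun t s : ℝ => |t| * |deriv P (t ^ 2 + s)|) (z 0) (z 1 ^ 2 + z 2 ^ 2) := by
    intro z
    simp only
    rw [norm_sq_R3]
  have h5 : (fun z : R3 => |z 0| * |deriv P (‖z‖ ^ 2)|) = fun z : R3 =>
      (fun t s : ℝ => |t| * |deriv P (t ^ 2 + s)|) (z 0) (z 1 ^ 2 + z 2 ^ 2) := funext h2
  rw [h5] at hint
  have h6 := integral_slice (fun t s : ℝ => |t| * |deriv P (t ^ 2 + s)|) hint
  rw [h5, h6]
  simp_rw [hP.line_integral]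
  -- the remaining planar integral
  have e1 := EuclideanSpace.volume_preserving_symm_measurableEquiv_toLp (Fin 2)
  have h3 : ∫ q : Fin 2 → ℝ, P (q 0 ^ 2 + q 1 ^ 2)
      = ∫ w : EuclideanSpace ℝ (Fin 2), P (‖w‖ ^ 2) := by
    rw [← e1.integral_comp (MeasurableEquiv.measurableEmbedding _)
      (fun q : Fin 2 → ℝ => P (q 0 ^ 2 + q 1 ^ 2))]
    congr 1
    ext w
    rw [EuclideanSpace.norm_sq_eq, Fin.sum_univ_two]
    simp only [Real.norm_eq_abs, sq_abs]
    rfl
  rw [h3]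
  have h4 : ∫ w : EuclideanSpace ℝ (Fin 2), P (‖w‖ ^ 2)
      ≤ ∫ w : EuclideanSpace ℝ (Fin 2),
        (closedBall (0 : EuclideanSpace ℝ (Fin 2)) 1).indicator (fun _ => (1 : ℝ)) w := by
    apply integral_mono_of_nonneg
    · exact Eventually.of_forall fun z => hP.nonneg _
    · rw [integrable_indicator_iff measurableSet_closedBall]
      exact integrableOn_const (by
        rw [EuclideanSpace.volume_closedBall_fin_two]
        exact ENNReal.mul_ne_top (by simp) (by simp))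
    · refine Eventually.of_forall fun z => ?_
      by_cases hz : z ∈ closedBall (0 : EuclideanSpace ℝ (Fin 2)) 1
      · rw [indicator_of_mem hz]; exact hP.le_one _
      · rw [indicator_of_notMem hz]
        rw [mem_closedBall_zero_iff, not_le] at hz
        have : 1 ≤ ‖z‖ ^ 2 := by nlinarith only [hz]
        simp only
        rw [hP.zero_of_ge _ this]
  refine h4.trans ?_
  rw [integral_indicator measurableSet_closedBall]
  simp only [integral_const, smul_eq_mul, mul_one]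
  rw [measureReal_restrict_apply MeasurableSet.univ, univ_inter, Measure.real,
    EuclideanSpace.volume_closedBall_fin_two, ENNReal.toReal_mul, ENNReal.toReal_pow,
    ENNReal.toReal_ofReal (by norm_num), ENNReal.toReal_ofReal (by positivity)]
  simp

/-- `2 J ≤ (3/2) a⁻³ Z`. -/
theorem two_J_le (hP : Profile a P) (ha : 0 < a) :
    2 * ∫ z : R3, |z 0| * |deriv P (‖z‖ ^ 2)| ≤ 3 / 2 * (a ^ 3)⁻¹ * Z P := by
  have h1 := hP.J_le
  have h2 := hP.Z_ge ha
  have h3 : 3 / 2 * (a ^ 3)⁻¹ * (π * 4 / 3 * a ^ 3) = 2 * π := by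
    field_simp; ring
  have h4 : 3 / 2 * (a ^ 3)⁻¹ * (π * 4 / 3 * a ^ 3) ≤ 3 / 2 * (a ^ 3)⁻¹ * Z P := by
    (clear * - h2 ha; gcongr)
  linarith only [h4, h3, h1]

end Profile

end Vale.Agent.P073
end

section

/-!
# The core averaging inequality
-/

namespace Vale.Agent.P073

open MeasureTheory Set Filter Topology Metric
open scoped ENNReal ContDiff Real InnerProductSpace

namespace Profile

variable {a : ℝ} {P : ℝ → ℝ}

/-- weight of the averaged gradient, a nonnegative function -/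
noncomputable def wt (P : ℝ → ℝ) (z : R3) : ℝ := -2 * deriv P (‖z‖ ^ 2)

theorem wt_nonneg (hP : Profile a P) (z : R3) : 0 ≤ wt P z := by
  have := hP.deriv_nonpos (‖z‖ ^ 2)
  unfold wt; linarith

theorem wt_eq (hP : Profile a P) (z : R3) : wt P z = 2 * |deriv P (‖z‖ ^ 2)| := by
  rw [hP.abs_deriv]; unfold wt; ring

theorem wt_eq_zero (hP : Profile a P) {z : R3} (hz : 1 < ‖z‖) : wt P z = 0 := by
  have : 1 < ‖z‖ ^ 2 := by nlinarith only [hz]
  simp [wt, hP.deriv_eq_zero this]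

theorem wt_neg (z : R3) : wt P (-z) = wt P z := by simp only [wt, norm_neg, neg_mul]

theorem continuous_wt (hP : Profile a P) : Continuous (wt P) :=
  continuous_const.mul hP.continuous_deriv_normSq

theorem hasCompactSupport_wt (hP : Profile a P) : HasCompactSupport (wt P) := by
  apply HasCompactSupport.of_support_subset_isCompact (isCompact_closedBall (0 : R3) 1)
  intro z hz
  by_contra hcon
  rw [mem_closedBall_zero_iff, not_le] at hcon
  exact hz (hP.wt_eq_zero hcon)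

variable {V : Type*} [NormedAddCommGroup V] [NormedSpace ℝ V]

/-- Functions continuous on the closed unit ball become integrable after multiplication by the
weight. -/
theorem integrable_wt_smul (hP : Profile a P) {F : R3 → V}
    (hF : ContinuousOn F (closedBall 0 1)) {c : R3 → ℝ} (hc : Continuous c) :
    Integrable fun z => (wt P z * c z) • F z := by
  have h1 : IntegrableOn (fun z => (wt P z * c z) • F z) (closedBall 0 1) :=
    ContinuousOn.integrableOn_compact (isCompact_closedBall _ _)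
      ((hP.continuous_wt.mul hc).continuousOn.smul hF)
  refine (integrableOn_iff_integrable_of_support_subset ?_).1 h1
  intro z hz
  by_contra hcon
  rw [mem_closedBall_zero_iff, not_le] at hcon
  exact hz (by simp [hP.wt_eq_zero hcon])

/-- Integration by parts against linear maps. -/
theorem integral_wt_inner_smul (hP : Profile a P) [FiniteDimensional ℝ V] (L : R3 →L[ℝ] V)
    (w : R3) : ∫ z : R3, (wt P z * ⟪z, w⟫_ℝ) • L z = Z P • L w := by
  have hd : ∀ z : R3, HasFDerivAt (fun z : R3 => P (‖z‖ ^ 2))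
      (deriv P (‖z‖ ^ 2) • (2 • (innerSL ℝ z))) z := by
    intro z
    have h1 : HasFDerivAt (fun z : R3 => ‖z‖ ^ 2) (2 • (innerSL ℝ z)) z :=
      (hasStrictFDerivAt_norm_sq z).hasFDerivAt
    exact (hP.differentiable _).hasDerivAt.comp_hasFDerivAt z h1
  have hfd : ∀ z : R3, fderiv ℝ (fun z : R3 => P (‖z‖ ^ 2)) z w = - (wt P z * ⟪z, w⟫_ℝ) := by
    intro z
    rw [(hd z).fderiv]
    simp only [smul_apply, innerSL_apply_apply, smul_eq_mul, nsmul_eq_mul, wt]
    push_cast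
    ring
  have hLfd : ∀ z : R3, fderiv ℝ (fun z => L z) z w = L w := by
    intro z
    rw [L.hasFDerivAt.fderiv]
  have key := integral_smul_fderiv_eq_neg_fderiv_smul_of_integrable (μ := (volume : Measure R3))
    (f := fun z : R3 => P (‖z‖ ^ 2)) (g := fun z => L z) (v := w) ?_ ?_ ?_ ?_ ?_
  · simp_rw [hfd, hLfd] at key
    rw [integral_smul_const] at key
    simp only [neg_smul, integral_neg, neg_neg] at key
    rw [← key]; rfl
  · simp_rw [hfd, neg_smul]
    exact (hP.integrable_wt_smul L.continuous.continuousOn (by fun_prop)).neg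
  · simp_rw [hLfd]
    exact hP.integrable_normSq.smul_const _
  · have hc : HasCompactSupport fun z : R3 => P (‖z‖ ^ 2) • L z :=
      hP.hasCompactSupport_normSq.smul_right
    exact (hP.continuous_normSq.smul L.continuous).integrable_of_hasCompactSupport hc
  · intro z _; exact (hd z).differentiableAt
  · intro z _; exact L.differentiableAt

theorem integral_wt_odd (z₀ : R3) (v : V) :
    ∫ z : R3, (wt P z * ⟪z, z₀⟫_ℝ) • v = 0 := by
  have h1 : ∫ z : R3, (wt P z * ⟪z, z₀⟫_ℝ) • v = ∫ z : R3, (wt P (-z) * ⟪-z, z₀⟫_ℝ) • v :=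
    (integral_neg_eq_self (fun z : R3 => (wt P z * ⟪z, z₀⟫_ℝ) • v) volume).symm
  have h2 : ∫ z : R3, (wt P (-z) * ⟪-z, z₀⟫_ℝ) • v = - ∫ z : R3, (wt P z * ⟪z, z₀⟫_ℝ) • v := by
    rw [← integral_neg]
    congr 1; ext z
    rw [wt_neg, inner_neg_left, mul_neg, neg_smul]
  have h3 : (2 : ℝ) • ∫ z : R3, (wt P z * ⟪z, z₀⟫_ℝ) • v = 0 := by
    rw [two_smul]
    nth_rewrite 1 [h1]
    rw [h2]; simp
  simpa only [isUnit_iff_ne_zero, ne_eq, OfNat.ofNat_ne_zero, not_false_eq_true, IsUnit.smul_eq_zero] using h3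

/-- The first coordinate vector. -/
noncomputable abbrev e0 : R3 := EuclideanSpace.single 0 1

theorem inner_e0 (z : R3) : ⟪z, e0⟫_ℝ = z 0 := by
  rw [real_inner_comm]
  simp [e0, EuclideanSpace.inner_single_left]

theorem norm_e0 : ‖e0‖ = 1 := by simp [e0]

theorem norm_add_e0_sq (z : R3) : ‖z + e0‖ ^ 2 = ‖z‖ ^ 2 + 1 + 2 * z 0 := by
  rw [norm_add_sq_real, inner_e0, norm_e0]; ring

theorem norm_sub_e0_sq (z : R3) : ‖z - e0‖ ^ 2 = ‖z‖ ^ 2 + 1 - 2 * z 0 := by
  rw [norm_sub_sq_real, inner_e0, norm_e0]; ring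

/-- the constant `c₀` -/
noncomputable def c0 (a ρ : ℝ) : ℝ := (1 + ρ) - (ρ - 1) * (3 / 2 * (a ^ 3)⁻¹)

/-- **Core inequality**: the averaged gradient in the direction `e0`, tested against the
difference of the values at the two poles. -/
theorem core (hP : Profile a P) (ha : 0 < a) {W : Type*} [NormedAddCommGroup W]
    [InnerProductSpace ℝ W] [CompleteSpace W] {ψ : R3 → W} {ρ : ℝ} (hρ : 1 ≤ ρ)
    (hlow : ∀ z ∈ closedBall (0 : R3) 1, ∀ z' ∈ closedBall (0 : R3) 1, ‖z - z'‖ ^ 2 ≤ ‖ψ z - ψ z'‖ ^ 2)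
    (hup : ∀ z ∈ closedBall (0 : R3) 1, ∀ z' ∈ closedBall (0 : R3) 1,
      ‖ψ z - ψ z'‖ ^ 2 ≤ ρ * ‖z - z'‖ ^ 2) :
    c0 a ρ * Z P ≤ ⟪ψ e0 - ψ (-e0), ∫ z : R3, (wt P z * z 0) • ψ z⟫_ℝ := by
  have hψc : ContinuousOn ψ (closedBall 0 1) := by
    have hL : LipschitzOnWith (Real.toNNReal (Real.sqrt ρ)) ψ (closedBall 0 1) := by
      apply LipschitzOnWith.of_dist_le_mul
      intro z hz z' hz'
      rw [dist_eq_norm, dist_eq_norm, Real.coe_toNNReal _ (Real.sqrt_nonneg _)]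
      have h1 := hup z hz z' hz'
      have h2 : ‖ψ z - ψ z'‖ ^ 2 ≤ (Real.sqrt ρ * ‖z - z'‖) ^ 2 := by
        rw [mul_pow, Real.sq_sqrt (by linarith)]; exact h1
      exact (sq_le_sq₀ (norm_nonneg _) (by positivity)).1 h2
    exact hL.continuousOn
  have he0 : e0 ∈ closedBall (0 : R3) 1 := by simp only [mem_closedBall, dist_zero_right, PiLp.norm_single, norm_one, Std.le_refl]
  have hne0 : -e0 ∈ closedBall (0 : R3) 1 := by simp only [mem_closedBall, dist_zero_right, norm_neg, PiLp.norm_single, norm_one, Std.le_refl]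
  set v : W := ψ e0 - ψ (-e0) with hv
  set m : ℝ := (1 / 2) * ⟪v, ψ e0 + ψ (-e0)⟫_ℝ with hm
  have hI1 : Integrable fun z : R3 => (wt P z * z 0) • ψ z :=
    hP.integrable_wt_smul hψc (by fun_prop)
  -- rewrite the pairing as an integral
  have h1 : ⟪v, ∫ z : R3, (wt P z * z 0) • ψ z⟫_ℝ = ∫ z : R3, (wt P z * z 0) * (⟪v, ψ z⟫_ℝ - m) := by
    have h2 : ⟪v, ∫ z : R3, (wt P z * z 0) • ψ z⟫_ℝ = ∫ z : R3, ⟪v, (wt P z * z 0) • ψ z⟫_ℝ :=
      (integral_inner hI1 v).symm
    have h3 : ∫ z : R3, (wt P z * z 0) • m = 0 := by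
      have := integral_wt_odd (P := P) e0 m
      simpa only [inner_e0] using this
    have hI2 : Integrable fun z : R3 => (wt P z * z 0) • m :=
      hP.integrable_wt_smul continuousOn_const (by fun_prop)
    have hI3 : Integrable fun z : R3 => ⟪v, (wt P z * z 0) • ψ z⟫_ℝ := hI1.const_inner v
    rw [h2, ← sub_zero (∫ z : R3, ⟪v, (wt P z * z 0) • ψ z⟫_ℝ), ← h3, ← integral_sub hI3 hI2]
    congr 1; ext z
    rw [inner_smul_right, smul_eq_mul]; ring
  rw [h1]
  -- polarization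
  have hpol : ∀ z : R3, ⟪v, ψ z⟫_ℝ - m = (1 / 2) * (‖ψ z - ψ (-e0)‖ ^ 2 - ‖ψ z - ψ e0‖ ^ 2) := by
    intro z
    rw [norm_sub_sq_real, norm_sub_sq_real, hm, hv, inner_add_right, inner_sub_left,
      inner_sub_left, inner_sub_left, real_inner_self_eq_norm_sq, real_inner_self_eq_norm_sq,
      real_inner_comm (ψ z) (ψ e0), real_inner_comm (ψ z) (ψ (-e0)),
      real_inner_comm (ψ e0) (ψ (-e0))]
    ring
  have hpt : ∀ z : R3, wt P z * (|z 0| * ((1 - ρ) + (1 + ρ) * |z 0|))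
      ≤ (wt P z * z 0) * (⟪v, ψ z⟫_ℝ - m) := by
    intro z
    by_cases hz : z ∈ closedBall (0 : R3) 1
    · have hw := hP.wt_nonneg z
      rw [mul_assoc]
      apply mul_le_mul_of_nonneg_left _ hw
      rw [hpol]
      have hz1 : ‖z‖ ^ 2 ≤ 1 := by
        rw [mem_closedBall_zero_iff] at hz
        linarith only [mul_nonneg (sub_nonneg.2 hz) (sub_nonneg.2 (norm_nonneg z)), mul_nonneg (sub_nonneg.2 hz) (sub_nonneg.2 hz)]
      have l1 := hlow z hz e0 he0
      have l2 := hlow z hz (-e0) hne0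
      have u1 := hup z hz e0 he0
      have u2 := hup z hz (-e0) hne0
      rw [sub_neg_eq_add, norm_add_e0_sq] at l2 u2
      rw [norm_sub_e0_sq] at l1 u1
      rcases le_or_gt 0 (z 0) with h0 | h0
      · rw [abs_of_nonneg h0]
        have : (1 - ρ) + (1 + ρ) * z 0 ≤
            1 / 2 * (‖ψ z - ψ (-e0)‖ ^ 2 - ‖ψ z - ψ e0‖ ^ 2) := by
          linarith only [mul_nonneg (sub_nonneg.2 hρ) (sub_nonneg.2 hz1), mul_nonneg (mul_self_nonneg (1 : ℝ)) (sub_nonneg.2 u1), mul_nonneg (mul_self_nonneg (1 : ℝ)) (sub_nonneg.2 l2)]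
        exact mul_le_mul_of_nonneg_left this h0
      · rw [abs_of_neg h0]
        have : 1 / 2 * (‖ψ z - ψ (-e0)‖ ^ 2 - ‖ψ z - ψ e0‖ ^ 2) ≤
            -((1 - ρ) + (1 + ρ) * (-z 0)) := by
          (clear * - l1 u2 hρ hz1; linarith only [mul_nonneg (sub_nonneg.2 hρ) (sub_nonneg.2 hz1), mul_nonneg (mul_self_nonneg (1 : ℝ)) (sub_nonneg.2 u2), mul_nonneg (mul_self_nonneg (1 : ℝ)) (sub_nonneg.2 l1)])
        linarith only [mul_nonneg (le_of_lt (sub_pos.2 h0)) (sub_nonneg.2 this)]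
    · rw [mem_closedBall_zero_iff, not_le] at hz
      rw [hP.wt_eq_zero hz]; simp
  have hI4 : Integrable fun z : R3 => (wt P z * z 0) * (⟪v, ψ z⟫_ℝ - m) := by
    have := hP.integrable_wt_smul (F := fun z : R3 => (⟪v, ψ z⟫_ℝ - m))
      ((continuousOn_const.inner hψc).sub continuousOn_const) (c := fun z : R3 => z 0)
      (by fun_prop)
    simpa only [smul_eq_mul] using this
  have hI5 : Integrable fun z : R3 => wt P z * (|z 0| * ((1 - ρ) + (1 + ρ) * |z 0|)) := by
    have := hP.integrable_wt_smul (F := fun z : R3 => (1 : ℝ)) continuousOn_const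
      (c := fun z : R3 => |z 0| * ((1 - ρ) + (1 + ρ) * |z 0|)) (by fun_prop)
    simpa only [smul_eq_mul, mul_one] using this
  refine le_trans ?_ (integral_mono hI5 hI4 hpt)
  have hI6 : Integrable fun z : R3 => wt P z * |z 0| := by
    have := hP.integrable_wt_smul (F := fun z : R3 => (1 : ℝ)) continuousOn_const
      (c := fun z : R3 => |z 0|) (by fun_prop)
    simpa only [smul_eq_mul, mul_one] using this
  have hI7 : Integrable fun z : R3 => wt P z * (z 0) ^ 2 := by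
    have := hP.integrable_wt_smul (F := fun z : R3 => (1 : ℝ)) continuousOn_const
      (c := fun z : R3 => (z 0) ^ 2) (by fun_prop)
    simpa only [smul_eq_mul, mul_one] using this
  have h5 : ∀ z : R3, wt P z * (|z 0| * ((1 - ρ) + (1 + ρ) * |z 0|))
      = (1 - ρ) * (wt P z * |z 0|) + (1 + ρ) * (wt P z * (z 0) ^ 2) := by
    intro z
    rw [← sq_abs (z 0)]; ring
  simp_rw [h5]
  rw [integral_add (hI6.const_mul _) (hI7.const_mul _), integral_const_mul, integral_const_mul]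
  have h6 : ∫ z : R3, wt P z * (z 0) ^ 2 = Z P := by
    have := hP.integral_wt_inner_smul (EuclideanSpace.proj (0 : Fin 3) : R3 →L[ℝ] ℝ) e0
    simp only [inner_e0, smul_eq_mul] at this
    have h7 : (EuclideanSpace.proj (0 : Fin 3) : R3 →L[ℝ] ℝ) e0 = 1 := by simp [e0]
    rw [h7, mul_one] at this
    rw [← this]
    congr 1; ext z
    simp only [EuclideanSpace.coe_proj]
    ring
  have h8 : ∫ z : R3, wt P z * |z 0| ≤ 3 / 2 * (a ^ 3)⁻¹ * Z P := by
    have h9 := hP.two_J_le ha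
    rw [← integral_const_mul] at h9
    have h10 : ∫ z : R3, wt P z * |z 0| = ∫ z : R3, 2 * (|z 0| * |deriv P (‖z‖ ^ 2)|) :=
      integral_congr_ae (Eventually.of_forall fun z => by
        simp only
        rw [hP.wt_eq]; ring)
    rw [h10]; exact h9
  rw [h6]
  unfold c0
  linarith only [mul_nonneg (sub_nonneg.2 hρ) (sub_nonneg.2 h8)]

end Profile

end Vale.Agent.P073
end

section

/-!
# Averaging over ellipsoids depending smoothly on the centre
-/

set_option maxSynthPendingDepth 3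

namespace Vale.Agent.P073

open MeasureTheory Set Filter Topology Metric
open scoped ENNReal ContDiff Real InnerProductSpace Convolution

/-- bilinear forms -/
abbrev BF : Type := R3 →L[ℝ] R3 →L[ℝ] ℝ

/-- A smooth field of symmetric forms on `Ω`, at least the square of the norm. -/
structure FormField (Ω : Set R3) (B : R3 → BF) : Prop where
  smooth : ContDiffOn ℝ ∞ B Ω
  symm : ∀ x ∈ Ω, ∀ u v, B x u v = B x v u
  ge : ∀ x ∈ Ω, ∀ u, ‖u‖ ^ 2 ≤ B x u u

/-- the kernel -/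
noncomputable def ker (P : ℝ → ℝ) (B : R3 → BF) (x u : R3) : ℝ := P (B x u u)

/-- the numerator of the average -/
noncomputable def num {V : Type*} [NormedAddCommGroup V] [NormedSpace ℝ V] (P : ℝ → ℝ)
    (B : R3 → BF) (f : R3 → V) (x : R3) : V := ∫ u, ker P B x u • f (x - u)

/-- the mass of the kernel -/
noncomputable def mass (P : ℝ → ℝ) (B : R3 → BF) (x : R3) : ℝ := ∫ u, ker P B x u

/-- the average of `f` over ellipsoids -/
noncomputable def sm (P : ℝ → ℝ) (B : R3 → BF) (f : R3 → R3) (x : R3) : R3 :=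
  (mass P B x)⁻¹ • num P B f x

/-- the derivative of the kernel along the diagonal -/
noncomputable def dker (P : ℝ → ℝ) (B : R3 → BF) (x u h : R3) : ℝ :=
  deriv P (B x u u) * (fderiv ℝ B x h u u + 2 * B x u h)

section

variable {Ω : Set R3} {B : R3 → BF} {a : ℝ} {P : ℝ → ℝ}

theorem quad_contDiffOn (hB : FormField Ω B) :
    ContDiffOn ℝ ∞ (fun q : R3 × R3 => B q.1 q.2 q.2) (Ω ×ˢ univ) := by
  have h1 : ContDiffOn ℝ ∞ (fun q : R3 × R3 => B q.1) (Ω ×ˢ univ) :=
    hB.smooth.comp contDiff_fst.contDiffOn fun q hq => hq.1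
  have h2 : ContDiffOn ℝ ∞ (fun q : R3 × R3 => q.2) (Ω ×ˢ univ) := contDiff_snd.contDiffOn
  exact (h1.clm_apply h2).clm_apply h2

theorem ker_contDiffOn (hP : Profile a P) (hB : FormField Ω B) :
    ContDiffOn ℝ ∞ (Function.uncurry (ker P B)) (Ω ×ˢ univ) :=
  hP.smooth.comp_contDiffOn (quad_contDiffOn hB)

theorem ker_eq_zero (hP : Profile a P) (hB : FormField Ω B) {x u : R3} (hx : x ∈ Ω)
    (hu : u ∉ closedBall (0 : R3) 1) : ker P B x u = 0 := by
  rw [mem_closedBall_zero_iff, not_le] at hu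
  apply hP.zero_of_ge
  have := hB.ge x hx u
  (by_contra nlg; linarith only [nlg, mul_nonneg (sub_nonneg.2 this) (sub_nonneg.2 (norm_nonneg u)), mul_nonneg (le_of_lt (sub_pos.2 hu)) (sub_nonneg.2 this), mul_pos (sub_pos.2 hu) (sub_pos.2 hu), mul_nonneg (le_of_lt (sub_pos.2 (not_le.1 nlg))) (sub_nonneg.2 (norm_nonneg u)), mul_pos (sub_pos.2 (not_le.1 nlg)) (sub_pos.2 hu), mul_nonneg (sq_nonneg (‖u‖ : ℝ)) (le_of_lt (sub_pos.2 hu))])

theorem dker_eq_zero (hP : Profile a P) (hB : FormField Ω B) {x u h : R3} (hx : x ∈ Ω)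
    (hu : u ∉ closedBall (0 : R3) 1) : dker P B x u h = 0 := by
  rw [mem_closedBall_zero_iff, not_le] at hu
  have h1 := hB.ge x hx u
  have h2 : 1 < B x u u := by (by_contra nlg; linarith only [nlg, mul_nonneg (sub_nonneg.2 h1) (sub_nonneg.2 (norm_nonneg u)), mul_nonneg (le_of_lt (sub_pos.2 hu)) (sub_nonneg.2 h1), mul_pos (sub_pos.2 hu) (sub_pos.2 hu), mul_nonneg (sub_nonneg.2 (not_lt.1 nlg)) (sub_nonneg.2 (norm_nonneg u)), mul_nonneg (sub_nonneg.2 (not_lt.1 nlg)) (le_of_lt (sub_pos.2 hu)), mul_nonneg (sq_nonneg (‖u‖ : ℝ)) (le_of_lt (sub_pos.2 hu))])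
  simp only [dker, hP.deriv_eq_zero h2, zero_mul]

theorem fderiv_ker (hΩ : IsOpen Ω) (hP : Profile a P) (hB : FormField Ω B) {x : R3} (hx : x ∈ Ω)
    (u h : R3) : fderiv ℝ (Function.uncurry (ker P B)) (x, u) (h, h) = dker P B x u h := by
  have hBd : HasFDerivAt B (fderiv ℝ B x) x :=
    ((hB.smooth.contDiffAt (hΩ.mem_nhds hx)).differentiableAt (by simp)).hasFDerivAt
  have h1 : HasFDerivAt (fun q : R3 × R3 => B q.1)
      ((fderiv ℝ B x).comp (ContinuousLinearMap.fst ℝ R3 R3)) (x, u) :=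
    HasFDerivAt.comp (g := B) (f := fun q : R3 × R3 => q.1) (x, u) hBd hasFDerivAt_fst
  have h2 : HasFDerivAt (fun q : R3 × R3 => q.2) (ContinuousLinearMap.snd ℝ R3 R3) (x, u) :=
    hasFDerivAt_snd
  have h3 := (h1.clm_apply h2).clm_apply h2
  have h4 := (hP.differentiable (B x u u)).hasDerivAt.comp_hasFDerivAt (x, u) h3
  have h5 : fderiv ℝ (Function.uncurry (ker P B)) (x, u) = _ := HasFDerivAt.fderiv h4
  rw [h5]
  simp only [add_apply, ContinuousLinearMap.comp_apply,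
    smul_apply, ContinuousLinearMap.flip_apply, ContinuousLinearMap.coe_fst',
    ContinuousLinearMap.coe_snd', smul_eq_mul, dker]
  rw [hB.symm x hx h u]
  ring

variable {V : Type*} [NormedAddCommGroup V] [NormedSpace ℝ V]

theorem num_eq_convolution (f : R3 → V) (x : R3) :
    num P B f x = (f ⋆[(ContinuousLinearMap.lsmul ℝ ℝ : ℝ →L[ℝ] V →L[ℝ] V).flip, volume]
      ker P B x) x := by
  rw [convolution_eq_swap]
  rfl

theorem num_contDiffOn (hΩ : IsOpen Ω) (hP : Profile a P) (hB : FormField Ω B) {f : R3 → V}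
    (hf : LocallyIntegrable f) : ContDiffOn ℝ ∞ (num P B f) Ω := by
  have h1 := contDiffOn_convolution_right_with_param (μ := (volume : Measure R3)) (n := ⊤)
    ((ContinuousLinearMap.lsmul ℝ ℝ : ℝ →L[ℝ] V →L[ℝ] V).flip) hΩ
    (isCompact_closedBall (0 : R3) 1) (g := ker P B)
    (fun p x hp hx => ker_eq_zero hP hB hp hx) hf (ker_contDiffOn hP hB)
  have h2 : ContDiffOn ℝ ∞ (fun x : R3 => (x, x)) Ω := (contDiff_id.prodMk contDiff_id).contDiffOn
  have h3 := h1.comp h2 (fun x hx => ⟨hx, mem_univ _⟩)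
  refine h3.congr fun x _ => ?_
  exact num_eq_convolution f x

theorem dker_continuous (hP : Profile a P) {x : R3} (h : R3) : Continuous fun u => dker P B x u h := by
  unfold dker
  have h1 : Continuous fun u => B x u u := (B x).continuous.clm_apply continuous_id
  have h2 : Continuous fun u => fderiv ℝ B x h u u :=
    (fderiv ℝ B x h).continuous.clm_apply continuous_id
  have h3 : Continuous fun u => B x u h := (B x).continuous.clm_apply continuous_const
  exact (hP.continuous_deriv.comp h1).mul (h2.add (continuous_const.mul h3))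

theorem dker_integrable (hP : Profile a P) (hB : FormField Ω B) {x : R3}
    (hx : x ∈ Ω) (h : R3) {f : R3 → V} (hf : LocallyIntegrable f) :
    Integrable fun u => dker P B x u h • f (x - u) := by
  have hc : HasCompactSupport fun u => dker P B x u h := by
    apply HasCompactSupport.of_support_subset_isCompact (isCompact_closedBall (0 : R3) 1)
    intro u hu
    by_contra hcon
    exact hu (dker_eq_zero hP hB hx hcon)
  have h1 : LocallyIntegrable fun u => f (x - u) := by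
    have e : MeasurePreserving (fun u : R3 => x - u) volume volume :=
      Measure.measurePreserving_sub_left volume x
    intro y
    obtain ⟨s, hs, hfs⟩ := hf (x - y)
    refine ⟨(fun u : R3 => x - u) ⁻¹' s, (by (clear * -; fun_prop) : Continuous fun u : R3 => x - u).continuousAt hs, ?_⟩
    exact (e.integrableOn_comp_preimage (MeasurableEquiv.subLeft x).measurableEmbedding).2 hfs
  exact h1.integrable_smul_left_of_hasCompactSupport (dker_continuous hP h) hc

theorem hasFDerivAt_num (hΩ : IsOpen Ω) (hP : Profile a P) (hB : FormField Ω B) {f : R3 → V}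
    (hf : LocallyIntegrable f) {x : R3} (hx : x ∈ Ω) :
    ∃ N' : R3 →L[ℝ] V, HasFDerivAt (num P B f) N' x ∧
      ∀ h, N' h = ∫ u, dker P B x u h • f (x - u) := by
  set L := ((ContinuousLinearMap.lsmul ℝ ℝ : ℝ →L[ℝ] V →L[ℝ] V).flip) with hL
  have h1 := hasFDerivAt_convolution_right_with_param (μ := (volume : Measure R3)) L hΩ
    (isCompact_closedBall (0 : R3) 1) (g := ker P B)
    (fun p x hp hx => ker_eq_zero hP hB hp hx) hf ((ker_contDiffOn hP hB).of_le (by simp only [WithTop.one_le_coe, le_top]))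
    (x, x) hx
  have h2 : HasFDerivAt (fun x : R3 => (x, x))
      ((ContinuousLinearMap.id ℝ R3).prod (ContinuousLinearMap.id ℝ R3)) x :=
    (hasFDerivAt_id x).prodMk (hasFDerivAt_id x)
  have h3 := HasFDerivAt.comp (g := fun q : R3 × R3 => (f ⋆[L, volume] ker P B q.1) q.2)
    (f := fun x : R3 => (x, x)) x h1 h2
  refine ⟨_, h3.congr_of_eventuallyEq (Eventually.of_forall fun y => num_eq_convolution f y), ?_⟩
  intro h
  simp only [ContinuousLinearMap.comp_apply, ContinuousLinearMap.prod_apply,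
    ContinuousLinearMap.coe_id', id_eq]
  have hopen : Ω ×ˢ (univ : Set R3) ∈ 𝓝 (x, (0 : R3)) := (hΩ.prod isOpen_univ).mem_nhds ⟨hx, mem_univ _⟩
  have hcd : ContDiffOn ℝ ∞ (Function.uncurry (ker P B)) (Ω ×ˢ univ) := ker_contDiffOn hP hB
  have hcont : Continuous fun u => fderiv ℝ (Function.uncurry (ker P B)) (x, u) := by
    have h4 := hcd.continuousOn_fderiv_of_isOpen (hΩ.prod isOpen_univ) (by simp only [WithTop.one_le_coe, le_top])
    exact h4.comp_continuous (by fun_prop) fun u => ⟨hx, mem_univ _⟩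
  have hsupp : HasCompactSupport fun u => fderiv ℝ (Function.uncurry (ker P B)) (x, u) := by
    apply HasCompactSupport.of_support_subset_isCompact (isCompact_closedBall (0 : R3) 1)
    intro u hu
    by_contra hcon
    apply hu
    have h5 : Function.uncurry (ker P B) =ᶠ[𝓝 (x, u)] fun _ => (0 : ℝ) := by
      have h6 : Ω ×ˢ (closedBall (0 : R3) 1)ᶜ ∈ 𝓝 (x, u) :=
        (hΩ.prod isClosed_closedBall.isOpen_compl).mem_nhds ⟨hx, hcon⟩
      filter_upwards [h6] with q hq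
      exact ker_eq_zero hP hB hq.1 hq.2
    simp only
    rw [h5.fderiv_eq]; simp only [fderiv_fun_const, Pi.zero_apply]
  have h7 : ↿(ker P B) = Function.uncurry (ker P B) := rfl
  rw [h7, convolution_precompR_apply L hf hsupp hcont, convolution_eq_swap]
  congr 1
  ext u
  rw [← fderiv_ker hΩ hP hB hx u h]
  rfl

theorem mass_eq_num (x : R3) : mass P B x = num P B (fun _ => (1 : ℝ)) x := by
  simp [mass, num]

theorem mass_contDiffOn (hΩ : IsOpen Ω) (hP : Profile a P) (hB : FormField Ω B) :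
    ContDiffOn ℝ ∞ (mass P B) Ω :=
  (num_contDiffOn hΩ hP hB (f := fun _ => (1 : ℝ)) (locallyIntegrable_const 1)).congr
    fun x _ => mass_eq_num x

theorem hasFDerivAt_mass (hΩ : IsOpen Ω) (hP : Profile a P) (hB : FormField Ω B) {x : R3}
    (hx : x ∈ Ω) :
    ∃ N' : R3 →L[ℝ] ℝ, HasFDerivAt (mass P B) N' x ∧ ∀ h, N' h = ∫ u, dker P B x u h := by
  obtain ⟨N', h1, h2⟩ := hasFDerivAt_num hΩ hP hB (f := fun _ => (1 : ℝ))
    (locallyIntegrable_const 1) hx
  refine ⟨N', h1.congr_of_eventuallyEq (Eventually.of_forall fun y => mass_eq_num y), ?_⟩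
  intro h
  rw [h2 h]; simp

/-- linear change of variables -/
theorem exists_scale (A : R3 ≃L[ℝ] R3) : ∃ c : ℝ, 0 < c ∧
    ∀ {W : Type _} [NormedAddCommGroup W] [NormedSpace ℝ W] (F : R3 → W),
      ∫ u, F u = c • ∫ z, F (A z) := by
  have hdet : LinearMap.det (A : R3 →ₗ[ℝ] R3) ≠ 0 := (LinearEquiv.isUnit_det' A.toLinearEquiv).ne_zero
  have hmap := Measure.map_linearMap_addHaar_eq_smul_addHaar (volume : Measure R3) hdet
  refine ⟨|LinearMap.det (A : R3 →ₗ[ℝ] R3)|, abs_pos.2 hdet, ?_⟩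
  intro W _ _ F
  have h1 : ∫ z, F (A z) = ∫ u, F u ∂(Measure.map A volume) :=
    (A.toHomeomorph.toMeasurableEquiv.measurableEmbedding.integral_map F).symm
  have h2 : Measure.map A (volume : Measure R3)
      = ENNReal.ofReal |(LinearMap.det (A : R3 →ₗ[ℝ] R3))⁻¹| • volume := hmap
  rw [h1, h2, integral_smul_measure, ENNReal.toReal_ofReal (abs_nonneg _), smul_smul, abs_inv,
    mul_inv_cancel₀ (abs_ne_zero.2 hdet), one_smul]

end

end Vale.Agent.P073
end

section

/-!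
# Pointwise analysis of the ellipsoidal averages
-/

set_option maxSynthPendingDepth 3

namespace Vale.Agent.P073

open MeasureTheory Set Filter Topology Metric
open scoped ENNReal ContDiff Real InnerProductSpace
open Profile

variable {Ω : Set R3} {B : R3 → BF} {a : ℝ} {P : ℝ → ℝ}

/-- Integrability of continuous functions against compactly supported continuous weights. -/
theorem integrable_weight_smul {V : Type*} [NormedAddCommGroup V] [NormedSpace ℝ V]
    {F : R3 → V} (hF : ContinuousOn F (closedBall 0 1)) {c : R3 → ℝ} (hc : Continuous c)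
    (hz : ∀ z : R3, 1 < ‖z‖ → c z = 0) : Integrable fun z => c z • F z := by
  have h1 : IntegrableOn (fun z => c z • F z) (closedBall 0 1) :=
    ContinuousOn.integrableOn_compact (isCompact_closedBall _ _) (hc.continuousOn.smul hF)
  refine (integrableOn_iff_integrable_of_support_subset ?_).1 h1
  intro z hz'
  by_contra hcon
  rw [mem_closedBall_zero_iff, not_le] at hcon
  exact hz' (by simp [hz z hcon])

/-- The form in adapted coordinates. -/
structure Adapted (B : R3 → BF) (x : R3) (A : R3 ≃L[ℝ] R3) : Prop where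
  inner : ∀ z w, B x (A z) (A w) = ⟪z, w⟫_ℝ

theorem Adapted.self {x : R3} {A : R3 ≃L[ℝ] R3} (hA : Adapted B x A) (z : R3) :
    B x (A z) (A z) = ‖z‖ ^ 2 := by rw [hA.inner, real_inner_self_eq_norm_sq]

theorem Adapted.apply {x : R3} {A : R3 ≃L[ℝ] R3} (hA : Adapted B x A) (z h : R3) :
    B x (A z) h = ⟪z, A.symm h⟫_ℝ := by
  rw [← hA.inner, A.apply_symm_apply]

theorem sm_eq {x : R3} {A : R3 ≃L[ℝ] R3} (hA : Adapted B x A)
    (f : R3 → R3) : sm P B f x = (Z P)⁻¹ • ∫ z : R3, P (‖z‖ ^ 2) • f (x - A z) := by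
  obtain ⟨c, hc, hcs⟩ := exists_scale.{0} A
  have h1 : mass P B x = c * Z P := by
    unfold mass ker Z
    rw [hcs, smul_eq_mul]
    simp_rw [hA.self]
  have h2 : num P B f x = c • ∫ z : R3, P (‖z‖ ^ 2) • f (x - A z) := by
    unfold num ker
    rw [hcs]
    simp_rw [hA.self]
  unfold sm
  rw [h1, h2, smul_smul, mul_inv, mul_comm, ← mul_assoc, mul_inv_cancel₀ hc.ne', one_mul]

theorem sm_hasFDerivAt (hΩ : IsOpen Ω) (hP : Profile a P) (ha : 0 < a) (hB : FormField Ω B)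
    {f : R3 → R3} (hf : LocallyIntegrable f) {x : R3} (hx : x ∈ Ω) {A : R3 ≃L[ℝ] R3}
    (hA : Adapted B x A) (hfc : ContinuousOn (fun z => f (x - A z)) (closedBall 0 1)) :
    DifferentiableAt ℝ (sm P B f) x ∧ ∀ h w : R3,
      fderiv ℝ (sm P B f) x h =
        -((Z P)⁻¹ • ∫ z : R3, (wt P z * ⟪z, A.symm h⟫_ℝ) • (f (x - A z) - w)) +
        (Z P)⁻¹ • ∫ z : R3, (deriv P (‖z‖ ^ 2) * fderiv ℝ B x h (A z) (A z)) •
          (f (x - A z) - sm P B f x) := by
  obtain ⟨c, hc, hcs⟩ := exists_scale.{0} A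
  obtain ⟨N', hN1, hN2⟩ := hasFDerivAt_num hΩ hP hB hf hx
  obtain ⟨M', hM1, hM2⟩ := hasFDerivAt_mass hΩ hP hB hx
  have hmass : mass P B x = c * Z P := by
    unfold mass ker Z
    rw [hcs, smul_eq_mul]
    simp_rw [hA.self]
  have hZ := hP.Z_pos ha
  have hmpos : 0 < mass P B x := by rw [hmass]; (clear * - hc hZ; positivity)
  have hinv : HasFDerivAt (fun y => (mass P B y)⁻¹) (-((mass P B x) ^ 2)⁻¹ • M') x := by
    have := (hasDerivAt_inv hmpos.ne').comp_hasFDerivAt x hM1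
    exact this
  have hsm := hinv.smul hN1
  have hsm' : HasFDerivAt (sm P B f)
      ((mass P B x)⁻¹ • N' + (-((mass P B x) ^ 2)⁻¹ • M').smulRight (num P B f x)) x := hsm
  refine ⟨hsm'.differentiableAt, ?_⟩
  intro h w
  rw [hsm'.fderiv]
  have hd1 : Integrable fun u => dker P B x u h • f (x - u) := dker_integrable hP hB hx h hf
  have hd2 : Integrable fun u => dker P B x u h • sm P B f x := by
    have := dker_integrable hP hB hx h (f := fun _ => sm P B f x) (locallyIntegrable_const _)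
    exact this
  have e1 : ((mass P B x)⁻¹ • N' + (-((mass P B x) ^ 2)⁻¹ • M').smulRight (num P B f x)) h
      = (mass P B x)⁻¹ • ∫ u, dker P B x u h • (f (x - u) - sm P B f x) := by
    simp only [add_apply, smul_apply, ContinuousLinearMap.smulRight_apply, hN2 h, hM2 h]
    have : ∫ u, dker P B x u h • (f (x - u) - sm P B f x)
        = (∫ u, dker P B x u h • f (x - u)) - (∫ u, dker P B x u h) • sm P B f x := by
      simp_rw [smul_sub]
      rw [integral_sub hd1 hd2, integral_smul_const]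
    rw [this, smul_sub]
    have h3 : num P B f x = mass P B x • sm P B f x := by
      unfold sm
      rw [smul_smul, mul_inv_cancel₀ hmpos.ne', one_smul]
    rw [sub_eq_add_neg, h3]
    congr 1
    rw [smul_smul, smul_smul, ← neg_smul]
    congr 1
    simp only [smul_eq_mul]
    (clear * - hmpos; field_simp)
  rw [e1, hcs, hmass]
  -- split the derivative of the kernel
  have hdk : ∀ z, dker P B x (A z) h = -(wt P z * ⟪z, A.symm h⟫_ℝ) +
      deriv P (‖z‖ ^ 2) * fderiv ℝ B x h (A z) (A z) := by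
    intro z
    unfold dker wt
    rw [hA.self, hA.apply]; ring
  simp_rw [hdk, add_smul, neg_smul]
  have hG : ContinuousOn (fun z => f (x - A z) - sm P B f x) (closedBall 0 1) :=
    hfc.sub continuousOn_const
  have i1 : Integrable fun z => (wt P z * ⟪z, A.symm h⟫_ℝ) • (f (x - A z) - sm P B f x) :=
    hP.integrable_wt_smul hG (by fun_prop)
  have i1' : Integrable fun z => (wt P z * ⟪z, A.symm h⟫_ℝ) • (f (x - A z) - w) :=
    hP.integrable_wt_smul (hfc.sub continuousOn_const) (by fun_prop)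
  have hcont : Continuous fun z : R3 => fderiv ℝ B x h (A z) (A z) := by
    have h1 : Continuous fun z : R3 => fderiv ℝ B x h (A z) :=
      (fderiv ℝ B x h).continuous.comp A.continuous
    exact h1.clm_apply A.continuous
  have i2 : Integrable fun z => (deriv P (‖z‖ ^ 2) * fderiv ℝ B x h (A z) (A z)) •
      (f (x - A z) - sm P B f x) := by
    refine integrable_weight_smul hG (hP.continuous_deriv_normSq.mul hcont) fun z hz => ?_
    have : 1 < ‖z‖ ^ 2 := by nlinarith only [hz]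
    simp only [hP.deriv_eq_zero this, zero_mul]
  have i1n : Integrable fun z =>
      -((wt P z * ⟪z, A.symm h⟫_ℝ) • (f (x - A z) - sm P B f x)) := i1.neg
  rw [integral_add i1n i2, integral_neg]
  have h5 : ∫ z, (wt P z * ⟪z, A.symm h⟫_ℝ) • (f (x - A z) - sm P B f x)
      = ∫ z, (wt P z * ⟪z, A.symm h⟫_ℝ) • (f (x - A z) - w) := by
    have h6 := integral_wt_odd (P := P) (A.symm h) (w - sm P B f x)
    rw [← sub_eq_zero, ← integral_sub i1 i1', ← h6]
    refine integral_congr_ae (Eventually.of_forall fun z => ?_)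
    simp only
    rw [← smul_sub]
    congr 1
    abel
  rw [h5, smul_smul, mul_inv, mul_comm, ← mul_assoc, mul_inv_cancel₀ hc.ne', one_mul, smul_add,
    smul_neg]

/-- zeroth moment of the derivative of the profile -/
noncomputable def J0 (P : ℝ → ℝ) : ℝ := ∫ z : R3, |deriv P (‖z‖ ^ 2)|

theorem integrable_abs_deriv (hP : Profile a P) :
    Integrable fun z : R3 => |deriv P (‖z‖ ^ 2)| := by
  have := hP.integrable_mul_deriv (F := fun _ => (1 : ℝ)) continuous_const
  simpa only [one_mul] using this.abs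

theorem J0_nonneg : 0 ≤ J0 P := integral_nonneg fun _ => abs_nonneg _

/-- An average of values within distance `D` of `y` is within distance `D` of `y`. -/
theorem norm_sub_avg_le (hP : Profile a P) (ha : 0 < a) {V : Type*} [NormedAddCommGroup V]
    [NormedSpace ℝ V] [CompleteSpace V] {ψ : R3 → V} (hψ : ContinuousOn ψ (closedBall 0 1))
    {y : V} {D : ℝ} (hD : ∀ z' ∈ closedBall (0 : R3) 1, ‖y - ψ z'‖ ≤ D) :
    ‖y - (Z P)⁻¹ • ∫ z : R3, P (‖z‖ ^ 2) • ψ z‖ ≤ D := by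
  have hZ := hP.Z_pos ha
  have hz : ∀ z : R3, 1 < ‖z‖ → P (‖z‖ ^ 2) = 0 := fun z hz =>
    hP.zero_of_ge _ (by nlinarith only [hz])
  have i1 : Integrable fun z : R3 => P (‖z‖ ^ 2) • y :=
    integrable_weight_smul continuousOn_const hP.continuous_normSq hz
  have i2 : Integrable fun z : R3 => P (‖z‖ ^ 2) • ψ z :=
    integrable_weight_smul hψ hP.continuous_normSq hz
  have e1 : y - (Z P)⁻¹ • ∫ z : R3, P (‖z‖ ^ 2) • ψ z
      = (Z P)⁻¹ • ∫ z : R3, P (‖z‖ ^ 2) • (y - ψ z) := by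
    simp_rw [smul_sub]
    rw [integral_sub i1 i2, integral_smul_const, smul_sub]
    change _ = (Z P)⁻¹ • (Z P) • y - _
    rw [smul_smul, inv_mul_cancel₀ hZ.ne', one_smul]
  rw [e1, norm_smul, norm_inv, Real.norm_of_nonneg hZ.le, inv_mul_le_iff₀ hZ]
  calc ‖∫ z : R3, P (‖z‖ ^ 2) • (y - ψ z)‖ ≤ ∫ z : R3, P (‖z‖ ^ 2) * D := by
        apply norm_integral_le_of_norm_le (hP.integrable_normSq.mul_const D)
        refine Eventually.of_forall fun z => ?_
        rw [norm_smul, Real.norm_of_nonneg (hP.nonneg _)]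
        by_cases hz1 : z ∈ closedBall (0 : R3) 1
        · exact mul_le_mul_of_nonneg_left (hD z hz1) (hP.nonneg _)
        · rw [mem_closedBall_zero_iff, not_le] at hz1
          rw [hz z hz1]; simp
    _ = Z P * D := by rw [integral_mul_const]; rfl

/-- **Lower bound for the derivative of the average.** -/
theorem lower_bound (hΩ : IsOpen Ω) (hP : Profile a P) (ha : 0 < a) (hB : FormField Ω B)
    {f : R3 → R3} (hf : LocallyIntegrable f) {x : R3} (hx : x ∈ Ω) {A : R3 ≃L[ℝ] R3}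
    (hA : Adapted B x A) {T : R3 →L[ℝ] R3} {ρ κ : ℝ} (hρ : 1 ≤ ρ)
    (hfc : ContinuousOn (fun z => f (x - A z)) (closedBall 0 1))
    (hlow : ∀ z ∈ closedBall (0 : R3) 1, ∀ z' ∈ closedBall (0 : R3) 1,
      ‖z - z'‖ ^ 2 ≤ ‖T (f (x - A z)) - T (f (x - A z'))‖ ^ 2)
    (hup : ∀ z ∈ closedBall (0 : R3) 1, ∀ z' ∈ closedBall (0 : R3) 1,
      ‖T (f (x - A z)) - T (f (x - A z'))‖ ^ 2 ≤ ρ * ‖z - z'‖ ^ 2)
    {h : R3} (hh : A.symm h = -e0)
    (hκ : ∀ z ∈ closedBall (0 : R3) 1, |fderiv ℝ B x h (A z) (A z)| ≤ κ) :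
    c0 a ρ - 4 * ρ * κ * ((Z P)⁻¹ * J0 P) ≤
      2 * Real.sqrt ρ * ‖T (fderiv ℝ (sm P B f) x h)‖ := by
  have hZ := hP.Z_pos ha
  have hκ0 : 0 ≤ κ := (abs_nonneg _).trans (hκ 0 (by simp only [mem_closedBall, dist_self, zero_le_one]))
  set ψ : R3 → R3 := fun z => T (f (x - A z)) with hψ
  have hψc : ContinuousOn ψ (closedBall 0 1) := T.continuous.comp_continuousOn hfc
  have he0 : e0 ∈ closedBall (0 : R3) 1 := by simp only [mem_closedBall, dist_zero_right, PiLp.norm_single, norm_one, Std.le_refl]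
  have hne0 : -e0 ∈ closedBall (0 : R3) 1 := by simp only [mem_closedBall, dist_zero_right, norm_neg, PiLp.norm_single, norm_one, Std.le_refl]
  have hdiam : ∀ z ∈ closedBall (0 : R3) 1, ∀ z' ∈ closedBall (0 : R3) 1,
      ‖ψ z - ψ z'‖ ≤ 2 * Real.sqrt ρ := by
    intro z hz z' hz'
    have h1 := hup z hz z' hz'
    have h2 : ‖z - z'‖ ≤ 2 := by
      rw [mem_closedBall_zero_iff] at hz hz'
      exact (norm_sub_le _ _).trans (by linarith only [hz, hz'])
    have h3 : ‖ψ z - ψ z'‖ ^ 2 ≤ (2 * Real.sqrt ρ) ^ 2 := by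
      rw [mul_pow, Real.sq_sqrt (by linarith only [hρ])]
      have : ‖z - z'‖ ^ 2 ≤ 2 ^ 2 := by (clear * - h2; gcongr)
      linarith only [mul_nonneg (sub_nonneg.2 this) (sub_nonneg.2 hρ), mul_nonneg (sq_nonneg (2 : ℝ)) (sub_nonneg.2 this), mul_nonneg (sq_nonneg (2 : ℝ)) (sub_nonneg.2 h1)]
    exact (sq_le_sq₀ (norm_nonneg _) (by (clear * - hρ; positivity))).1 h3
  set v : R3 := ψ e0 - ψ (-e0) with hv
  have hvn : ‖v‖ ≤ 2 * Real.sqrt ρ := hdiam e0 he0 (-e0) hne0
  have hcore := hP.core ha (ψ := ψ) hρ hlow hup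
  obtain ⟨-, hfd⟩ := sm_hasFDerivAt hΩ hP ha hB hf hx hA hfc
  have hfd' := hfd h 0
  rw [hh] at hfd'
  have e1 : -((Z P)⁻¹ • ∫ z : R3, (wt P z * ⟪z, -e0⟫_ℝ) • (f (x - A z) - 0))
      = (Z P)⁻¹ • ∫ z : R3, (wt P z * z 0) • f (x - A z) := by
    rw [← smul_neg, ← integral_neg]
    congr 1
    refine integral_congr_ae (Eventually.of_forall fun z => ?_)
    simp only
    rw [inner_neg_right, inner_e0, mul_neg, neg_smul, neg_neg, sub_zero]
  rw [e1] at hfd'
  have hz : ∀ z : R3, 1 < ‖z‖ → deriv P (‖z‖ ^ 2) = 0 := fun z hz =>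
    hP.deriv_eq_zero (by nlinarith only [hz])
  have hcont : Continuous fun z : R3 => fderiv ℝ B x h (A z) (A z) := by
    have h1 : Continuous fun z : R3 => fderiv ℝ B x h (A z) :=
      (fderiv ℝ B x h).continuous.comp A.continuous
    exact h1.clm_apply A.continuous
  have i1 : Integrable fun z : R3 => (wt P z * z 0) • f (x - A z) :=
    hP.integrable_wt_smul hfc (by fun_prop)
  have i2 : Integrable fun z => (deriv P (‖z‖ ^ 2) * fderiv ℝ B x h (A z) (A z)) •
      (f (x - A z) - sm P B f x) :=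
    integrable_weight_smul (hfc.sub continuousOn_const) (hP.continuous_deriv_normSq.mul hcont)
      fun z hz1 => by simp only [hz z hz1, zero_mul]
  have e2 : T (fderiv ℝ (sm P B f) x h) = (Z P)⁻¹ • (∫ z : R3, (wt P z * z 0) • ψ z) +
      (Z P)⁻¹ • ∫ z : R3, (deriv P (‖z‖ ^ 2) * fderiv ℝ B x h (A z) (A z)) •
        (ψ z - T (sm P B f x)) := by
    rw [hfd', map_add, map_smul, map_smul, ← T.integral_comp_comm i1, ← T.integral_comp_comm i2]
    simp only [map_smul, map_sub, hψ]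
  have hsmT : T (sm P B f x) = (Z P)⁻¹ • ∫ z : R3, P (‖z‖ ^ 2) • ψ z := by
    have i3 : Integrable fun z : R3 => P (‖z‖ ^ 2) • f (x - A z) :=
      integrable_weight_smul hfc hP.continuous_normSq fun z hz1 => hP.zero_of_ge _ (by nlinarith only [hz1])
    rw [sm_eq hA, map_smul, ← T.integral_comp_comm i3]
    simp only [map_smul, hψ]
  have hdev : ∀ z ∈ closedBall (0 : R3) 1, ‖ψ z - T (sm P B f x)‖ ≤ 2 * Real.sqrt ρ := by
    intro z hz1
    rw [hsmT]
    exact norm_sub_avg_le hP ha hψc fun z' hz' => hdiam z hz1 z' hz'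
  have herr : ‖∫ z : R3, (deriv P (‖z‖ ^ 2) * fderiv ℝ B x h (A z) (A z)) •
        (ψ z - T (sm P B f x))‖ ≤ κ * (2 * Real.sqrt ρ) * J0 P := by
    calc ‖∫ z : R3, (deriv P (‖z‖ ^ 2) * fderiv ℝ B x h (A z) (A z)) •
          (ψ z - T (sm P B f x))‖ ≤ ∫ z : R3, (κ * (2 * Real.sqrt ρ)) * |deriv P (‖z‖ ^ 2)| := by
          apply norm_integral_le_of_norm_le ((integrable_abs_deriv hP).const_mul _)
          refine Eventually.of_forall fun z => ?_
          rw [norm_smul, norm_mul, Real.norm_eq_abs, Real.norm_eq_abs]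
          by_cases hz1 : z ∈ closedBall (0 : R3) 1
          · have h1 := hκ z hz1
            have h2 := hdev z hz1
            have h3 : |fderiv ℝ B x h (A z) (A z)| * ‖ψ z - T (sm P B f x)‖
                ≤ κ * (2 * Real.sqrt ρ) := mul_le_mul h1 h2 (norm_nonneg _) hκ0
            calc |deriv P (‖z‖ ^ 2)| * |fderiv ℝ B x h (A z) (A z)| * ‖ψ z - T (sm P B f x)‖
                = |deriv P (‖z‖ ^ 2)| *
                  (|fderiv ℝ B x h (A z) (A z)| * ‖ψ z - T (sm P B f x)‖) := by ring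
              _ ≤ |deriv P (‖z‖ ^ 2)| * (κ * (2 * Real.sqrt ρ)) :=
                  mul_le_mul_of_nonneg_left h3 (abs_nonneg _)
              _ = _ := by ring
          · rw [mem_closedBall_zero_iff, not_le] at hz1
            rw [hz z hz1]; simp
      _ = κ * (2 * Real.sqrt ρ) * J0 P := by rw [integral_const_mul]; rfl
  have hsq : Real.sqrt ρ * Real.sqrt ρ = ρ := Real.mul_self_sqrt (by linarith only [hρ])
  have hsρ : 0 ≤ Real.sqrt ρ := Real.sqrt_nonneg _
  -- pair with `v`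
  have h7 : ⟪v, T (fderiv ℝ (sm P B f) x h)⟫_ℝ ≤ 2 * Real.sqrt ρ *
      ‖T (fderiv ℝ (sm P B f) x h)‖ :=
    (real_inner_le_norm _ _).trans (mul_le_mul_of_nonneg_right hvn (norm_nonneg _))
  refine le_trans ?_ h7
  rw [e2, inner_add_right, inner_smul_right, inner_smul_right]
  have h8 : c0 a ρ ≤ (Z P)⁻¹ * ⟪v, ∫ z : R3, (wt P z * z 0) • ψ z⟫_ℝ := by
    rw [← div_eq_inv_mul, le_div_iff₀ hZ]; exact hcore
  have h9 : -(4 * ρ * κ * ((Z P)⁻¹ * J0 P)) ≤ (Z P)⁻¹ *
      ⟪v, ∫ z : R3, (deriv P (‖z‖ ^ 2) * fderiv ℝ B x h (A z) (A z)) •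
        (ψ z - T (sm P B f x))⟫_ℝ := by
    have h10 := abs_real_inner_le_norm v (∫ z : R3, (deriv P (‖z‖ ^ 2) *
      fderiv ℝ B x h (A z) (A z)) • (ψ z - T (sm P B f x)))
    have h11 : ‖v‖ * ‖∫ z : R3, (deriv P (‖z‖ ^ 2) * fderiv ℝ B x h (A z) (A z)) •
        (ψ z - T (sm P B f x))‖ ≤ (2 * Real.sqrt ρ) * (κ * (2 * Real.sqrt ρ) * J0 P) :=
      mul_le_mul hvn herr (norm_nonneg _) (by (clear * - hρ; positivity))
    have h12 : (2 * Real.sqrt ρ) * (κ * (2 * Real.sqrt ρ) * J0 P) = 4 * ρ * κ * J0 P := by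
      calc (2 * Real.sqrt ρ) * (κ * (2 * Real.sqrt ρ) * J0 P)
          = 4 * (Real.sqrt ρ * Real.sqrt ρ) * κ * J0 P := by ring
        _ = _ := by rw [hsq]
    have h13 := neg_abs_le ⟪v, ∫ z : R3, (deriv P (‖z‖ ^ 2) * fderiv ℝ B x h (A z) (A z)) •
        (ψ z - T (sm P B f x))⟫_ℝ
    have h14 : -(4 * ρ * κ * J0 P) ≤ ⟪v, ∫ z : R3, (deriv P (‖z‖ ^ 2) *
        fderiv ℝ B x h (A z) (A z)) • (ψ z - T (sm P B f x))⟫_ℝ := by linarith only [h10, h11, h12, h13]
    calc -(4 * ρ * κ * ((Z P)⁻¹ * J0 P)) = (Z P)⁻¹ * (-(4 * ρ * κ * J0 P)) := by ring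
      _ ≤ _ := mul_le_mul_of_nonneg_left h14 (inv_nonneg.2 hZ.le)
  linarith only [h8, h9]

end Vale.Agent.P073
end

section

/-!
# Decomposition of positive forms
-/

set_option maxSynthPendingDepth 3

namespace Vale.Agent.P073

open MeasureTheory Set Filter Topology Metric
open scoped ENNReal ContDiff Real InnerProductSpace
open Profile

/-- A symmetric nonnegative form is the pull back of the inner product. -/
theorem exists_sqrt_form {G : BF} (hs : ∀ u v, G u v = G v u) (hp : ∀ u, 0 ≤ G u u) :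
    ∃ S : R3 →L[ℝ] R3, ∀ u v, G u v = ⟪S u, S v⟫_ℝ := by
  classical
  let T : R3 →ₗ[ℝ] R3 :=
    { toFun := fun u => (InnerProductSpace.toDual ℝ R3).symm (G u)
      map_add' := fun u v => by simp
      map_smul' := fun c u => by simp }
  have hT : ∀ u v, ⟪T u, v⟫_ℝ = G u v := fun u v => by
    simp only [LinearMap.coe_mk, AddHom.coe_mk, InnerProductSpace.toDual_symm_apply, T]
  have hsym : T.IsSymmetric := fun u v => by
    rw [hT, real_inner_comm, hT, hs]
  set b := hsym.eigenvectorBasis rfl with hb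
  set lam := hsym.eigenvalues rfl with hlam
  have hTb : ∀ i, T (b i) = lam i • b i := fun i => hsym.apply_eigenvectorBasis rfl i
  have hl : ∀ i, 0 ≤ lam i := by
    intro i
    have h1 := hp (b i)
    rw [← hT, hTb, inner_smul_left, real_inner_self_eq_norm_sq, b.norm_eq_one] at h1
    simpa only [ge_iff_le, Real.ringHom_apply, one_pow, mul_one] using h1
  let S : R3 →L[ℝ] R3 := ∑ i, (Real.sqrt (lam i)) • ((innerSL ℝ (b i)).smulRight (b i))
  have hS : ∀ u, S u = ∑ i, (Real.sqrt (lam i) * ⟪b i, u⟫_ℝ) • b i := by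
    intro u
    simp only [sum_apply, smul_apply, ContinuousLinearMap.smulRight_apply, coe_innerSL_apply, smul_smul, S]
  refine ⟨S, fun u v => ?_⟩
  rw [hS, hS, b.orthonormal.inner_sum]
  have h2 : G u v = ∑ i, ⟪T u, b i⟫_ℝ * ⟪b i, v⟫_ℝ := by
    rw [← hT, b.sum_inner_mul_inner]
  rw [h2]
  refine Finset.sum_congr rfl fun i _ => ?_
  have h3 : ⟪T u, b i⟫_ℝ = lam i * ⟪b i, u⟫_ℝ := by
    rw [hsym u (b i), hTb, inner_smul_right, real_inner_comm]
  rw [h3]
  simp only [conj_trivial]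
  have := Real.mul_self_sqrt (hl i)
  calc lam i * ⟪b i, u⟫_ℝ * ⟪b i, v⟫_ℝ
      = (Real.sqrt (lam i) * Real.sqrt (lam i)) * ⟪b i, u⟫_ℝ * ⟪b i, v⟫_ℝ := by rw [this]
    _ = _ := by ring

/-- Adapted coordinates with prescribed image of the first vector. -/
theorem exists_adapted {B : R3 → BF} {x : R3} (hs : ∀ u v, B x u v = B x v u)
    (hp : ∀ u, u ≠ 0 → 0 < B x u u) {h : R3} (hh : B x h h = 1) :
    ∃ A : R3 ≃L[ℝ] R3, Adapted B x A ∧ A.symm h = -e0 := by
  have hp' : ∀ u, 0 ≤ B x u u := by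
    intro u
    by_cases hu : u = 0
    · simp [hu]
    · exact (hp u hu).le
  obtain ⟨S, hS⟩ := exists_sqrt_form hs hp'
  have hinj : Function.Injective S := by
    rw [injective_iff_map_eq_zero]
    intro u hu
    by_contra hne
    have h1 := hp u hne
    rw [hS, hu] at h1
    simp at h1
  have hinj' : Function.Injective (S : R3 →ₗ[ℝ] R3) := hinj
  let e1 : R3 ≃ₗ[ℝ] R3 := LinearEquiv.ofInjectiveEndo (S : R3 →ₗ[ℝ] R3) hinj'
  let e2 : R3 ≃L[ℝ] R3 := e1.toContinuousLinearEquiv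
  have he2 : ∀ u, e2 u = S u := fun u => rfl
  let R := Submodule.reflection (ℝ ∙ (-e0 - S h))ᗮ
  have hn : ‖-e0‖ = ‖S h‖ := by
    rw [norm_neg, norm_e0]
    have h1 : ‖S h‖ ^ 2 = 1 := by rw [← real_inner_self_eq_norm_sq, ← hS, hh]
    nlinarith only [h1, norm_nonneg (S h)]
  have hR : R (-e0) = S h := Submodule.reflection_sub hn
  refine ⟨R.toContinuousLinearEquiv.trans e2.symm, ⟨fun z w => ?_⟩, ?_⟩
  · have h3 : ∀ z, (R.toContinuousLinearEquiv.trans e2.symm) z = e2.symm (R z) := fun z => rfl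
    have h4 : ∀ z, S (e2.symm z) = z := fun z => by rw [← he2]; exact e2.apply_symm_apply z
    rw [h3, h3, hS, h4, h4]
    exact R.inner_map_map z w
  · rw [ContinuousLinearEquiv.symm_apply_eq]
    change h = e2.symm (R (-e0))
    rw [hR, ← he2, e2.symm_apply_apply]

end Vale.Agent.P073
end

section

/-!
# Pointwise estimates for the derivative of the average, in terms of the form
-/

set_option maxSynthPendingDepth 3

namespace Vale.Agent.P073

open MeasureTheory Set Filter Topology Metric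
open scoped ENNReal ContDiff Real InnerProductSpace
open Profile

variable {Ω : Set R3} {B : R3 → BF} {a : ℝ} {P : ℝ → ℝ}

theorem integral_wt_eq (hP : Profile a P) : ∫ z : R3, wt P z = 2 * J0 P := by
  unfold J0
  rw [← integral_const_mul]
  simp_rw [wt_eq hP]

theorem integrable_wt (hP : Profile a P) : Integrable fun z : R3 => wt P z := by
  have := hP.integrable_wt_smul (F := fun _ => (1 : ℝ)) continuousOn_const
    (continuous_const (y := (1 : ℝ)))
  simpa only [mul_one, smul_eq_mul] using this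

/-- `A` maps the closed unit ball into the ellipsoid. -/
theorem Adapted.le_one {x : R3} {A : R3 ≃L[ℝ] R3} (hA : Adapted B x A) {z : R3}
    (hz : z ∈ closedBall (0 : R3) 1) : B x (A z) (A z) ≤ 1 := by
  rw [mem_closedBall_zero_iff] at hz
  rw [hA.self]
  nlinarith [norm_nonneg z]

theorem Adapted.norm_symm {x : R3} {A : R3 ≃L[ℝ] R3} (hA : Adapted B x A) (h : R3) :
    ‖A.symm h‖ = Real.sqrt (B x h h) := by
  have := hA.self (A.symm h)
  rw [A.apply_symm_apply] at this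
  rw [this, Real.sqrt_sq (norm_nonneg _)]

theorem continuousOn_adapted {x : R3} {A : R3 ≃L[ℝ] R3} (hA : Adapted B x A) {f : R3 → R3}
    (hfc : ContinuousOn (fun u => f (x - u)) {u | B x u u ≤ 1}) :
    ContinuousOn (fun z => f (x - A z)) (closedBall 0 1) :=
  hfc.comp A.continuous.continuousOn fun z hz => hA.le_one hz

/-- The average is close to the value. -/
theorem sm_close (hP : Profile a P) (ha : 0 < a)
    {f : R3 → R3} {x : R3} {A : R3 ≃L[ℝ] R3}
    (hA : Adapted B x A) (hfc : ContinuousOn (fun u => f (x - u)) {u | B x u u ≤ 1}) {D : ℝ}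
    (hD : ∀ u, B x u u ≤ 1 → ‖f (x - u) - f x‖ ≤ D) : ‖sm P B f x - f x‖ ≤ D := by
  rw [sm_eq hA, norm_sub_rev]
  exact norm_sub_avg_le hP ha (continuousOn_adapted hA hfc) fun z hz => by
    rw [norm_sub_rev]; exact hD _ (hA.le_one hz)

/-- Error estimate for the derivative of the average. -/
theorem deriv_error (hΩ : IsOpen Ω) (hP : Profile a P) (ha : 0 < a) (hB : FormField Ω B)
    {f : R3 → R3} (hf : LocallyIntegrable f) {x : R3} (hx : x ∈ Ω) {A : R3 ≃L[ℝ] R3}
    (hA : Adapted B x A) (hfc : ContinuousOn (fun u => f (x - u)) {u | B x u u ≤ 1})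
    {D D' κ : ℝ} (F : R3 →L[ℝ] R3) (h : R3)
    (hD : ∀ u, B x u u ≤ 1 → ‖f (x - u) - f x‖ ≤ D)
    (hF : ∀ u, B x u u ≤ 1 → ‖f (x - u) - f x + F u‖ ≤ D')
    (hκ : ∀ u, B x u u ≤ 1 → |fderiv ℝ B x h u u| ≤ κ * Real.sqrt (B x h h)) (hκ0 : 0 ≤ κ) :
    ‖fderiv ℝ (sm P B f) x h - F h‖ ≤
      2 * ((Z P)⁻¹ * J0 P) * Real.sqrt (B x h h) * (D' + κ * D) := by
  have hZ := hP.Z_pos ha
  have hfc' := continuousOn_adapted hA hfc
  obtain ⟨-, hfd⟩ := sm_hasFDerivAt hΩ hP ha hB hf hx hA hfc'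
  set k := A.symm h with hk
  have hAk : A k = h := A.apply_symm_apply h
  have hkn : ‖k‖ = Real.sqrt (B x h h) := hA.norm_symm h
  have hD0 : 0 ≤ D := (norm_nonneg _).trans (hD 0 (by simp))
  have hD'0 : 0 ≤ D' := (norm_nonneg _).trans (hF 0 (by simp))
  have hFh : F h = (Z P)⁻¹ • ∫ z : R3, (wt P z * ⟪z, k⟫_ℝ) • F (A z) := by
    have h1 := hP.integral_wt_inner_smul (F.comp (A : R3 →L[ℝ] R3)) k
    simp only [ContinuousLinearMap.comp_apply, ContinuousLinearEquiv.coe_coe, hAk] at h1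
    rw [h1, smul_smul, inv_mul_cancel₀ hZ.ne', one_smul]
  have hz : ∀ z : R3, 1 < ‖z‖ → deriv P (‖z‖ ^ 2) = 0 := fun z hz =>
    hP.deriv_eq_zero (by (clear * - hz; nlinarith))
  have hcont : Continuous fun z : R3 => fderiv ℝ B x h (A z) (A z) := by
    have h1 : Continuous fun z : R3 => fderiv ℝ B x h (A z) :=
      (fderiv ℝ B x h).continuous.comp A.continuous
    exact h1.clm_apply A.continuous
  have i1 : Integrable fun z : R3 => (wt P z * ⟪z, k⟫_ℝ) • (f (x - A z) - f x) :=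
    hP.integrable_wt_smul (hfc'.sub continuousOn_const) (by fun_prop)
  have i2 : Integrable fun z : R3 => (wt P z * ⟪z, k⟫_ℝ) • F (A z) :=
    hP.integrable_wt_smul (F.continuous.comp A.continuous).continuousOn (by fun_prop)
  have e1 : fderiv ℝ (sm P B f) x h - F h =
      -((Z P)⁻¹ • ∫ z : R3, (wt P z * ⟪z, k⟫_ℝ) • (f (x - A z) - f x + F (A z))) +
        (Z P)⁻¹ • ∫ z : R3, (deriv P (‖z‖ ^ 2) * fderiv ℝ B x h (A z) (A z)) •
          (f (x - A z) - sm P B f x) := by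
    rw [hfd h (f x), hFh]
    simp_rw [smul_add]
    rw [integral_add i1 i2, smul_add]
    abel
  have hdev : ∀ z ∈ closedBall (0 : R3) 1, ‖f (x - A z) - sm P B f x‖ ≤ 2 * D := by
    intro z hz1
    have h1 := hD _ (hA.le_one hz1)
    have h2 := sm_close hP ha hA hfc hD
    calc ‖f (x - A z) - sm P B f x‖ = ‖(f (x - A z) - f x) - (sm P B f x - f x)‖ := by
          congr 1; abel
      _ ≤ ‖f (x - A z) - f x‖ + ‖sm P B f x - f x‖ := norm_sub_le _ _
      _ ≤ 2 * D := by linarith only [h1, h2]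
  have n1 : ‖∫ z : R3, (wt P z * ⟪z, k⟫_ℝ) • (f (x - A z) - f x + F (A z))‖ ≤
      (‖k‖ * D') * (2 * J0 P) := by
    rw [← integral_wt_eq hP, ← integral_const_mul]
    apply norm_integral_le_of_norm_le ((integrable_wt hP).const_mul _)
    refine Eventually.of_forall fun z => ?_
    rw [norm_smul, norm_mul, Real.norm_of_nonneg (wt_nonneg hP z), Real.norm_eq_abs]
    by_cases hz1 : z ∈ closedBall (0 : R3) 1
    · have h1 := hF _ (hA.le_one hz1)
      have h2 : |⟪z, k⟫_ℝ| ≤ ‖k‖ := by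
        rw [mem_closedBall_zero_iff] at hz1
        exact (abs_real_inner_le_norm z k).trans (mul_le_of_le_one_left (norm_nonneg _) hz1)
      have h3 : |⟪z, k⟫_ℝ| * ‖f (x - A z) - f x + F (A z)‖ ≤ ‖k‖ * D' :=
        mul_le_mul h2 h1 (norm_nonneg _) (norm_nonneg _)
      calc wt P z * |⟪z, k⟫_ℝ| * ‖f (x - A z) - f x + F (A z)‖
          = wt P z * (|⟪z, k⟫_ℝ| * ‖f (x - A z) - f x + F (A z)‖) := by ring
        _ ≤ wt P z * (‖k‖ * D') := mul_le_mul_of_nonneg_left h3 (wt_nonneg hP z)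
        _ = _ := by ring
    · rw [mem_closedBall_zero_iff, not_le] at hz1
      rw [wt_eq_zero hP hz1]; simp only [zero_mul, mul_zero, Std.le_refl]
  have n2 : ‖∫ z : R3, (deriv P (‖z‖ ^ 2) * fderiv ℝ B x h (A z) (A z)) •
          (f (x - A z) - sm P B f x)‖ ≤ (κ * ‖k‖ * (2 * D)) * J0 P := by
    calc ‖∫ z : R3, (deriv P (‖z‖ ^ 2) * fderiv ℝ B x h (A z) (A z)) •
          (f (x - A z) - sm P B f x)‖
        ≤ ∫ z : R3, (κ * ‖k‖ * (2 * D)) * |deriv P (‖z‖ ^ 2)| := by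
          apply norm_integral_le_of_norm_le ((integrable_abs_deriv hP).const_mul _)
          refine Eventually.of_forall fun z => ?_
          rw [norm_smul, norm_mul, Real.norm_eq_abs, Real.norm_eq_abs]
          by_cases hz1 : z ∈ closedBall (0 : R3) 1
          · have h1 := hκ _ (hA.le_one hz1)
            rw [← hkn] at h1
            have h2 := hdev z hz1
            have h3 : |fderiv ℝ B x h (A z) (A z)| * ‖f (x - A z) - sm P B f x‖
                ≤ κ * ‖k‖ * (2 * D) := mul_le_mul h1 h2 (norm_nonneg _) (by (clear * - hκ0; positivity))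
            calc |deriv P (‖z‖ ^ 2)| * |fderiv ℝ B x h (A z) (A z)| * ‖f (x - A z) - sm P B f x‖
                = |deriv P (‖z‖ ^ 2)| *
                  (|fderiv ℝ B x h (A z) (A z)| * ‖f (x - A z) - sm P B f x‖) := by ring
              _ ≤ |deriv P (‖z‖ ^ 2)| * (κ * ‖k‖ * (2 * D)) :=
                  mul_le_mul_of_nonneg_left h3 (abs_nonneg _)
              _ = _ := by ring
          · rw [mem_closedBall_zero_iff, not_le] at hz1
            rw [hz z hz1]; simp only [abs_zero, zero_mul, mul_zero, Std.le_refl]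
      _ = _ := by rw [integral_const_mul]; rfl
  rw [e1, ← hkn]
  calc ‖-((Z P)⁻¹ • ∫ z : R3, (wt P z * ⟪z, k⟫_ℝ) • (f (x - A z) - f x + F (A z))) +
        (Z P)⁻¹ • ∫ z : R3, (deriv P (‖z‖ ^ 2) * fderiv ℝ B x h (A z) (A z)) •
          (f (x - A z) - sm P B f x)‖
      ≤ ‖-((Z P)⁻¹ • ∫ z : R3, (wt P z * ⟪z, k⟫_ℝ) • (f (x - A z) - f x + F (A z)))‖ +
        ‖(Z P)⁻¹ • ∫ z : R3, (deriv P (‖z‖ ^ 2) * fderiv ℝ B x h (A z) (A z)) •
          (f (x - A z) - sm P B f x)‖ := norm_add_le _ _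
    _ ≤ (Z P)⁻¹ * ((‖k‖ * D') * (2 * J0 P)) + (Z P)⁻¹ * ((κ * ‖k‖ * (2 * D)) * J0 P) := by
        rw [norm_neg, norm_smul, norm_smul, norm_inv, Real.norm_of_nonneg hZ.le]
        (clear * - n1 hZ n2; gcongr)
    _ = _ := by ring

/-- Lower bound under small distortion. -/
theorem lower_one (hΩ : IsOpen Ω) (hP : Profile a P) (ha : 0 < a) (hB : FormField Ω B)
    {f : R3 → R3} (hf : LocallyIntegrable f) {x : R3} (hx : x ∈ Ω)
    (hfc : ContinuousOn (fun u => f (x - u)) {u | B x u u ≤ 1})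
    {T : R3 →L[ℝ] R3} {ρ κ : ℝ} (hρ : 1 ≤ ρ)
    (hlow : ∀ u u', B x u u ≤ 1 → B x u' u' ≤ 1 →
      B x (u - u') (u - u') ≤ ‖T (f (x - u) - f (x - u'))‖ ^ 2)
    (hup : ∀ u u', B x u u ≤ 1 → B x u' u' ≤ 1 →
      ‖T (f (x - u) - f (x - u'))‖ ^ 2 ≤ ρ * B x (u - u') (u - u'))
    (hκ : ∀ h u, B x u u ≤ 1 → |fderiv ℝ B x h u u| ≤ κ * Real.sqrt (B x h h)) (h : R3) :
    (c0 a ρ - 4 * ρ * κ * ((Z P)⁻¹ * J0 P)) * Real.sqrt (B x h h) ≤
      2 * Real.sqrt ρ * ‖T (fderiv ℝ (sm P B f) x h)‖ := by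
  by_cases hh : h = 0
  · simp [hh]
  have hpos : ∀ u, u ≠ 0 → 0 < B x u u := by
    intro u hu
    have h1 := hB.ge x hx u
    have h2 : 0 < ‖u‖ := norm_pos_iff.2 hu
    linarith only [mul_pos (sub_pos.2 h2) (sub_pos.2 h2), h1]
  set q := Real.sqrt (B x h h) with hq
  have hq0 : 0 < q := Real.sqrt_pos.2 (hpos h hh)
  have hqq : q * q = B x h h := Real.mul_self_sqrt (hpos h hh).le
  have h1 : B x (q⁻¹ • h) (q⁻¹ • h) = 1 := by
    simp only [map_smul, smul_apply, smul_eq_mul]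
    rw [← hqq]
    field_simp
  obtain ⟨A, hA, hAh⟩ := exists_adapted (hB.symm x hx) hpos h1
  have h2 := lower_bound hΩ hP ha hB hf hx hA (T := T) (κ := κ) hρ
    (continuousOn_adapted hA hfc) (fun z hz z' hz' => by
      have := hlow _ _ (hA.le_one hz) (hA.le_one hz')
      rw [← map_sub A, hA.self, map_sub T] at this
      exact this) (fun z hz z' hz' => by
      have := hup _ _ (hA.le_one hz) (hA.le_one hz')
      rw [← map_sub A, hA.self, map_sub T] at this
      exact this) hAh (fun z hz => by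
      have := hκ (q⁻¹ • h) _ (hA.le_one hz)
      rwa [h1, Real.sqrt_one, mul_one] at this)
  rw [map_smul, map_smul, norm_smul, norm_inv, Real.norm_of_nonneg hq0.le] at h2
  calc (c0 a ρ - 4 * ρ * κ * ((Z P)⁻¹ * J0 P)) * q
      ≤ (2 * Real.sqrt ρ * (q⁻¹ * ‖T (fderiv ℝ (sm P B f) x h)‖)) * q :=
        mul_le_mul_of_nonneg_right h2 hq0.le
    _ = _ := by (clear * - hq0 hρ; field_simp)

/-- Lower bound under directional monotonicity. -/
theorem lower_two (hΩ : IsOpen Ω) (hP : Profile a P) (ha : 0 < a) (hB : FormField Ω B)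
    {f : R3 → R3} (hf : LocallyIntegrable f) {x : R3} (hx : x ∈ Ω) {A : R3 ≃L[ℝ] R3}
    (hA : Adapted B x A) (hfc : ContinuousOn (fun u => f (x - u)) {u | B x u u ≤ 1})
    {D κ c : ℝ} {n h : R3} (hh : h ≠ 0)
    (hD : ∀ u, B x u u ≤ 1 → ‖f (x - u) - f x‖ ≤ D)
    (hn : ∀ u, ∀ t > 0, B x u u ≤ 1 → B x (u - t • h) (u - t • h) ≤ 1 →
      c * t ≤ ⟪n, f (x - (u - t • h)) - f (x - u)⟫_ℝ)
    (hκ : ∀ u, B x u u ≤ 1 → |fderiv ℝ B x h u u| ≤ κ * Real.sqrt (B x h h)) (hκ0 : 0 ≤ κ) :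
    c - ‖n‖ * (2 * ((Z P)⁻¹ * J0 P) * Real.sqrt (B x h h) * (κ * D)) ≤
      ⟪n, fderiv ℝ (sm P B f) x h⟫_ℝ := by
  have hZ := hP.Z_pos ha
  have hfc' := continuousOn_adapted hA hfc
  obtain ⟨-, hfd⟩ := sm_hasFDerivAt hΩ hP ha hB hf hx hA hfc'
  set k := A.symm h with hk
  have hAk : A k = h := A.apply_symm_apply h
  have hkn : ‖k‖ = Real.sqrt (B x h h) := hA.norm_symm h
  have hk0 : k ≠ 0 := by
    intro h0
    rw [h0, map_zero] at hAk
    exact hh hAk.symm
  have hkpos : 0 < ‖k‖ ^ 2 := by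
    have := norm_pos_iff.2 hk0
    positivity
  have hD0 : 0 ≤ D := (norm_nonneg _).trans (hD 0 (by simp))
  have hz : ∀ z : R3, 1 < ‖z‖ → deriv P (‖z‖ ^ 2) = 0 := fun z hz =>
    hP.deriv_eq_zero (by nlinarith only [hz])
  -- main part
  set u : R3 → ℝ := fun z => ⟪n, f (x - A z)⟫_ℝ with hu
  have huc : ContinuousOn u (closedBall 0 1) := by
    have : ContinuousOn (fun z => innerSL ℝ n (f (x - A z))) (closedBall 0 1) :=
      (innerSL ℝ n).continuous.comp_continuousOn hfc'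
    exact this
  let R := Submodule.reflection (ℝ ∙ k)ᗮ
  have hR : ∀ z, R z = z - (2 * ⟪z, k⟫_ℝ / ‖k‖ ^ 2) • k := by
    intro z
    have h1 : R z = -(Submodule.reflection (ℝ ∙ k) z) :=
      Submodule.reflection_orthogonal_apply _ _
    rw [h1, Submodule.reflection_singleton_apply, real_inner_comm]
    simp only [RCLike.ofReal_real_eq_id, id_eq]
    rw [neg_sub, ← Nat.cast_smul_eq_nsmul ℝ, smul_smul]
    congr 2
    push_cast
    ring
  have hRk : ∀ z, ⟪R z, k⟫_ℝ = -⟪z, k⟫_ℝ := by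
    intro z
    rw [hR, inner_sub_left, inner_smul_left, real_inner_self_eq_norm_sq]
    simp only [conj_trivial]
    field_simp
    ring
  have hRn : ∀ z, ‖R z‖ = ‖z‖ := fun z => R.norm_map z
  have hwt : ∀ z, wt P (R z) = wt P z := fun z => by simp [wt, hRn]
  have hball : ∀ z ∈ closedBall (0 : R3) 1, R z ∈ closedBall (0 : R3) 1 := by
    intro z hz1
    rw [mem_closedBall_zero_iff] at hz1 ⊢
    rw [hRn]; exact hz1
  have i1 : Integrable fun z : R3 => (wt P z * ⟪z, k⟫_ℝ) • u z :=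
    hP.integrable_wt_smul huc (by fun_prop)
  have i1' : Integrable fun z : R3 => (wt P z * ⟪z, k⟫_ℝ) • u (R z) :=
    hP.integrable_wt_smul (huc.comp R.continuous.continuousOn fun z hz1 => hball z hz1)
      (by fun_prop)
  have e1 : ∫ z : R3, (wt P z * ⟪z, k⟫_ℝ) • u z = -∫ z : R3, (wt P z * ⟪z, k⟫_ℝ) • u (R z) := by
    have h1 : ∫ z : R3, (wt P (R z) * ⟪R z, k⟫_ℝ) • u (R z) = ∫ z : R3, (wt P z * ⟪z, k⟫_ℝ) • u z :=
      R.measurePreserving.integral_comp R.toHomeomorph.measurableEmbedding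
        (fun z => (wt P z * ⟪z, k⟫_ℝ) • u z)
    rw [← h1, ← integral_neg]
    congr 1
    ext z
    rw [hwt, hRk]
    simp
  have i3 : Integrable fun z : R3 => (wt P z * ⟪z, k⟫_ℝ) • ⟪k, z⟫_ℝ :=
    hP.integrable_wt_smul (F := fun z => ⟪k, z⟫_ℝ) (by fun_prop) (by fun_prop)
  have e3 : ∫ z : R3, (wt P z * ⟪z, k⟫_ℝ) • ⟪k, z⟫_ℝ = Z P * ‖k‖ ^ 2 := by
    have := hP.integral_wt_inner_smul (innerSL ℝ k) k
    simp only [innerSL_apply_apply, real_inner_self_eq_norm_sq] at this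
    rw [this, smul_eq_mul]
  have hpt : ∀ z : R3, (2 * c / ‖k‖ ^ 2) * ((wt P z * ⟪z, k⟫_ℝ) • ⟪k, z⟫_ℝ) ≤
      (wt P z * ⟪z, k⟫_ℝ) • u (R z) - (wt P z * ⟪z, k⟫_ℝ) • u z := by
    intro z
    by_cases hz1 : z ∈ closedBall (0 : R3) 1
    swap
    · rw [mem_closedBall_zero_iff, not_le] at hz1
      rw [wt_eq_zero hP hz1]; simp only [zero_mul, smul_eq_mul, mul_zero, sub_self, Std.le_refl]
    have hw := wt_nonneg hP z
    have hb1 := hA.le_one hz1
    have hb2 := hA.le_one (hball z hz1)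
    rw [real_inner_comm z k]
    simp only [smul_eq_mul]
    suffices hs : (2 * c / ‖k‖ ^ 2) * ⟪z, k⟫_ℝ ^ 2 ≤ ⟪z, k⟫_ℝ * (u (R z) - u z) by
      have := mul_le_mul_of_nonneg_left hs hw
      calc (2 * c / ‖k‖ ^ 2) * (wt P z * ⟪z, k⟫_ℝ * ⟪z, k⟫_ℝ)
          = wt P z * ((2 * c / ‖k‖ ^ 2) * ⟪z, k⟫_ℝ ^ 2) := by ring
        _ ≤ _ := this
        _ = _ := by ring
    have hAR : A (R z) = A z - (2 * ⟪z, k⟫_ℝ / ‖k‖ ^ 2) • h := by
      rw [hR, map_sub, map_smul, hAk]
    rcases lt_trichotomy (⟪z, k⟫_ℝ) 0 with hlt | heq | hgt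
    · set t := -(2 * ⟪z, k⟫_ℝ / ‖k‖ ^ 2) with ht
      have htp : 0 < t := by
        rw [ht, ← neg_div]
        exact div_pos (by linarith only [hlt]) hkpos
      have h1 : A z = A (R z) - t • h := by
        rw [hAR, ht, neg_smul, sub_neg_eq_add, sub_add_cancel]
      have h2 := hn (A (R z)) t htp hb2 (by rw [← h1]; exact hb1)
      rw [← h1, inner_sub_right] at h2
      have h3 : c * t ≤ u z - u (R z) := h2
      have h4 := mul_le_mul_of_nonneg_left h3 (by linarith only [hlt] : 0 ≤ -⟪z, k⟫_ℝ)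
      calc (2 * c / ‖k‖ ^ 2) * ⟪z, k⟫_ℝ ^ 2 = -⟪z, k⟫_ℝ * (c * t) := by rw [ht]; ring
        _ ≤ _ := h4
        _ = _ := by ring
    · rw [heq]; simp
    · set t := 2 * ⟪z, k⟫_ℝ / ‖k‖ ^ 2 with ht
      have htp : 0 < t := div_pos (by linarith only [hgt]) hkpos
      have h2 := hn (A z) t htp hb1 (by rw [← hAR]; exact hb2)
      rw [← hAR, inner_sub_right] at h2
      have h3 : c * t ≤ u (R z) - u z := h2
      have h4 := mul_le_mul_of_nonneg_left h3 hgt.le
      calc (2 * c / ‖k‖ ^ 2) * ⟪z, k⟫_ℝ ^ 2 = ⟪z, k⟫_ℝ * (c * t) := by rw [ht]; ring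
        _ ≤ _ := h4
  have hmain : c * Z P ≤ -∫ z : R3, (wt P z * ⟪z, k⟫_ℝ) • u z := by
    have h1 : ∫ z : R3, (2 * c / ‖k‖ ^ 2) * ((wt P z * ⟪z, k⟫_ℝ) • ⟪k, z⟫_ℝ) ≤
        ∫ z : R3, ((wt P z * ⟪z, k⟫_ℝ) • u (R z) - (wt P z * ⟪z, k⟫_ℝ) • u z) :=
      integral_mono (i3.const_mul _) (i1'.sub i1) hpt
    rw [integral_const_mul, e3, integral_sub i1' i1] at h1
    have h2 : ∫ z : R3, (wt P z * ⟪z, k⟫_ℝ) • u (R z) = -∫ z : R3, (wt P z * ⟪z, k⟫_ℝ) • u z := by
      rw [e1, neg_neg]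
    rw [h2] at h1
    have h3 : 2 * c / ‖k‖ ^ 2 * (Z P * ‖k‖ ^ 2) = 2 * (c * Z P) := by
      (clear * - hk0 hZ; field_simp)
    rw [h3] at h1
    linarith only [h1]
  -- the error
  have hcont : Continuous fun z : R3 => fderiv ℝ B x h (A z) (A z) := by
    have h1 : Continuous fun z : R3 => fderiv ℝ B x h (A z) :=
      (fderiv ℝ B x h).continuous.comp A.continuous
    exact h1.clm_apply A.continuous
  have hdev : ∀ z ∈ closedBall (0 : R3) 1, ‖f (x - A z) - sm P B f x‖ ≤ 2 * D := by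
    intro z hz1
    have h1 := hD _ (hA.le_one hz1)
    have h2 := sm_close hP ha hA hfc hD
    calc ‖f (x - A z) - sm P B f x‖ = ‖(f (x - A z) - f x) - (sm P B f x - f x)‖ := by
          congr 1; abel
      _ ≤ ‖f (x - A z) - f x‖ + ‖sm P B f x - f x‖ := norm_sub_le _ _
      _ ≤ 2 * D := by linarith only [h1, h2]
  set Err := ∫ z : R3, (deriv P (‖z‖ ^ 2) * fderiv ℝ B x h (A z) (A z)) •
          (f (x - A z) - sm P B f x) with hErr
  have n2 : ‖Err‖ ≤ (κ * ‖k‖ * (2 * D)) * J0 P := by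
    calc ‖Err‖ ≤ ∫ z : R3, (κ * ‖k‖ * (2 * D)) * |deriv P (‖z‖ ^ 2)| := by
          apply norm_integral_le_of_norm_le ((integrable_abs_deriv hP).const_mul _)
          refine Eventually.of_forall fun z => ?_
          rw [norm_smul, norm_mul, Real.norm_eq_abs, Real.norm_eq_abs]
          by_cases hz1 : z ∈ closedBall (0 : R3) 1
          · have h1 := hκ _ (hA.le_one hz1)
            rw [← hkn] at h1
            have h2 := hdev z hz1
            have h3 : |fderiv ℝ B x h (A z) (A z)| * ‖f (x - A z) - sm P B f x‖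
                ≤ κ * ‖k‖ * (2 * D) := mul_le_mul h1 h2 (norm_nonneg _) (by (clear * - hκ0 hk0; positivity))
            calc |deriv P (‖z‖ ^ 2)| * |fderiv ℝ B x h (A z) (A z)| * ‖f (x - A z) - sm P B f x‖
                = |deriv P (‖z‖ ^ 2)| *
                  (|fderiv ℝ B x h (A z) (A z)| * ‖f (x - A z) - sm P B f x‖) := by ring
              _ ≤ |deriv P (‖z‖ ^ 2)| * (κ * ‖k‖ * (2 * D)) :=
                  mul_le_mul_of_nonneg_left h3 (abs_nonneg _)
              _ = _ := by ring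
          · rw [mem_closedBall_zero_iff, not_le] at hz1
            rw [hz z hz1]; simp
      _ = _ := by rw [integral_const_mul]; rfl
  have i5 : Integrable fun z : R3 => (wt P z * ⟪z, k⟫_ℝ) • f (x - A z) :=
    hP.integrable_wt_smul hfc' (by fun_prop)
  have e5 : ⟪n, ∫ z : R3, (wt P z * ⟪z, k⟫_ℝ) • (f (x - A z) - 0)⟫_ℝ =
      ∫ z : R3, (wt P z * ⟪z, k⟫_ℝ) • u z := by
    simp only [sub_zero]
    have := (innerSL ℝ n).integral_comp_comm i5
    simp only [innerSL_apply_apply, inner_smul_right] at this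
    rw [← this]
    simp only [hu, smul_eq_mul]
  rw [hfd h 0, inner_add_right, inner_neg_right, inner_smul_right, inner_smul_right, e5]
  have h6 : c ≤ -((Z P)⁻¹ * ∫ z : R3, (wt P z * ⟪z, k⟫_ℝ) • u z) := by
    rw [← mul_neg, ← div_eq_inv_mul, le_div_iff₀ hZ]; exact hmain
  have h7 : -(‖n‖ * (2 * ((Z P)⁻¹ * J0 P) * Real.sqrt (B x h h) * (κ * D))) ≤
      (Z P)⁻¹ * ⟪n, Err⟫_ℝ := by
    have h8 := abs_real_inner_le_norm n Err
    have h9 : ‖n‖ * ‖Err‖ ≤ ‖n‖ * ((κ * ‖k‖ * (2 * D)) * J0 P) :=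
      mul_le_mul_of_nonneg_left n2 (norm_nonneg _)
    have h10 := neg_abs_le ⟪n, Err⟫_ℝ
    have h11 : -(‖n‖ * ((κ * ‖k‖ * (2 * D)) * J0 P)) ≤ ⟪n, Err⟫_ℝ := by linarith only [h8, h9, h10]
    calc -(‖n‖ * (2 * ((Z P)⁻¹ * J0 P) * Real.sqrt (B x h h) * (κ * D)))
        = (Z P)⁻¹ * (-(‖n‖ * ((κ * ‖k‖ * (2 * D)) * J0 P))) := by rw [← hkn]; ring
      _ ≤ _ := mul_le_mul_of_nonneg_left h11 (inv_nonneg.2 hZ.le)
  linarith only [h6, h7]

end Vale.Agent.P073
end

section

/-!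
# Fields of forms of the shape `ε⁻² G`
-/

set_option maxSynthPendingDepth 3

namespace Vale.Agent.P073

open MeasureTheory Set Filter Topology Metric
open scoped ENNReal ContDiff Real InnerProductSpace

/-- A smooth field of inner products and a smooth scale. -/
structure Frame (Ω : Set R3) (G : R3 → BF) (ε σ τ : R3 → ℝ) : Prop where
  smooth : ContDiffOn ℝ ∞ G Ω
  symm : ∀ x ∈ Ω, ∀ u v, G x u v = G x v u
  low : ∀ x ∈ Ω, ∀ u, σ x ^ 2 * ‖u‖ ^ 2 ≤ G x u u
  up : ∀ x ∈ Ω, ∀ u, G x u u ≤ τ x ^ 2 * ‖u‖ ^ 2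
  smooth_eps : ContDiffOn ℝ ∞ ε Ω
  eps_pos : ∀ x ∈ Ω, 0 < ε x
  eps_le : ∀ x ∈ Ω, ε x ≤ σ x
  tau_pos : ∀ x ∈ Ω, 0 < τ x

/-- the scaled form -/
noncomputable def Bf (G : R3 → BF) (ε : R3 → ℝ) (x : R3) : BF := ((ε x) ^ 2)⁻¹ • G x

variable {Ω : Set R3} {G : R3 → BF} {ε σ τ : R3 → ℝ}

theorem Bf_apply (x u v : R3) : Bf G ε x u v = ((ε x) ^ 2)⁻¹ * G x u v := rfl

namespace Frame

theorem sigma_pos (hF : Frame Ω G ε σ τ) {x : R3} (hx : x ∈ Ω) : 0 < σ x :=
  (hF.eps_pos x hx).trans_le (hF.eps_le x hx)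

theorem formField (hF : Frame Ω G ε σ τ) : FormField Ω (Bf G ε) where
  smooth := by
    have h1 : ContDiffOn ℝ ∞ (fun x => ((ε x) ^ 2)⁻¹) Ω :=
      (hF.smooth_eps.pow 2).inv fun x hx => (pow_pos (hF.eps_pos x hx) 2).ne'
    exact h1.smul hF.smooth
  symm x hx u v := by rw [Bf_apply, Bf_apply, hF.symm x hx]
  ge x hx u := by
    rw [Bf_apply]
    have h1 := hF.low x hx u
    have h2 := hF.eps_pos x hx
    have h3 := hF.eps_le x hx
    rw [← div_eq_inv_mul, le_div_iff₀ (by positivity)]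
    have h4 : ε x ^ 2 ≤ σ x ^ 2 := by (clear * - h2 h3; gcongr)
    linarith only [mul_nonneg (sub_nonneg.2 h4) (sq_nonneg ‖u‖), h1]

theorem norm_le (hF : Frame Ω G ε σ τ) {x : R3} (hx : x ∈ Ω) {u : R3}
    (hu : Bf G ε x u u ≤ 1) : ‖u‖ ≤ ε x / σ x := by
  have h2 := hF.eps_pos x hx
  have h3 := hF.sigma_pos hx
  have h1 := hF.low x hx u
  rw [Bf_apply, ← div_eq_inv_mul, div_le_iff₀ (by positivity), one_mul] at hu
  rw [le_div_iff₀ h3]
  have h4 : (‖u‖ * σ x) ^ 2 ≤ ε x ^ 2 := by linarith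
  exact (sq_le_sq₀ (by (clear * - h3; positivity)) h2.le).1 h4

theorem sqrt_le (hF : Frame Ω G ε σ τ) {x : R3} (hx : x ∈ Ω) (h : R3) :
    Real.sqrt (Bf G ε x h h) ≤ (ε x)⁻¹ * τ x * ‖h‖ := by
  have h2 := hF.eps_pos x hx
  have h3 := hF.tau_pos x hx
  rw [Real.sqrt_le_left (by positivity), Bf_apply]
  calc ((ε x) ^ 2)⁻¹ * G x h h ≤ ((ε x) ^ 2)⁻¹ * (τ x ^ 2 * ‖h‖ ^ 2) := by
        gcongr; exact hF.up x hx h
    _ = _ := by rw [mul_pow, mul_pow, inv_pow]; ring

theorem le_sqrt (hF : Frame Ω G ε σ τ) {x : R3} (hx : x ∈ Ω) (h : R3) :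
    (ε x)⁻¹ * σ x * ‖h‖ ≤ Real.sqrt (Bf G ε x h h) := by
  have h2 := hF.eps_pos x hx
  have h3 := hF.sigma_pos hx
  apply Real.le_sqrt_of_sq_le
  rw [Bf_apply]
  calc ((ε x)⁻¹ * σ x * ‖h‖) ^ 2 = ((ε x) ^ 2)⁻¹ * (σ x ^ 2 * ‖h‖ ^ 2) := by
        rw [mul_pow, mul_pow, inv_pow]; ring
    _ ≤ _ := by gcongr; exact hF.low x hx h

theorem kappa_bound (hF : Frame Ω G ε σ τ) (hΩ : IsOpen Ω) {x : R3} (hx : x ∈ Ω) {u : R3}
    (hu : Bf G ε x u u ≤ 1) (h : R3) :
    |fderiv ℝ (Bf G ε) x h u u| ≤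
      (2 * ‖fderiv ℝ ε x‖ / σ x + ε x * ‖fderiv ℝ G x‖ / σ x ^ 3) *
        Real.sqrt (Bf G ε x h h) := by
  have h2 := hF.eps_pos x hx
  have h3 := hF.sigma_pos hx
  have hnu := hF.norm_le hx hu
  have hnh := hF.le_sqrt hx h
  set q := Real.sqrt (Bf G ε x h h) with hq
  have hq0 : 0 ≤ q := Real.sqrt_nonneg _
  have hεd : HasFDerivAt ε (fderiv ℝ ε x) x :=
    ((hF.smooth_eps.contDiffAt (hΩ.mem_nhds hx)).differentiableAt (by simp)).hasFDerivAt
  have hGd : HasFDerivAt G (fderiv ℝ G x) x :=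
    ((hF.smooth.contDiffAt (hΩ.mem_nhds hx)).differentiableAt (by simp)).hasFDerivAt
  have hinv : HasFDerivAt (fun y => ((ε y) ^ 2)⁻¹)
      ((-(((ε x) ^ 2) ^ 2)⁻¹) • ((2 * ε x) • fderiv ℝ ε x)) x := by
    have e1 : HasFDerivAt (fun y => (ε y) ^ 2) ((2 * ε x) • fderiv ℝ ε x) x := by
      have := hεd.pow 2
      simpa only [Nat.add_one_sub_one, pow_one, nsmul_eq_mul, Nat.cast_ofNat] using this
    exact (hasDerivAt_inv (by positivity)).comp_hasFDerivAt x e1
  have hB : HasFDerivAt (Bf G ε) (((ε x) ^ 2)⁻¹ • fderiv ℝ G x +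
      ((-(((ε x) ^ 2) ^ 2)⁻¹) • ((2 * ε x) • fderiv ℝ ε x)).smulRight (G x)) x := hinv.smul hGd
  have e2 : fderiv ℝ (Bf G ε) x h u u = ((ε x) ^ 2)⁻¹ * fderiv ℝ G x h u u +
      -2 * (ε x)⁻¹ * fderiv ℝ ε x h * Bf G ε x u u := by
    rw [hB.fderiv, Bf_apply]
    simp only [add_apply, smul_apply, ContinuousLinearMap.smulRight_apply, smul_eq_mul]
    field_simp
  rw [e2]
  have hnh' : ‖h‖ ≤ ε x / σ x * q := by
    rw [div_mul_eq_mul_div, le_div_iff₀ h3]
    calc ‖h‖ * σ x = ε x * ((ε x)⁻¹ * σ x * ‖h‖) := by (clear * - h2 h3; field_simp)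
      _ ≤ ε x * q := by (clear * - hnh h2; gcongr)
  have hBu0 : 0 ≤ Bf G ε x u u := (sq_nonneg _).trans (hF.formField.ge x hx u)
  have t1 : |((ε x) ^ 2)⁻¹ * fderiv ℝ G x h u u| ≤ ε x * ‖fderiv ℝ G x‖ / σ x ^ 3 * q := by
    rw [abs_mul, abs_of_pos (by positivity : 0 < ((ε x) ^ 2)⁻¹)]
    have h5 : |fderiv ℝ G x h u u| ≤ ‖fderiv ℝ G x‖ * ‖h‖ * ‖u‖ * ‖u‖ := by
      rw [← Real.norm_eq_abs]
      refine ((fderiv ℝ G x h u).le_opNorm u).trans ?_
      gcongr
      refine ((fderiv ℝ G x h).le_opNorm u).trans ?_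
      gcongr
      exact (fderiv ℝ G x).le_opNorm h
    calc ((ε x) ^ 2)⁻¹ * |fderiv ℝ G x h u u|
        ≤ ((ε x) ^ 2)⁻¹ * (‖fderiv ℝ G x‖ * ‖h‖ * ‖u‖ * ‖u‖) := by (clear * - h5 h2; gcongr)
      _ ≤ ((ε x) ^ 2)⁻¹ * (‖fderiv ℝ G x‖ * (ε x / σ x * q) * (ε x / σ x) * (ε x / σ x)) := by
          gcongr
      _ = _ := by field_simp
  have t2 : |-2 * (ε x)⁻¹ * fderiv ℝ ε x h * Bf G ε x u u| ≤ 2 * ‖fderiv ℝ ε x‖ / σ x * q := by
    rw [abs_mul, abs_mul, abs_mul, abs_of_nonneg hBu0, abs_of_pos (inv_pos.2 h2)]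
    have h5 : |fderiv ℝ ε x h| ≤ ‖fderiv ℝ ε x‖ * ‖h‖ := (fderiv ℝ ε x).le_opNorm h
    calc |(-2 : ℝ)| * (ε x)⁻¹ * |fderiv ℝ ε x h| * Bf G ε x u u
        ≤ |(-2 : ℝ)| * (ε x)⁻¹ * (‖fderiv ℝ ε x‖ * (ε x / σ x * q)) * 1 := by
          have : |fderiv ℝ ε x h| ≤ ‖fderiv ℝ ε x‖ * (ε x / σ x * q) := h5.trans (by (clear * - hnh'; gcongr))
          gcongr
      _ = _ := by
          rw [abs_neg, abs_of_pos (by norm_num : (0 : ℝ) < 2)]
          (clear * - h2 h3; field_simp)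
  calc |((ε x) ^ 2)⁻¹ * fderiv ℝ G x h u u + -2 * (ε x)⁻¹ * fderiv ℝ ε x h * Bf G ε x u u|
      ≤ |((ε x) ^ 2)⁻¹ * fderiv ℝ G x h u u| + |-2 * (ε x)⁻¹ * fderiv ℝ ε x h * Bf G ε x u u| :=
        abs_add_le _ _
    _ ≤ ε x * ‖fderiv ℝ G x‖ / σ x ^ 3 * q + 2 * ‖fderiv ℝ ε x‖ / σ x * q := add_le_add t1 t2
    _ = _ := by ring

end Frame

end Vale.Agent.P073
end

section

/-!
# P073: local conditions on a homeomorphism, and the class generated by composition
-/

namespace Vale.Agent.P073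

open Set Filter Topology
open scoped NNReal InnerProductSpace

/-- Near `a`, after linear changes of variables, the map `f` has linear distortion at most `K`. -/
def SmallDistortionAt (K : ℝ) (f : E3 → E3) (a : E3) : Prop :=
  ∃ U ∈ 𝓝 a, ∃ S T : E3 ≃L[ℝ] E3, ∀ x ∈ U, ∀ y ∈ U,
    ‖S (x - y)‖ ≤ ‖T (f x - f y)‖ ∧ ‖T (f x - f y)‖ ≤ K * ‖S (x - y)‖

/-- Near `a`, the map `f` is Lipschitz, and to every direction `h` there is a direction `n` in
which the image point advances at a definite rate when the point advances in direction `h`. -/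
def DirMonotoneAt (f : E3 → E3) (a : E3) : Prop :=
  (∃ U ∈ 𝓝 a, ∃ L : ℝ≥0, LipschitzOnWith L f U) ∧
    ∀ h : E3, h ≠ 0 → ∃ n : E3, ∃ V ∈ 𝓝 a, ∀ x ∈ V, ∀ t : ℝ, 0 < t → x + t • h ∈ V →
      t ≤ ⟪n, f (x + t • h) - f x⟫_ℝ

/-- The smallest class of homeomorphisms between bounded domains which contains those that
satisfy one of the two local conditions near each point, the first with a fixed `K < √5`, and
which is closed under composition. -/
inductive Generated : Set E3 → Set E3 → (E3 → E3) → Prop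
  | base {Ω Λ : Set E3} {f : E3 → E3} {K : ℝ} : IsBoundedDomain Ω → IsBoundedDomain Λ →
      IsHomeo Ω Λ f → K < Real.sqrt 5 →
      (∀ a ∈ Ω, SmallDistortionAt K f a ∨ DirMonotoneAt f a) → Generated Ω Λ f
  | comp {Ω Λ Ξ : Set E3} {f g : E3 → E3} : Generated Ω Λ f → Generated Λ Ξ g →
      Generated Ω Ξ (g ∘ f)

end Vale.Agent.P073
end

section

/-!
# Smooth selections on open subsets of a finite dimensional space
-/

set_option maxSynthPendingDepth 3

namespace Vale.Agent.P073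

open Set Filter Topology Metric Function TopologicalSpace
open scoped ENNReal ContDiff NNReal Manifold

variable {E : Type*} [NormedAddCommGroup E] [NormedSpace ℝ E] [FiniteDimensional ℝ E]
  {F : Type*} [NormedAddCommGroup F] [NormedSpace ℝ F]

/-- Smooth selection from convex sets with locally constant selections, on an open set. -/
theorem exists_smooth_selection {Ω : Set E} (hΩ : IsOpen Ω) {t : E → Set F}
    (ht : ∀ x ∈ Ω, Convex ℝ (t x)) (hloc : ∀ x ∈ Ω, ∃ c : F, ∀ᶠ y in 𝓝 x, c ∈ t y) :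
    ∃ g : E → F, ContDiffOn ℝ ∞ g Ω ∧ ∀ x ∈ Ω, g x ∈ t x := by
  have : ProperSpace E := FiniteDimensional.proper_real E
  let U : Opens E := ⟨Ω, hΩ⟩
  have : LocallyCompactSpace U := hΩ.locallyCompactSpace
  have : SigmaCompactSpace U := inferInstance
  obtain ⟨g, hg⟩ := exists_contMDiffMap_forall_mem_convex_of_local_const (M := U) (n := ⊤)
    𝓘(ℝ, E) (t := fun x : U => t x) (fun x => ht x x.2) (fun x => by
      obtain ⟨c, hc⟩ := hloc x x.2
      exact ⟨c, continuous_subtype_val.continuousAt.eventually hc⟩)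
  refine ⟨Function.extend (Subtype.val : U → E) g 0, ?_, ?_⟩
  · intro x hx
    have h1 : ContMDiffAt 𝓘(ℝ, E) 𝓘(ℝ, F) ∞ (Function.extend (Subtype.val : U → E) g 0)
        ((⟨x, hx⟩ : U) : E) := by
      rw [← contMDiffAt_subtype_iff]
      have h2 : (fun x : U => Function.extend (Subtype.val : U → E) g 0 x) = g := by
        ext y
        exact Subtype.val_injective.extend_apply g 0 y
      rw [h2]
      exact g.contMDiff.contMDiffAt
    exact (contMDiffAt_iff_contDiffAt.1 h1).contDiffWithinAt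
  · intro x hx
    have h2 : Function.extend (Subtype.val : U → E) g 0 x = g ⟨x, hx⟩ :=
      Subtype.val_injective.extend_apply g 0 ⟨x, hx⟩
    rw [h2]
    exact hg ⟨x, hx⟩

/-- A locally bounded function on an open set has a smooth majorant. -/
theorem exists_smooth_gt {Ω : Set E} (hΩ : IsOpen Ω) {b : E → ℝ}
    (hb : ∀ x ∈ Ω, ∃ c : ℝ, ∀ᶠ y in 𝓝 x, b y < c) :
    ∃ g : E → ℝ, ContDiffOn ℝ ∞ g Ω ∧ ∀ x ∈ Ω, b x < g x :=
  exists_smooth_selection hΩ (t := fun x => Ioi (b x)) (fun x _ => convex_Ioi _) hb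

end Vale.Agent.P073
end

section

/-!
# Choice of continuous local data
-/

set_option maxSynthPendingDepth 3

namespace Vale.Agent.P073

open MeasureTheory Set Filter Topology Metric
open scoped ContDiff Real InnerProductSpace NNReal

/-- Lipschitz on a set -/
def LipOn (f : R3 → R3) (U : Set R3) (L : ℝ) : Prop :=
  ∀ y ∈ U, ∀ z ∈ U, ‖f y - f z‖ ≤ L * ‖y - z‖

/-- first local condition -/
def PI (f : R3 → R3) (U : Set R3) (ρ : ℝ) (G H : BF) : Prop :=
  ∀ y ∈ U, ∀ z ∈ U, G (y - z) (y - z) ≤ H (f y - f z) (f y - f z) ∧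
    H (f y - f z) (f y - f z) ≤ ρ * G (y - z) (y - z)

/-- second local condition -/
def PII (f : R3 → R3) (U : Set R3) (c : ℝ) : Prop :=
  ∀ h : R3, ‖h‖ = 1 → ∃ n : R3, ‖n‖ ≤ 1 ∧ ∀ y ∈ U, ∀ t : ℝ, 0 < t → y + t • h ∈ U →
    c * t ≤ ⟪n, f (y + t • h) - f y⟫_ℝ

/-- bounds for a form -/
def FB (G : BF) (m M : ℝ) : Prop :=
  (∀ u v, G u v = G v u) ∧ ∀ u, m * ‖u‖ ^ 2 ≤ G u u ∧ G u u ≤ M * ‖u‖ ^ 2

theorem LipOn.mono {f : R3 → R3} {U V : Set R3} {L : ℝ} (h : LipOn f U L) (hV : V ⊆ U) :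
    LipOn f V L := fun y hy z hz => h y (hV hy) z (hV hz)

theorem PI.mono {f : R3 → R3} {U V : Set R3} {ρ : ℝ} {G H : BF} (h : PI f U ρ G H) (hV : V ⊆ U) :
    PI f V ρ G H := fun y hy z hz => h y (hV hy) z (hV hz)

theorem PII.mono {f : R3 → R3} {U V : Set R3} {c : ℝ} (h : PII f U c) (hV : V ⊆ U) :
    PII f V c := fun v hv => by
  obtain ⟨n, hn, h1⟩ := h v hv
  exact ⟨n, hn, fun y hy t ht hyt => h1 y (hV hy) t ht (hV hyt)⟩

/-- there are forms with the first condition -/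
def LI (f : R3 → R3) (ρ : ℝ) (U : Set R3) : Prop :=
  ∃ G H : BF, ∃ m M : ℝ, 0 < m ∧ FB G m M ∧ FB H m M ∧ PI f U ρ G H

def LII (f : R3 → R3) (U : Set R3) : Prop := ∃ c : ℝ, 0 < c ∧ PII f U c

def LL (f : R3 → R3) (U : Set R3) : Prop := ∃ L : ℝ, LipOn f U L

theorem LI.mono {f : R3 → R3} {U V : Set R3} {ρ : ℝ} (h : LI f ρ U) (hV : V ⊆ U) : LI f ρ V := by
  obtain ⟨G, H, m, M, h1, h2, h3, h4⟩ := h
  exact ⟨G, H, m, M, h1, h2, h3, h4.mono hV⟩

theorem LII.mono {f : R3 → R3} {U V : Set R3} (h : LII f U) (hV : V ⊆ U) : LII f V := by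
  obtain ⟨c, h1, h2⟩ := h
  exact ⟨c, h1, h2.mono hV⟩

theorem LL.mono {f : R3 → R3} {U V : Set R3} (h : LL f U) (hV : V ⊆ U) : LL f V := by
  obtain ⟨c, h1⟩ := h
  exact ⟨c, h1.mono hV⟩

/-- the form of a linear isomorphism -/
noncomputable def formOf (S : R3 ≃L[ℝ] R3) : BF :=
  (innerSL ℝ).bilinearComp (S : R3 →L[ℝ] R3) (S : R3 →L[ℝ] R3)

theorem formOf_apply (S : R3 ≃L[ℝ] R3) (u v : R3) : formOf S u v = ⟪S u, S v⟫_ℝ := rfl

theorem formOf_self (S : R3 ≃L[ℝ] R3) (u : R3) : formOf S u u = ‖S u‖ ^ 2 := by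
  rw [formOf_apply, real_inner_self_eq_norm_sq]

theorem exists_FB (S : R3 ≃L[ℝ] R3) : ∃ m M : ℝ, 0 < m ∧ ∀ m' ≤ m, ∀ M' ≥ M, FB (formOf S) m' M' := by
  set s := ‖(S.symm : R3 →L[ℝ] R3)‖ with hs
  have hs0 : 0 ≤ s := norm_nonneg _
  refine ⟨((s + 1) ^ 2)⁻¹, ‖(S : R3 →L[ℝ] R3)‖ ^ 2, by positivity, fun m' hm' M' hM' => ⟨?_, ?_⟩⟩
  · intro u v
    rw [formOf_apply, formOf_apply, real_inner_comm]
  · intro u
    rw [formOf_self]
    constructor
    · have h1 : ‖u‖ ≤ (s + 1) * ‖S u‖ := by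
        calc ‖u‖ = ‖S.symm (S u)‖ := by rw [S.symm_apply_apply]
          _ ≤ s * ‖S u‖ := (S.symm : R3 →L[ℝ] R3).le_opNorm _
          _ ≤ (s + 1) * ‖S u‖ := by gcongr; linarith only []
      have h2 : ‖u‖ ^ 2 ≤ (s + 1) ^ 2 * ‖S u‖ ^ 2 := by
        rw [← mul_pow]; gcongr
      calc m' * ‖u‖ ^ 2 ≤ ((s + 1) ^ 2)⁻¹ * ‖u‖ ^ 2 := by gcongr
        _ ≤ ((s + 1) ^ 2)⁻¹ * ((s + 1) ^ 2 * ‖S u‖ ^ 2) := by gcongr
        _ = ‖S u‖ ^ 2 := by field_simp
    · calc ‖S u‖ ^ 2 ≤ (‖(S : R3 →L[ℝ] R3)‖ * ‖u‖) ^ 2 := by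
            gcongr
            exact (S : R3 →L[ℝ] R3).le_opNorm u
        _ = ‖(S : R3 →L[ℝ] R3)‖ ^ 2 * ‖u‖ ^ 2 := by ring
        _ ≤ M' * ‖u‖ ^ 2 := by (clear * - hM'; gcongr)

theorem LI_of_small {K : ℝ} {f : R3 → R3} {a : R3} (hK : 0 ≤ K) (h : SmallDistortionAt K f a) :
    ∃ U ∈ 𝓝 a, LI f (K ^ 2) U ∧ LL f U := by
  obtain ⟨U, hU, S, T, hST⟩ := h
  obtain ⟨m1, M1, hm1, h1⟩ := exists_FB S
  obtain ⟨m2, M2, hm2, h2⟩ := exists_FB T
  refine ⟨U, hU, ⟨formOf S, formOf T, min m1 m2, max M1 M2, lt_min hm1 hm2,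
    h1 _ (min_le_left _ _) _ (le_max_left _ _), h2 _ (min_le_right _ _) _ (le_max_right _ _), ?_⟩,
    ⟨‖(T.symm : R3 →L[ℝ] R3)‖ * (K * ‖(S : R3 →L[ℝ] R3)‖), ?_⟩⟩
  · intro y hy z hz
    obtain ⟨h3, h4⟩ := hST y hy z hz
    rw [formOf_self, formOf_self]
    constructor
    · (clear * - h3; gcongr)
    · calc ‖T (f y - f z)‖ ^ 2 ≤ (K * ‖S (y - z)‖) ^ 2 := by (clear * - h4; gcongr)
        _ = _ := by ring
  · intro y hy z hz
    obtain ⟨-, h4⟩ := hST y hy z hz
    calc ‖f y - f z‖ = ‖T.symm (T (f y - f z))‖ := by rw [T.symm_apply_apply]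
      _ ≤ ‖(T.symm : R3 →L[ℝ] R3)‖ * ‖T (f y - f z)‖ := (T.symm : R3 →L[ℝ] R3).le_opNorm _
      _ ≤ ‖(T.symm : R3 →L[ℝ] R3)‖ * (K * (‖(S : R3 →L[ℝ] R3)‖ * ‖y - z‖)) := by
          gcongr
          refine h4.trans ?_
          gcongr
          exact (S : R3 →L[ℝ] R3).le_opNorm _
      _ = _ := by ring

theorem LII_of_mono {f : R3 → R3} {a : R3} (h : DirMonotoneAt f a) :
    ∃ U ∈ 𝓝 a, LII f U ∧ LL f U := by
  obtain ⟨⟨U, hU, L, hL⟩, hdir⟩ := h
  -- the property to be propagated by compactness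
  have hcomp : IsCompact (sphere (0 : R3) 1) := isCompact_sphere 0 1
  have key : ∃ c : ℝ, 0 < c ∧ ∃ s : ℝ, 0 < s ∧ ball a s ⊆ U ∧ ∀ h ∈ sphere (0 : R3) 1,
      ∃ n : R3, ‖n‖ ≤ 1 ∧ ∀ y ∈ ball a s, ∀ t : ℝ, 0 < t → y + t • h ∈ ball a s →
        c * t ≤ ⟪n, f (y + t • h) - f y⟫_ℝ := by
    refine hcomp.induction_on (p := fun A => ∃ c : ℝ, 0 < c ∧ ∃ s : ℝ, 0 < s ∧ ball a s ⊆ U ∧
      ∀ h ∈ A, ∃ n : R3, ‖n‖ ≤ 1 ∧ ∀ y ∈ ball a s, ∀ t : ℝ, 0 < t → y + t • h ∈ ball a s →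
        c * t ≤ ⟪n, f (y + t • h) - f y⟫_ℝ) ?_ ?_ ?_ ?_
    · obtain ⟨s, hs, hsU⟩ := Metric.mem_nhds_iff.1 hU
      exact ⟨1, one_pos, s, hs, hsU, by simp only [mem_empty_iff_false, mem_ball, one_mul, IsEmpty.forall_iff, implies_true]⟩
    · rintro A B hAB ⟨c, hc, s, hs, hsU, h1⟩
      exact ⟨c, hc, s, hs, hsU, fun h hh => h1 h (hAB hh)⟩
    · rintro A B ⟨c, hc, s, hs, hsU, h1⟩ ⟨c', hc', s', hs', hsU', h1'⟩
      have hb : ball a (min s s') ⊆ ball a s := ball_subset_ball (min_le_left _ _)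
      have hb' : ball a (min s s') ⊆ ball a s' := ball_subset_ball (min_le_right _ _)
      refine ⟨min c c', lt_min hc hc', min s s', lt_min hs hs', hb.trans hsU, ?_⟩
      rintro h (hh | hh)
      · obtain ⟨n, hn, h2⟩ := h1 h hh
        refine ⟨n, hn, fun y hy t ht hyt => ?_⟩
        have := h2 y (hb hy) t ht (hb hyt)
        have h3 : min c c' * t ≤ c * t := by gcongr; exact min_le_left _ _
        linarith only [this, h3]
      · obtain ⟨n, hn, h2⟩ := h1' h hh
        refine ⟨n, hn, fun y hy t ht hyt => ?_⟩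
        have := h2 y (hb' hy) t ht (hb' hyt)
        have h3 : min c c' * t ≤ c' * t := by gcongr; exact min_le_right _ _
        linarith only [this, h3]
    · intro h0 hh0
      have hh0' : ‖h0‖ = 1 := by simpa only [mem_sphere_iff_norm, sub_zero] using hh0
      have hne : h0 ≠ 0 := by rintro rfl; simp at hh0'
      obtain ⟨n0, V, hV, hn0⟩ := hdir h0 hne
      obtain ⟨s, hs, hsV⟩ := Metric.mem_nhds_iff.1 (Filter.inter_mem hV hU)
      set N := ‖n0‖ with hN
      have hN0 : 0 ≤ N := norm_nonneg _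
      set θ := min (1 / 4) (1 / (2 * (N * L + 1))) with hθ
      have hθ0 : 0 < θ := by
        have : (0 : ℝ) ≤ N * L := by (clear * -; positivity)
        exact lt_min (by norm_num) (by (clear * -; positivity))
      refine ⟨ball h0 θ, mem_nhdsWithin_of_mem_nhds (ball_mem_nhds _ hθ0), 1 / (2 * (N + 1)),
        by (clear * -; positivity), s / 2, by positivity,
        (ball_subset_ball (by linarith only [hs])).trans (hsV.trans inter_subset_right), ?_⟩
      intro h hh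
      rw [mem_ball, dist_eq_norm] at hh
      refine ⟨(N + 1)⁻¹ • n0, ?_, ?_⟩
      · rw [norm_smul, norm_inv, Real.norm_of_nonneg (by (clear * -; positivity) : 0 ≤ N + 1),
          inv_mul_le_iff₀ (by (clear * -; positivity))]
        linarith only []
      intro y hy t ht hyt
      have hh2 : ‖h - h0‖ < 1 / 4 := hh.trans_le (min_le_left _ _)
      have hh3 : ‖h - h0‖ < 1 / (2 * (N * L + 1)) := hh.trans_le (min_le_right _ _)
      rw [mem_ball, dist_eq_norm] at hy hyt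
      have hhn : 3 / 4 < ‖h‖ := by
        have := norm_sub_norm_le h0 (h0 - h)
        rw [sub_sub_cancel, norm_sub_rev h0 h] at this
        linarith only [hh0', hh2, this]
      have hts : t * ‖h‖ < s := by
        calc t * ‖h‖ = ‖t • h‖ := by rw [norm_smul, Real.norm_of_nonneg ht.le]
          _ = ‖(y + t • h - a) - (y - a)‖ := by congr 1; abel
          _ ≤ ‖y + t • h - a‖ + ‖y - a‖ := norm_sub_le _ _
          _ < s := by linarith only [hyt, hy]
      have hd : ‖(y + t • h) - (y + t • h0)‖ = t * ‖h - h0‖ := by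
        rw [add_sub_add_left_eq_sub, ← smul_sub, norm_smul, Real.norm_of_nonneg ht.le]
      have hth : t * ‖h - h0‖ < s / 2 := by
        have h5 : t * ‖h - h0‖ ≤ t * (1 / 4) := mul_le_mul_of_nonneg_left hh2.le ht.le
        have h6 : t * (3 / 4) ≤ t * ‖h‖ := mul_le_mul_of_nonneg_left hhn.le ht.le
        linarith only [ht, hts, h5, h6]
      have hb1 : y + t • h0 ∈ ball a s := by
        rw [mem_ball, dist_eq_norm]
        calc ‖y + t • h0 - a‖ = ‖(y + t • h - a) - ((y + t • h) - (y + t • h0))‖ := by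
              congr 1; abel
          _ ≤ ‖y + t • h - a‖ + ‖(y + t • h) - (y + t • h0)‖ := norm_sub_le _ _
          _ < s / 2 + s / 2 := by rw [hd]; linarith only [hyt, hth]
          _ = s := by ring
      have hyb : y ∈ ball a s := by rw [mem_ball, dist_eq_norm]; linarith only [hs, hy]
      have hythb : y + t • h ∈ ball a s := by rw [mem_ball, dist_eq_norm]; linarith only [hs, hyt]
      have h1 := hn0 y (hsV hyb).1 t ht (hsV hb1).1
      have h2 : ‖f (y + t • h) - f (y + t • h0)‖ ≤ L * (t * ‖h - h0‖) := by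
        have := hL.dist_le_mul _ (hsV hythb).2 _ (hsV hb1).2
        rw [dist_eq_norm, dist_eq_norm, hd] at this
        exact this
      have h3 : |⟪n0, f (y + t • h) - f (y + t • h0)⟫_ℝ| ≤ t / 2 := by
        refine (abs_real_inner_le_norm _ _).trans ?_
        calc ‖n0‖ * ‖f (y + t • h) - f (y + t • h0)‖ ≤ N * (L * (t * ‖h - h0‖)) := by (clear * - h2; gcongr)
          _ ≤ N * (L * (t * (1 / (2 * (N * L + 1))))) := by (clear * - hh3 ht; gcongr)
          _ = t / 2 * (N * L / (N * L + 1)) := by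
              have : (0 : ℝ) < N * L + 1 := by (clear * -; positivity)
              (clear * - hN0 ht; field_simp)
          _ ≤ t / 2 * 1 := by
              gcongr
              have : (0 : ℝ) ≤ N * L := by (clear * -; positivity)
              exact div_le_one_of_le₀ (by linarith only []) (by linarith only [this])
          _ = t / 2 := by ring
      have h4 : t / 2 ≤ ⟪n0, f (y + t • h) - f y⟫_ℝ := by
        have e : f (y + t • h) - f y = (f (y + t • h0) - f y) +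
            (f (y + t • h) - f (y + t • h0)) := by abel
        rw [e, inner_add_right]
        have := neg_abs_le ⟪n0, f (y + t • h) - f (y + t • h0)⟫_ℝ
        linarith only [h1, h3, this]
      rw [inner_smul_left]
      simp only [conj_trivial]
      calc 1 / (2 * (N + 1)) * t = (N + 1)⁻¹ * (t / 2) := by (clear * - ht hN0; field_simp)
        _ ≤ _ := by (clear * - h4; gcongr)
  obtain ⟨c, hc, s, hs, hsU, h1⟩ := key
  refine ⟨ball a s, ball_mem_nhds a hs, ⟨c, hc, fun h hh => h1 h (by simpa only [mem_sphere_iff_norm, sub_zero] using hh)⟩, L, ?_⟩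
  intro y hy z hz
  have := hL.dist_le_mul _ (hsU hy) _ (hsU hz)
  rwa [dist_eq_norm, dist_eq_norm] at this

end Vale.Agent.P073
end
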