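import Vale.Agent.P073.MathlibUsed
import Vale.Agent.P073.Bdl.B1
attribute [-instance] ProperSMul.toContinuousSMul IsTopologicalTorsor.toContinuousSMul IdemSemiring.toCanonicallyOrderedAdd IdemSemiring.toMulLeftMono IdemSemiring.toMulRightMono AddQuantale.instAddLeftMono AddQuantale.instAddRightMono Quantale.instMulLeftMono Quantale.instMulRightMono FiniteDimensional.rclike_to_real IsScalarTower.complexToReal FiniteDimensional.complexToReal

set_option linter.all false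

section

/-!
# Choice of continuous local data, continued
-/

set_option maxSynthPendingDepth 3

namespace Vale.Agent.P073

open MeasureTheory Set Filter Topology Metric
open scoped ContDiff Real InnerProductSpace NNReal

theorem convex_of_down {t : Set ℝ} (h0 : ∀ s ∈ t, 0 < s) (h : ∀ s ∈ t, ∀ s', 0 < s' → s' ≤ s → s' ∈ t) :
    Convex ℝ t := by
  apply Set.OrdConnected.convex
  constructor
  intro x hx y hy z hz
  exact h y hy z ((h0 x hx).trans_le hz.1) hz.2

theorem FB.combo {G G' : BF} {m M m' M' : ℝ} (h : FB G m M) (h' : FB G' m' M') {a b : ℝ}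
    (ha : 0 ≤ a) (hb : 0 ≤ b) :
    FB (a • G + b • G') (a * m + b * m') (a * M + b * M') := by
  constructor
  · intro u v
    simp only [add_apply, smul_apply, smul_eq_mul]
    rw [h.1 u v, h'.1 u v]
  · intro u
    simp only [add_apply, smul_apply, smul_eq_mul]
    obtain ⟨h1, h2⟩ := h.2 u
    obtain ⟨h1', h2'⟩ := h'.2 u
    have e1 := mul_le_mul_of_nonneg_left h1 ha
    have e2 := mul_le_mul_of_nonneg_left h2 ha
    have e3 := mul_le_mul_of_nonneg_left h1' hb
    have e4 := mul_le_mul_of_nonneg_left h2' hb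
    constructor <;> linarith

theorem PI.combo {f : R3 → R3} {U : Set R3} {ρ : ℝ} {G H G' H' : BF} (h : PI f U ρ G H)
    (h' : PI f U ρ G' H') {a b : ℝ} (ha : 0 ≤ a) (hb : 0 ≤ b) :
    PI f U ρ (a • G + b • G') (a • H + b • H') := by
  intro y hy z hz
  simp only [add_apply, smul_apply, smul_eq_mul]
  obtain ⟨h1, h2⟩ := h y hy z hz
  obtain ⟨h1', h2'⟩ := h' y hy z hz
  have e1 := mul_le_mul_of_nonneg_left h1 ha
  have e2 := mul_le_mul_of_nonneg_left h2 ha
  have e3 := mul_le_mul_of_nonneg_left h1' hb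
  have e4 := mul_le_mul_of_nonneg_left h2' hb
  constructor <;> nlinarith

theorem LipOn.combo {f : R3 → R3} {U : Set R3} {L L' : ℝ} (h : LipOn f U L) (h' : LipOn f U L')
    {a b : ℝ} (ha : 0 ≤ a) (hb : 0 ≤ b) (hab : a + b = 1) : LipOn f U (a * L + b * L') := by
  intro y hy z hz
  have h1 := mul_le_mul_of_nonneg_left (h y hy z hz) ha
  have h2 := mul_le_mul_of_nonneg_left (h' y hy z hz) hb
  calc ‖f y - f z‖ = a * ‖f y - f z‖ + b * ‖f y - f z‖ := by rw [← add_mul, hab, one_mul]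
    _ ≤ _ := by linarith

theorem PII.down {f : R3 → R3} {U : Set R3} {c c' : ℝ} (h : PII f U c) (hc : c' ≤ c) :
    PII f U c' := by
  intro v hv
  obtain ⟨n, hn, h1⟩ := h v hv
  refine ⟨n, hn, fun y hy t ht hyt => ?_⟩
  have := h1 y hy t ht hyt
  have h2 : c' * t ≤ c * t := by gcongr
  (clear * - this h2; linarith)

theorem exists_local_data {Ω : Set R3} (hΩ : IsOpen Ω) {f : R3 → R3} {K : ℝ} (hK : 0 ≤ K)
    (hloc : ∀ a ∈ Ω, SmallDistortionAt K f a ∨ DirMonotoneAt f a) :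
    ∃ (r L c σ τ : R3 → ℝ) (G : R3 → BF),
      ContinuousOn r Ω ∧ ContinuousOn L Ω ∧ ContinuousOn c Ω ∧ ContinuousOn σ Ω ∧
      ContinuousOn τ Ω ∧ ContDiffOn ℝ ∞ G Ω ∧
      ∀ x ∈ Ω, 0 < r x ∧ ball x (r x) ⊆ Ω ∧ 0 < L x ∧ LipOn f (ball x (r x)) (L x) ∧
        0 < c x ∧ 0 < σ x ∧ 0 < τ x ∧ FB (G x) (σ x ^ 2) (τ x ^ 2) ∧
        ((∃ H : BF, FB H (σ x ^ 2) (τ x ^ 2) ∧ PI f (ball x (r x)) (K ^ 2) (G x) H) ∨
          PII f (ball x (r x)) (c x)) := by
  set O1 : R3 → Prop := fun x => ∃ U ∈ 𝓝 x, LI f (K ^ 2) U with hO1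
  set O2 : R3 → Prop := fun x => ∃ U ∈ 𝓝 x, LII f U with hO2
  have hO : ∀ x ∈ Ω, (O1 x ∨ O2 x) ∧ ∃ U ∈ 𝓝 x, LL f U := by
    intro x hx
    rcases hloc x hx with h | h
    · obtain ⟨U, hU, h1, h2⟩ := LI_of_small hK h
      exact ⟨Or.inl ⟨U, hU, h1⟩, U, hU, h2⟩
    · obtain ⟨U, hU, h1, h2⟩ := LII_of_mono h
      exact ⟨Or.inr ⟨U, hU, h1⟩, U, hU, h2⟩
  have hO1o : ∀ x, O1 x → ∀ᶠ y in 𝓝 x, O1 y := by
    rintro x ⟨U, hU, h1⟩
    filter_upwards [eventually_mem_nhds_iff.2 hU] with y hy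
    exact ⟨U, hy, h1⟩
  have hO2o : ∀ x, O2 x → ∀ᶠ y in 𝓝 x, O2 y := by
    rintro x ⟨U, hU, h1⟩
    filter_upwards [eventually_mem_nhds_iff.2 hU] with y hy
    exact ⟨U, hy, h1⟩
  -- a switch function
  obtain ⟨χ, hχs, hχ⟩ := exists_smooth_selection hΩ
    (t := fun x => {s : ℝ | (0 ≤ s → O1 x) ∧ (s ≤ 0 → O2 x)}) (by
      intro x hx
      rcases (hO x hx).1 with h | h
      · by_cases h2 : O2 x
        · have : {s : ℝ | (0 ≤ s → O1 x) ∧ (s ≤ 0 → O2 x)} = univ := by
            ext s; simp only [h, implies_true, h2, and_self, ofPred_true, mem_univ]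
          simp only [this]; exact convex_univ
        · have : {s : ℝ | (0 ≤ s → O1 x) ∧ (s ≤ 0 → O2 x)} = Ioi 0 := by
            ext s; simp only [h, implies_true, h2, imp_false, not_le, true_and, mem_ofPred_eq, mem_Ioi]
          simp only [this]; exact convex_Ioi 0
      · by_cases h1 : O1 x
        · have : {s : ℝ | (0 ≤ s → O1 x) ∧ (s ≤ 0 → O2 x)} = univ := by
            ext s; simp only [h1, implies_true, h, and_self, ofPred_true, mem_univ]
          simp only [this]; exact convex_univ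
        · have : {s : ℝ | (0 ≤ s → O1 x) ∧ (s ≤ 0 → O2 x)} = Iio 0 := by
            ext s; simp only [h1, imp_false, not_le, h, implies_true, and_true, mem_ofPred_eq, mem_Iio]
          simp only [this]; exact convex_Iio 0) (by
      intro x hx
      rcases (hO x hx).1 with h | h
      · refine ⟨1, (hO1o x h).mono fun y hy => ⟨fun _ => hy, fun h1 => absurd h1 (by norm_num)⟩⟩
      · refine ⟨-1, (hO2o x h).mono fun y hy => ⟨fun h1 => absurd h1 (by norm_num), fun _ => hy⟩⟩)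
  have hχc : ∀ a ∈ Ω, ContinuousAt χ a := fun a ha =>
    hχs.continuousOn.continuousAt (hΩ.mem_nhds ha)
  have hχneg : ∀ a ∈ Ω, ¬ (0 ≤ χ a) → ∀ᶠ x in 𝓝 a, ¬ (0 ≤ χ x) := by
    intro a ha h
    rw [not_le] at h
    filter_upwards [(hχc a ha).eventually (gt_mem_nhds h)] with x hx
    rwa [not_le]
  have hχpos : ∀ a ∈ Ω, ¬ (χ a ≤ 0) → ∀ᶠ x in 𝓝 a, ¬ (χ x ≤ 0) := by
    intro a ha h
    rw [not_le] at h
    filter_upwards [(hχc a ha).eventually (lt_mem_nhds h)] with x hx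
    rwa [not_le]
  -- the radius
  set Cnd : R3 → ℝ → Prop := fun x s => ball x s ⊆ Ω ∧ LL f (ball x s) ∧
    (0 ≤ χ x → LI f (K ^ 2) (ball x s)) ∧ (χ x ≤ 0 → LII f (ball x s)) with hCnd
  have hCnd_mono : ∀ x s s', s' ≤ s → Cnd x s → Cnd x s' := by
    rintro x s s' hs ⟨h1, h2, h3, h4⟩
    have hb := ball_subset_ball (x := x) hs
    exact ⟨hb.trans h1, h2.mono hb, fun h => (h3 h).mono hb, fun h => (h4 h).mono hb⟩
  obtain ⟨r, hrs, hr⟩ := exists_smooth_selection hΩ
    (t := fun x => {s : ℝ | 0 < s ∧ Cnd x (4 * s)}) (by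
      intro x hx
      refine convex_of_down (fun s hs => hs.1) fun s hs s' hs' hss => ⟨hs', ?_⟩
      exact hCnd_mono x _ _ (by linarith only [hss]) hs.2) (by
      intro a ha
      have hN : ∃ U ∈ 𝓝 a, U ⊆ Ω ∧ LL f U ∧ (O1 a → LI f (K ^ 2) U) ∧ (O2 a → LII f U) := by
        obtain ⟨U0, hU0, hL0⟩ := (hO a ha).2
        have e1 : ∃ U1 ∈ 𝓝 a, (O1 a → LI f (K ^ 2) U1) := by
          by_cases h : O1 a
          · obtain ⟨U, hU, hh⟩ := h
            exact ⟨U, hU, fun _ => hh⟩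
          · exact ⟨univ, univ_mem, fun h' => absurd h' h⟩
        have e2 : ∃ U1 ∈ 𝓝 a, (O2 a → LII f U1) := by
          by_cases h : O2 a
          · obtain ⟨U, hU, hh⟩ := h
            exact ⟨U, hU, fun _ => hh⟩
          · exact ⟨univ, univ_mem, fun h' => absurd h' h⟩
        obtain ⟨U1, hU1, h1⟩ := e1
        obtain ⟨U2, hU2, h2⟩ := e2
        refine ⟨(U0 ∩ Ω) ∩ (U1 ∩ U2), inter_mem (inter_mem hU0 (hΩ.mem_nhds ha))
          (inter_mem hU1 hU2), fun x hx => hx.1.2, hL0.mono fun x hx => hx.1.1,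
          fun h => (h1 h).mono fun x hx => hx.2.1, fun h => (h2 h).mono fun x hx => hx.2.2⟩
      obtain ⟨U, hU, hUΩ, hUL, hU1, hU2⟩ := hN
      obtain ⟨s, hs, hsU⟩ := Metric.mem_nhds_iff.1 hU
      refine ⟨s / 8, ?_⟩
      have ev1 : ∀ᶠ x in 𝓝 a, (0 ≤ χ x → O1 a) := by
        by_cases h : 0 ≤ χ a
        · exact Eventually.of_forall fun x _ => (hχ a ha).1 h
        · filter_upwards [hχneg a ha h] with x hx hx'
          exact absurd hx' hx
      have ev2 : ∀ᶠ x in 𝓝 a, (χ x ≤ 0 → O2 a) := by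
        by_cases h : χ a ≤ 0
        · exact Eventually.of_forall fun x _ => (hχ a ha).2 h
        · filter_upwards [hχpos a ha h] with x hx hx'
          exact absurd hx' hx
      filter_upwards [ball_mem_nhds a (half_pos hs), ev1, ev2] with x hx h1 h2
      have hb : ball x (4 * (s / 8)) ⊆ U := by
        refine Subset.trans ?_ hsU
        apply ball_subset_ball'
        rw [mem_ball] at hx
        linarith only [hx]
      exact ⟨by (clear * - hs; positivity), hb.trans hUΩ, hUL.mono hb, fun h => (hU1 (h1 h)).mono hb,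
        fun h => (hU2 (h2 h)).mono hb⟩)
  have hrc : ContinuousOn r Ω := hrs.continuousOn
  have hnest : ∀ a ∈ Ω, ∀ᶠ x in 𝓝 a, ball x (r x) ⊆ ball a (4 * r a) := by
    intro a ha
    have hra := (hr a ha).1
    have h1 : ∀ᶠ x in 𝓝 a, r x < 2 * r a :=
      (hrc.continuousAt (hΩ.mem_nhds ha)).eventually (gt_mem_nhds (by linarith only [hra]))
    filter_upwards [h1, ball_mem_nhds a hra] with x h2 h3
    apply ball_subset_ball'
    rw [mem_ball] at h3
    linarith only [hra, h2, h3]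
  -- the Lipschitz constant
  obtain ⟨L, hLs, hL⟩ := exists_smooth_selection hΩ
    (t := fun x => {s : ℝ | 0 < s ∧ LipOn f (ball x (r x)) s}) (by
      intro x hx s hs s' hs' a b ha hb hab
      refine ⟨?_, hs.2.combo hs'.2 ha hb hab⟩
      exact (convex_Ioi (0 : ℝ)) hs.1 hs'.1 ha hb hab) (by
      intro a ha
      obtain ⟨L0, hL0⟩ := (hr a ha).2.2.1
      refine ⟨max L0 1, ?_⟩
      filter_upwards [hnest a ha] with x hx
      refine ⟨lt_max_of_lt_right one_pos, fun y hy z hz => ?_⟩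
      refine (hL0 y (hx hy) z (hx hz)).trans ?_
      gcongr
      exact le_max_left _ _)
  obtain ⟨c, hcs, hc⟩ := exists_smooth_selection hΩ
    (t := fun x => {s : ℝ | 0 < s ∧ (χ x ≤ 0 → PII f (ball x (r x)) s)}) (by
      intro x hx
      refine convex_of_down (fun s hs => hs.1) fun s hs s' hs' hss =>
        ⟨hs', fun h => (hs.2 h).down hss⟩) (by
      intro a ha
      by_cases h : χ a ≤ 0
      · obtain ⟨c0, hc0, hc1⟩ := (hr a ha).2.2.2.2 h
        refine ⟨c0, ?_⟩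
        filter_upwards [hnest a ha] with x hx
        exact ⟨hc0, fun _ => hc1.mono hx⟩
      · refine ⟨1, ?_⟩
        filter_upwards [hχpos a ha h] with x hx
        exact ⟨one_pos, fun h' => absurd h' hx⟩)
  -- the forms
  obtain ⟨Q, hQs, hQ⟩ := exists_smooth_selection (F := BF × BF × ℝ × ℝ) hΩ
    (t := fun x => {q | 0 < q.2.2.1 ∧ FB q.1 q.2.2.1 q.2.2.2 ∧ FB q.2.1 q.2.2.1 q.2.2.2 ∧
      (0 ≤ χ x → PI f (ball x (r x)) (K ^ 2) q.1 q.2.1)}) (by
      intro x hx q hq q' hq' a b ha hb hab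
      refine ⟨?_, hq.2.1.combo hq'.2.1 ha hb, hq.2.2.1.combo hq'.2.2.1 ha hb,
        fun h => (hq.2.2.2 h).combo (hq'.2.2.2 h) ha hb⟩
      exact (convex_Ioi (0 : ℝ)) hq.1 hq'.1 ha hb hab) (by
      intro a ha
      by_cases h : 0 ≤ χ a
      · obtain ⟨G, H, m, M, hm, hG, hH, hGH⟩ := (hr a ha).2.2.2.1 h
        refine ⟨(G, H, m, M), ?_⟩
        filter_upwards [hnest a ha] with x hx
        exact ⟨hm, hG, hH, fun _ => hGH.mono hx⟩
      · have hI : FB (innerSL ℝ : BF) 1 1 := by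
          constructor
          · intro u v
            rw [innerSL_apply_apply, innerSL_apply_apply, real_inner_comm]
          · intro u
            rw [innerSL_apply_apply, real_inner_self_eq_norm_sq]
            simp
        refine ⟨(innerSL ℝ, innerSL ℝ, 1, 1), ?_⟩
        filter_upwards [hχneg a ha h] with x hx
        exact ⟨one_pos, hI, hI, fun h' => absurd h' hx⟩)
  have hQc := hQs.continuousOn
  have hmc : ContinuousOn (fun x => (Q x).2.2.1) Ω :=
    (continuous_fst.comp (continuous_snd.comp continuous_snd)).comp_continuousOn hQc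
  have hMc : ContinuousOn (fun x => (Q x).2.2.2) Ω :=
    (continuous_snd.comp (continuous_snd.comp continuous_snd)).comp_continuousOn hQc
  refine ⟨r, L, c, fun x => min (Q x).2.2.1 1, fun x => 1 + (Q x).2.2.2, fun x => (Q x).1,
    hrc, hLs.continuousOn, hcs.continuousOn, hmc.inf continuousOn_const,
    continuousOn_const.add hMc, hQs.fst, ?_⟩
  intro x hx
  obtain ⟨hr0, hr1, -, -, -⟩ := hr x hx
  obtain ⟨hm, hG, hH, hPI⟩ := hQ x hx
  have hmM : (Q x).2.2.1 ≤ (Q x).2.2.2 := by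
    obtain ⟨h1, h2⟩ := hG.2 (EuclideanSpace.single 0 1)
    simp only [Fin.isValue, PiLp.norm_single, norm_one, one_pow, mul_one] at h1 h2
    linarith only [h1, h2]
  have hσ : 0 < min (Q x).2.2.1 1 := lt_min hm one_pos
  have hσ2 : min (Q x).2.2.1 1 ^ 2 ≤ (Q x).2.2.1 := by
    have e1 := min_le_left (Q x).2.2.1 1
    have e2 := min_le_right (Q x).2.2.1 1
    nlinarith only [e2, hσ, e1]
  have hτ2 : (Q x).2.2.2 ≤ (1 + (Q x).2.2.2) ^ 2 := by nlinarith only []
  have up : ∀ G : BF, FB G (Q x).2.2.1 (Q x).2.2.2 →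
      FB G (min (Q x).2.2.1 1 ^ 2) ((1 + (Q x).2.2.2) ^ 2) := by
    intro G hG
    refine ⟨hG.1, fun u => ⟨?_, ?_⟩⟩
    · refine le_trans ?_ (hG.2 u).1
      (clear * - hσ2; gcongr)
    · refine le_trans (hG.2 u).2 ?_
      (clear * - hτ2; gcongr)
  refine ⟨hr0, (ball_subset_ball (by linarith only [hr0])).trans hr1, (hL x hx).1, (hL x hx).2, (hc x hx).1,
    hσ, by linarith only [hm, hmM], up _ hG, ?_⟩
  by_cases h : 0 ≤ χ x
  · exact Or.inl ⟨(Q x).2.1, up _ hH, hPI h⟩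
  · exact Or.inr ((hc x hx).2 (not_le.1 h).le)

end Vale.Agent.P073
end

section

/-!
# Pointwise estimates for the smoothing with a scaled field of forms
-/

set_option maxSynthPendingDepth 3

namespace Vale.Agent.P073

open MeasureTheory Set Filter Topology Metric
open scoped ENNReal ContDiff Real InnerProductSpace
open Profile

variable {Ω : Set R3} {a : ℝ} {P : ℝ → ℝ} {G : R3 → BF} {ε σ τ : R3 → ℝ}

theorem exists_adapted' {B : R3 → BF} (hB : FormField Ω B) {x : R3} (hx : x ∈ Ω) :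
    ∃ A : R3 ≃L[ℝ] R3, Adapted B x A := by
  have hpos : ∀ u, u ≠ 0 → 0 < B x u u := by
    intro u hu
    have h1 := hB.ge x hx u
    have h2 : 0 < ‖u‖ := norm_pos_iff.2 hu
    linarith only [mul_pos (sub_pos.2 h2) (sub_pos.2 h2), h1]
  have he : e0 ≠ 0 := by
    intro h
    have := norm_e0
    rw [h] at this
    simp at this
  set q := Real.sqrt (B x e0 e0) with hq
  have hq0 : 0 < q := Real.sqrt_pos.2 (hpos e0 he)
  have hqq : q * q = B x e0 e0 := Real.mul_self_sqrt (hpos e0 he).le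
  have h1 : B x (q⁻¹ • e0) (q⁻¹ • e0) = 1 := by
    simp only [map_smul, smul_apply, smul_eq_mul]
    rw [← hqq]
    (clear * - hq0; field_simp)
  obtain ⟨A, hA, -⟩ := exists_adapted (hB.symm x hx) hpos h1
  exact ⟨A, hA⟩

theorem mass_pos {B : R3 → BF} (hP : Profile a P) (ha : 0 < a) (hB : FormField Ω B) {x : R3}
    (hx : x ∈ Ω) : 0 < mass P B x := by
  obtain ⟨A, hA⟩ := exists_adapted' hB hx
  obtain ⟨c, hc, hcs⟩ := exists_scale.{0} A
  have h1 : mass P B x = c * Z P := by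
    unfold mass ker Z
    rw [hcs, smul_eq_mul]
    simp_rw [hA.self]
  rw [h1]
  have := hP.Z_pos ha
  (clear * - hc this; positivity)

theorem sm_contDiffOn {B : R3 → BF} (hΩ : IsOpen Ω) (hP : Profile a P) (ha : 0 < a)
    (hB : FormField Ω B) {f : R3 → R3} (hf : LocallyIntegrable f) :
    ContDiffOn ℝ ∞ (sm P B f) Ω :=
  ((mass_contDiffOn hΩ hP hB).inv fun _ hx => (mass_pos hP ha hB hx).ne').smul
    (num_contDiffOn hΩ hP hB hf)

/-- the error constant -/
noncomputable def kap (G : R3 → BF) (ε σ : R3 → ℝ) (x : R3) : ℝ :=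
  2 * ‖fderiv ℝ ε x‖ / σ x + ε x * ‖fderiv ℝ G x‖ / σ x ^ 3

theorem Frame.kap_nonneg (hF : Frame Ω G ε σ τ) {x : R3} (hx : x ∈ Ω) : 0 ≤ kap G ε σ x := by
  have h1 := hF.eps_pos x hx
  have h2 := hF.sigma_pos hx
  unfold kap
  positivity

section

variable {f : R3 → R3} {x : R3} {r L : ℝ}

theorem Frame.cont (hF : Frame Ω G ε σ τ) (hx : x ∈ Ω) (hr : ε x / σ x < r)
    (hL : LipOn f (ball x r) L) :
    ContinuousOn (fun u => f (x - u)) {u | Bf G ε x u u ≤ 1} := by
  have h1 : ContinuousOn f (ball x r) := by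
    have : LipschitzOnWith (Real.toNNReal L) f (ball x r) := by
      apply LipschitzOnWith.of_dist_le_mul
      intro y hy z hz
      rw [dist_eq_norm, dist_eq_norm]
      refine (hL y hy z hz).trans ?_
      gcongr
      exact Real.le_coe_toNNReal L
    exact this.continuousOn
  refine h1.comp (by fun_prop) ?_
  intro u hu
  have h2 := hF.norm_le hx hu
  rw [mem_ball, dist_eq_norm]
  simp only [sub_sub_cancel_left, norm_neg]
  exact h2.trans_lt hr

theorem Frame.mem (hF : Frame Ω G ε σ τ) (hx : x ∈ Ω) (hr : ε x / σ x < r) {u : R3}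
    (hu : Bf G ε x u u ≤ 1) : x - u ∈ ball x r := by
  have h2 := hF.norm_le hx hu
  rw [mem_ball, dist_eq_norm]
  simp only [sub_sub_cancel_left, norm_neg]
  exact h2.trans_lt hr

theorem Frame.disp (hF : Frame Ω G ε σ τ) (hx : x ∈ Ω) (hr : ε x / σ x < r) (hL0 : 0 ≤ L)
    (hL : LipOn f (ball x r) L) {u : R3} (hu : Bf G ε x u u ≤ 1) :
    ‖f (x - u) - f x‖ ≤ L * (ε x / σ x) := by
  have hr0 : 0 < r := lt_of_le_of_lt (by
    have h1 := hF.eps_pos x hx
    have h2 := hF.sigma_pos hx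
    positivity) hr
  refine (hL _ (hF.mem hx hr hu) x (mem_ball_self hr0)).trans ?_
  simp only [sub_sub_cancel_left, norm_neg]
  gcongr
  exact hF.norm_le hx hu

theorem Frame.close (hP : Profile a P) (ha : 0 < a) (hF : Frame Ω G ε σ τ) (hx : x ∈ Ω)
    (hr : ε x / σ x < r) (hL0 : 0 ≤ L) (hL : LipOn f (ball x r) L) :
    ‖sm P (Bf G ε) f x - f x‖ ≤ L * (ε x / σ x) := by
  obtain ⟨A, hA⟩ := exists_adapted' hF.formField hx
  exact sm_close hP ha hA (hF.cont hx hr hL) fun u hu => hF.disp hx hr hL0 hL hu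

theorem Frame.deriv_err (hΩ : IsOpen Ω) (hP : Profile a P) (ha : 0 < a) (hF : Frame Ω G ε σ τ)
    (hf : LocallyIntegrable f) (hx : x ∈ Ω)
    (hr : ε x / σ x < r) (hL0 : 0 ≤ L) (hL : LipOn f (ball x r) L) (D : R3 →L[ℝ] R3) {e : ℝ}
    (he : 0 ≤ e) (hD : ∀ u, ‖u‖ < r → ‖f (x - u) - f x + D u‖ ≤ e * ‖u‖) :
    ‖fderiv ℝ (sm P (Bf G ε) f) x - D‖ ≤
      2 * ((Z P)⁻¹ * J0 P) * (τ x / σ x) * (e + kap G ε σ x * L) := by
  have hε := hF.eps_pos x hx
  have hσ := hF.sigma_pos hx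
  have hτ := hF.tau_pos x hx
  have hκ := hF.kap_nonneg hx
  have hZ := hP.Z_pos ha
  have hJ : 0 ≤ (Z P)⁻¹ * J0 P := mul_nonneg (inv_nonneg.2 hZ.le) J0_nonneg
  obtain ⟨A, hA⟩ := exists_adapted' hF.formField hx
  refine ContinuousLinearMap.opNorm_le_bound _ (by (clear * - hJ hτ hσ he hκ hL0; positivity)) fun h => ?_
  rw [sub_apply]
  refine (deriv_error hΩ hP ha hF.formField hf hx hA (hF.cont hx hr hL)
    (D := L * (ε x / σ x)) (D' := e * (ε x / σ x)) (κ := kap G ε σ x) D h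
    (fun u hu => hF.disp hx hr hL0 hL hu) (fun u hu => ?_)
    (fun u hu => hF.kappa_bound hΩ hx hu h) hκ).trans ?_
  · have h1 := hF.norm_le hx hu
    refine (hD u (h1.trans_lt hr)).trans ?_
    (clear * - h1 he; gcongr)
  · have h2 := hF.sqrt_le hx h
    calc 2 * ((Z P)⁻¹ * J0 P) * Real.sqrt (Bf G ε x h h) *
          (e * (ε x / σ x) + kap G ε σ x * (L * (ε x / σ x)))
        ≤ 2 * ((Z P)⁻¹ * J0 P) * ((ε x)⁻¹ * τ x * ‖h‖) *
          (e * (ε x / σ x) + kap G ε σ x * (L * (ε x / σ x))) := by (clear * - h2 hJ he hε hσ hκ hL0; gcongr)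
      _ = _ := by (clear * - hε hσ hτ hZ; field_simp)

theorem Frame.low_one (hΩ : IsOpen Ω) (hP : Profile a P) (ha : 0 < a) (hF : Frame Ω G ε σ τ)
    (hf : LocallyIntegrable f) (hx : x ∈ Ω)
    (hr : ε x / σ x < r) (hL : LipOn f (ball x r) L) {ρ : ℝ} (hρ : 1 ≤ ρ) {H : BF}
    (hH : FB H (σ x ^ 2) (τ x ^ 2)) (hPI : PI f (ball x r) ρ (G x) H) (hc0 : 0 < c0 a ρ)
    (hκ : 8 * ρ * kap G ε σ x * ((Z P)⁻¹ * J0 P) ≤ c0 a ρ) (h : R3) :
    ‖h‖ ≤ 4 * Real.sqrt ρ * τ x / (c0 a ρ * σ x) * ‖fderiv ℝ (sm P (Bf G ε) f) x h‖ := by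
  have hε := hF.eps_pos x hx
  have hσ := hF.sigma_pos hx
  have hτ := hF.tau_pos x hx
  obtain ⟨S, hS⟩ := exists_sqrt_form hH.1 fun u => (by (clear * - hσ; positivity) : 0 ≤ σ x ^ 2 * ‖u‖ ^ 2).trans (hH.2 u).1
  have hS2 : ∀ v, ‖S v‖ ^ 2 = H v v := fun v => by rw [hS, real_inner_self_eq_norm_sq]
  set T : R3 →L[ℝ] R3 := (ε x)⁻¹ • S with hT
  have hTn : ∀ v, ‖T v‖ ^ 2 = ((ε x) ^ 2)⁻¹ * H v v := by
    intro v
    rw [hT, smul_apply, norm_smul, mul_pow, hS2, norm_inv, Real.norm_of_nonneg hε.le, inv_pow]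
  have h1 := lower_one hΩ hP ha hF.formField hf hx (hF.cont hx hr hL) (T := T) (ρ := ρ)
    (κ := kap G ε σ x) hρ (fun u u' hu hu' => by
      rw [hTn, Bf_apply]
      have := (hPI (x - u) (hF.mem hx hr hu) (x - u') (hF.mem hx hr hu')).1
      have e1 : x - u - (x - u') = -(u - u') := by abel
      rw [e1] at this
      simp only [map_neg, neg_apply, neg_neg] at this
      (clear * - this hε; gcongr)) (fun u u' hu hu' => by
      rw [hTn, Bf_apply]
      have := (hPI (x - u) (hF.mem hx hr hu) (x - u') (hF.mem hx hr hu')).2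
      have e1 : x - u - (x - u') = -(u - u') := by abel
      rw [e1] at this
      simp only [map_neg, neg_apply, neg_neg] at this
      calc ((ε x) ^ 2)⁻¹ * H (f (x - u) - f (x - u')) (f (x - u) - f (x - u'))
          ≤ ((ε x) ^ 2)⁻¹ * (ρ * G x (u - u') (u - u')) := by (clear * - this hε; gcongr)
        _ = _ := by ring) (fun h u hu => hF.kappa_bound hΩ hx hu h) h
  set g' := fderiv ℝ (sm P (Bf G ε) f) x h with hg'
  have h2 : ‖T g'‖ ≤ (ε x)⁻¹ * τ x * ‖g'‖ := by
    rw [← sq_le_sq₀ (norm_nonneg _) (by (clear * - hε hτ; positivity)), hTn]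
    calc ((ε x) ^ 2)⁻¹ * H g' g' ≤ ((ε x) ^ 2)⁻¹ * (τ x ^ 2 * ‖g'‖ ^ 2) := by
          gcongr
          exact (hH.2 g').2
      _ = _ := by rw [mul_pow, mul_pow, inv_pow]; ring
  have h3 := hF.le_sqrt hx h
  have h4 : c0 a ρ / 2 ≤ c0 a ρ - 4 * ρ * kap G ε σ x * ((Z P)⁻¹ * J0 P) := by linarith only [hκ]
  have h5 : c0 a ρ / 2 * ((ε x)⁻¹ * σ x * ‖h‖) ≤ 2 * Real.sqrt ρ * ((ε x)⁻¹ * τ x * ‖g'‖) := by
    calc c0 a ρ / 2 * ((ε x)⁻¹ * σ x * ‖h‖)
        ≤ (c0 a ρ - 4 * ρ * kap G ε σ x * ((Z P)⁻¹ * J0 P)) * Real.sqrt (Bf G ε x h h) := by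
          apply mul_le_mul h4 h3 (by (clear * - hε hσ; positivity))
          exact (by (clear * - hc0; positivity) : 0 ≤ c0 a ρ / 2).trans h4
      _ ≤ 2 * Real.sqrt ρ * ‖T g'‖ := h1
      _ ≤ _ := by (clear * - h2 hρ; gcongr)
  rw [div_mul_eq_mul_div, le_div_iff₀ (by (clear * - hc0 hσ; positivity))]
  have h6 : ‖h‖ * (c0 a ρ * σ x) = 2 * ε x * (c0 a ρ / 2 * ((ε x)⁻¹ * σ x * ‖h‖)) := by
    (clear * - hε hσ hc0; field_simp)
  have h7 : 4 * Real.sqrt ρ * τ x * ‖g'‖ = 2 * ε x * (2 * Real.sqrt ρ * ((ε x)⁻¹ * τ x * ‖g'‖)) := by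
    field_simp
    ring
  rw [h6, h7]
  gcongr

theorem Frame.low_two (hΩ : IsOpen Ω) (hP : Profile a P) (ha : 0 < a) (hF : Frame Ω G ε σ τ)
    (hf : LocallyIntegrable f) (hx : x ∈ Ω)
    (hr : ε x / σ x < r) (hL0 : 0 ≤ L) (hL : LipOn f (ball x r) L) {c : ℝ} (hc : 0 < c)
    (hPII : PII f (ball x r) c)
    (hκ : 4 * ((Z P)⁻¹ * J0 P) * (τ x / σ x) * kap G ε σ x * L ≤ c) (h : R3) :
    ‖h‖ ≤ 2 / c * ‖fderiv ℝ (sm P (Bf G ε) f) x h‖ := by
  have hε := hF.eps_pos x hx
  have hσ := hF.sigma_pos hx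
  have hτ := hF.tau_pos x hx
  have hκ0 := hF.kap_nonneg hx
  have hZ := hP.Z_pos ha
  have hJ : 0 ≤ (Z P)⁻¹ * J0 P := mul_nonneg (inv_nonneg.2 hZ.le) J0_nonneg
  by_cases hh : h = 0
  · simp [hh]
  obtain ⟨A, hA⟩ := exists_adapted' hF.formField hx
  set h' := ‖h‖⁻¹ • h with hh'
  have hn0 : 0 < ‖h‖ := norm_pos_iff.2 hh
  have hn1 : ‖h'‖ = 1 := by
    rw [hh', norm_smul, norm_inv, norm_norm, inv_mul_cancel₀ hn0.ne']
  have hne : h' ≠ 0 := by
    intro h0
    rw [h0] at hn1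
    simp at hn1
  obtain ⟨n, hn, hmono⟩ := hPII h' hn1
  have h1 := lower_two hΩ hP ha hF.formField hf hx hA (hF.cont hx hr hL)
    (D := L * (ε x / σ x)) (κ := kap G ε σ x) (c := c) (n := n) (h := h') hne
    (fun u hu => hF.disp hx hr hL0 hL hu) (fun u t ht hu hu' => by
      have e1 : x - (u - t • h') = x - u + t • h' := by abel
      have := hmono (x - u) (hF.mem hx hr hu) t ht (by
        rw [← e1]; exact hF.mem hx hr hu')
      rw [e1]; exact this) (fun u hu => hF.kappa_bound hΩ hx hu h') hκ0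
  have h2 := hF.sqrt_le hx h'
  rw [hn1, mul_one] at h2
  have h3 : ‖n‖ * (2 * ((Z P)⁻¹ * J0 P) * Real.sqrt (Bf G ε x h' h') *
      (kap G ε σ x * (L * (ε x / σ x)))) ≤ c / 2 := by
    calc ‖n‖ * (2 * ((Z P)⁻¹ * J0 P) * Real.sqrt (Bf G ε x h' h') *
          (kap G ε σ x * (L * (ε x / σ x))))
        ≤ 1 * (2 * ((Z P)⁻¹ * J0 P) * ((ε x)⁻¹ * τ x) *
          (kap G ε σ x * (L * (ε x / σ x)))) := by (clear * - hn h2 hJ hκ0 hL0 hε hσ; gcongr)
      _ = (4 * ((Z P)⁻¹ * J0 P) * (τ x / σ x) * kap G ε σ x * L) / 2 := by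
          field_simp
          ring
      _ ≤ c / 2 := by linarith only [hκ]
  have h4 : c / 2 ≤ ‖fderiv ℝ (sm P (Bf G ε) f) x h'‖ := by
    calc c / 2 ≤ ⟪n, fderiv ℝ (sm P (Bf G ε) f) x h'⟫_ℝ := by linarith only [h3, h1]
      _ ≤ ‖n‖ * ‖fderiv ℝ (sm P (Bf G ε) f) x h'‖ := real_inner_le_norm _ _
      _ ≤ 1 * ‖fderiv ℝ (sm P (Bf G ε) f) x h'‖ := by (clear * - hn; gcongr)
      _ = _ := one_mul _
  rw [hh', map_smul, norm_smul, norm_inv, norm_norm] at h4
  calc ‖h‖ = 2 / c * ‖h‖ * (c / 2) := by field_simp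
    _ ≤ 2 / c * ‖h‖ * (‖h‖⁻¹ * ‖fderiv ℝ (sm P (Bf G ε) f) x h‖) := by (clear * - h4 hc hh; gcongr)
    _ = _ := by (clear * - hh hc; field_simp)

end

theorem exists_a {ρ : ℝ} (hρ5 : ρ < 5) : ∃ a : ℝ, 0 < a ∧ a < 1 ∧ 0 < c0 a ρ := by
  have h1 : ContinuousAt (fun a : ℝ => c0 a ρ) 1 := by
    unfold c0
    refine ContinuousAt.sub continuousAt_const (continuousAt_const.mul (continuousAt_const.mul ?_))
    exact ContinuousAt.inv₀ (by (clear * -; fun_prop)) (by norm_num)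
  have h2 : 0 < c0 1 ρ := by
    unfold c0
    norm_num
    linarith
  have h3 : ∀ᶠ a in 𝓝 (1 : ℝ), 0 < c0 a ρ := h1.eventually (lt_mem_nhds h2)
  have h4 : ∀ᶠ a in 𝓝[<] (1 : ℝ), 0 < c0 a ρ := h3.filter_mono nhdsWithin_le_nhds
  have h5 : ∀ᶠ a in 𝓝[<] (1 : ℝ), a < 1 := eventually_nhdsWithin_of_forall fun _ h => h
  have h6 : ∀ᶠ a in 𝓝[<] (1 : ℝ), 0 < a :=
    (lt_mem_nhds (by norm_num : (0 : ℝ) < 1)).filter_mono nhdsWithin_le_nhds
  obtain ⟨a, h7, h8, h9⟩ := (h4.and (h5.and h6)).exists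
  exact ⟨a, h9, h8, h7⟩

end Vale.Agent.P073
end

section

/-!
# Choice of a scale: weighted integral of the first order Taylor error
-/

set_option maxSynthPendingDepth 3

namespace Vale.Agent.P073

open MeasureTheory Set Filter Topology Metric
open scoped ENNReal Real NNReal

/-- Choice of an index depending on the point, locally bounded, making an integral small. -/
theorem exists_shell {Ω : Set R3} (hΩ : IsOpen Ω) (hb : Bornology.IsBounded Ω) {Θ : R3 → ℝ}
    (hΘ : ContinuousOn Θ Ω) {φ : ℕ → R3 → ℝ≥0∞}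
    (hm : ∀ k, AEMeasurable (φ k) (volume.restrict Ω))
    (hbd : ∀ x ∈ Ω, ∀ k : ℕ, Θ x ≤ k → φ k x ≤ ENNReal.ofReal (Θ x))
    (hlim : ∀ᵐ x ∂(volume.restrict Ω), Tendsto (fun k => φ k x) atTop (𝓝 0)) {δ : ℝ≥0∞}
    (hδ : δ ≠ 0) :
    ∃ N : R3 → ℕ, (∀ a ∈ Ω, ∃ m : ℕ, ∀ᶠ x in 𝓝 a, N x ≤ m) ∧ (∀ x ∈ Ω, Θ x ≤ N x) ∧
      ∫⁻ x in Ω, φ (N x) x ≤ δ := by
  classical
  obtain ⟨d, hd0, hdsum⟩ := ENNReal.exists_pos_sum_of_countable' hδ ℕ
  set Sh : ℕ → Set R3 := fun n => {x | x ∈ Ω ∧ ⌈Θ x⌉₊ = n} with hSh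
  have hShm : ∀ n, MeasurableSet (Sh n) := by
    intro n
    have h1 : Measurable fun x : Ω => ⌈Θ x⌉₊ :=
      Nat.measurable_ceil.comp (continuousOn_iff_continuous_domRestrict.1 hΘ).measurable
    have h2 : MeasurableSet {x : Ω | ⌈Θ x⌉₊ = n} := h1 (measurableSet_singleton n)
    have h3 := hΩ.measurableSet.subtype_image h2
    convert h3 using 1
    ext x
    simp only [hSh, mem_ofPred_eq, mem_image, Subtype.exists, exists_and_right, exists_eq_right]
    constructor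
    · rintro ⟨h4, h5⟩; exact ⟨h4, h5⟩
    · rintro ⟨h4, h5⟩; exact ⟨h4, h5⟩
  have hShΩ : ∀ n, Sh n ⊆ Ω := fun n x hx => hx.1
  have hvol : ∀ n, volume (Sh n) ≠ ∞ := fun n =>
    ((measure_mono (hShΩ n)).trans_lt hb.measure_lt_top).ne
  have key : ∀ n : ℕ, ∃ k : ℕ, n ≤ k ∧ ∫⁻ x in Sh n, φ k x ≤ d n := by
    intro n
    have h1 : Tendsto (fun j => ∫⁻ x in Sh n, φ (j + n) x) atTop (𝓝 (∫⁻ x in Sh n, (0 : ℝ≥0∞))) := by
      refine tendsto_lintegral_of_dominated_convergence' (fun _ => (n : ℝ≥0∞)) ?_ ?_ ?_ ?_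
      · intro j
        exact (hm _).mono_measure (Measure.restrict_mono (hShΩ n) le_rfl)
      · intro j
        refine (ae_restrict_iff' (hShm n)).2 (Eventually.of_forall fun x hx => ?_)
        have h2 : Θ x ≤ n := by
          have := Nat.le_ceil (Θ x)
          rwa [hx.2] at this
        refine (hbd x hx.1 (j + n) ?_).trans ?_
        · push_cast
          have : (0 : ℝ) ≤ j := Nat.cast_nonneg j
          linarith only [h2]
        · calc ENNReal.ofReal (Θ x) ≤ ENNReal.ofReal n := ENNReal.ofReal_le_ofReal h2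
            _ = n := ENNReal.ofReal_natCast n
      · simp only [lintegral_const, Measure.restrict_apply MeasurableSet.univ, univ_inter]
        exact ENNReal.mul_ne_top (ENNReal.natCast_ne_top n) (hvol n)
      · have h3 := ae_mono (Measure.restrict_mono (hShΩ n) le_rfl) hlim
        filter_upwards [h3] with x hx
        exact hx.comp (tendsto_add_atTop_nat n)
    rw [lintegral_zero] at h1
    have h4 := (h1.eventually (gt_mem_nhds (hd0 n))).exists
    obtain ⟨j, hj⟩ := h4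
    exact ⟨j + n, by omega, hj.le⟩
  choose k hk1 hk2 using key
  refine ⟨fun x => k ⌈Θ x⌉₊, ?_, ?_, ?_⟩
  · intro a ha
    set m0 := ⌈Θ a + 1⌉₊ with hm0
    refine ⟨(Finset.range (m0 + 1)).sup k, ?_⟩
    have h1 : ∀ᶠ x in 𝓝 a, Θ x < Θ a + 1 :=
      (hΘ.continuousAt (hΩ.mem_nhds ha)).eventually (gt_mem_nhds (by linarith only []))
    filter_upwards [h1] with x hx
    apply Finset.le_sup
    rw [Finset.mem_range, Nat.lt_succ_iff]
    exact Nat.ceil_mono hx.le
  · intro x _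
    calc Θ x ≤ ⌈Θ x⌉₊ := Nat.le_ceil _
      _ ≤ k ⌈Θ x⌉₊ := by exact_mod_cast hk1 _
  · have hU : Ω = ⋃ n, Sh n := by
      ext x
      simp only [hSh, mem_iUnion, mem_ofPred_eq, exists_and_left, ↓existsAndEq, and_true]
    have hdisj : Pairwise (Function.onFun Disjoint Sh) := by
      intro i j hij
      rw [Function.onFun, Set.disjoint_left]
      rintro x ⟨-, h1⟩ ⟨-, h2⟩
      exact hij (h1.symm.trans h2)
    rw [hU, lintegral_iUnion hShm hdisj]
    refine le_trans (ENNReal.tsum_le_tsum fun n => ?_) hdsum.le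
    refine le_trans (le_of_eq ?_) (hk2 n)
    refine setLIntegral_congr_fun (hShm n) fun x hx => ?_
    simp only
    rw [hx.2]

/-- First order Taylor error at scale `s` (supremum over a countable dense set). -/
noncomputable def tay (f : R3 → R3) (x : R3) (s : ℝ) : ℝ≥0∞ :=
  ⨆ j : ℕ, if ‖TopologicalSpace.denseSeq R3 j‖ < s then
    ENNReal.ofReal (‖f (x + TopologicalSpace.denseSeq R3 j) - f x -
      fderiv ℝ f x (TopologicalSpace.denseSeq R3 j)‖ / ‖TopologicalSpace.denseSeq R3 j‖) else 0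

theorem measurable_tay {f : R3 → R3} (hf : Measurable f) (s : ℝ) :
    Measurable fun x => tay f x s := by
  unfold tay
  refine Measurable.iSup fun j => ?_
  split_ifs
  · refine ENNReal.measurable_ofReal.comp ?_
    refine Measurable.div_const ?_ _
    refine Measurable.norm ?_
    refine Measurable.sub (Measurable.sub ?_ hf) ?_
    · exact hf.comp (measurable_id.add_const _)
    · exact measurable_fderiv_apply_const ℝ f _
  · exact measurable_const

theorem le_tay {f : R3 → R3} {x : R3} {s : ℝ} (hf : ContinuousOn f (ball x s)) {u : R3}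
    (hu : ‖u‖ < s) : ENNReal.ofReal ‖f (x + u) - f x - fderiv ℝ f x u‖ ≤
      tay f x s * ENNReal.ofReal ‖u‖ := by
  by_cases hu0 : u = 0
  · simp [hu0]
  by_cases htop : tay f x s = ∞
  · rw [htop, ENNReal.top_mul]
    · exact le_top
    · simp [hu0]
  have hdr : DenseRange (TopologicalSpace.denseSeq R3) := TopologicalSpace.denseRange_denseSeq R3
  -- real valued version on the dense sequence
  have h1 : ∀ j, ‖TopologicalSpace.denseSeq R3 j‖ < s →
      ‖f (x + TopologicalSpace.denseSeq R3 j) - f x -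
        fderiv ℝ f x (TopologicalSpace.denseSeq R3 j)‖ ≤
      (tay f x s).toReal * ‖TopologicalSpace.denseSeq R3 j‖ := by
    intro j hj
    by_cases hz : TopologicalSpace.denseSeq R3 j = 0
    · simp [hz]
    have hpos : 0 < ‖TopologicalSpace.denseSeq R3 j‖ := norm_pos_iff.2 hz
    rw [← div_le_iff₀ hpos]
    have h2 : ENNReal.ofReal (‖f (x + TopologicalSpace.denseSeq R3 j) - f x -
        fderiv ℝ f x (TopologicalSpace.denseSeq R3 j)‖ / ‖TopologicalSpace.denseSeq R3 j‖)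
        ≤ tay f x s := by
      unfold tay
      refine le_trans (le_of_eq ?_) (le_iSup _ j)
      rw [if_pos hj]
    rw [← ENNReal.ofReal_toReal htop] at h2
    exact (ENNReal.ofReal_le_ofReal_iff ENNReal.toReal_nonneg).1 h2
  have h3 : ‖f (x + u) - f x - fderiv ℝ f x u‖ ≤ (tay f x s).toReal * ‖u‖ := by
    -- closure argument
    obtain ⟨j, hj⟩ : ∃ j : ℕ → ℕ, Tendsto (fun i => TopologicalSpace.denseSeq R3 (j i)) atTop (𝓝 u) := by
      have : u ∈ closure (range (TopologicalSpace.denseSeq R3)) := hdr u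
      rw [mem_closure_iff_seq_limit] at this
      obtain ⟨v, hv1, hv2⟩ := this
      choose j hj using hv1
      exact ⟨j, by simpa only [hj] using hv2⟩
    have hev : ∀ᶠ i in atTop, ‖TopologicalSpace.denseSeq R3 (j i)‖ < s :=
      (hj.norm).eventually (gt_mem_nhds hu)
    have hfu : ContinuousAt f (x + u) := by
      apply hf.continuousAt
      apply isOpen_ball.mem_nhds
      simpa using hu
    have h4 : Tendsto (fun i => ‖f (x + TopologicalSpace.denseSeq R3 (j i)) - f x -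
        fderiv ℝ f x (TopologicalSpace.denseSeq R3 (j i))‖) atTop
        (𝓝 ‖f (x + u) - f x - fderiv ℝ f x u‖) := by
      refine Tendsto.norm ?_
      refine Tendsto.sub (Tendsto.sub ?_ tendsto_const_nhds) ?_
      · exact hfu.tendsto.comp (tendsto_const_nhds.add hj)
      · exact ((fderiv ℝ f x).continuous.tendsto u).comp hj
    have h5 : Tendsto (fun i => (tay f x s).toReal * ‖TopologicalSpace.denseSeq R3 (j i)‖) atTop
        (𝓝 ((tay f x s).toReal * ‖u‖)) := tendsto_const_nhds.mul hj.norm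
    exact le_of_tendsto_of_tendsto h4 h5 (hev.mono fun i hi => h1 _ hi)
  calc ENNReal.ofReal ‖f (x + u) - f x - fderiv ℝ f x u‖
      ≤ ENNReal.ofReal ((tay f x s).toReal * ‖u‖) := ENNReal.ofReal_le_ofReal h3
    _ = tay f x s * ENNReal.ofReal ‖u‖ := by
        rw [ENNReal.ofReal_mul ENNReal.toReal_nonneg, ENNReal.ofReal_toReal htop]

theorem tay_le {f : R3 → R3} {x : R3} {s C : ℝ} (hC : 0 ≤ C)
    (h : ∀ u, ‖u‖ < s → ‖f (x + u) - f x - fderiv ℝ f x u‖ ≤ C * ‖u‖) :
    tay f x s ≤ ENNReal.ofReal C := by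
  unfold tay
  refine iSup_le fun j => ?_
  split_ifs with hj
  · apply ENNReal.ofReal_le_ofReal
    by_cases hz : TopologicalSpace.denseSeq R3 j = 0
    · simp [hz, hC]
    · rw [div_le_iff₀ (norm_pos_iff.2 hz)]
      exact h _ hj
  · exact zero_le

theorem tay_tendsto {f : R3 → R3} {x : R3} (hf : DifferentiableAt ℝ f x) :
    Tendsto (fun k : ℕ => tay f x (1 / ((k : ℝ) + 1))) atTop (𝓝 0) := by
  rw [ENNReal.tendsto_nhds_zero]
  intro ε hε
  by_cases hεt : ε = ∞
  · simp only [one_div, hεt, le_top, eventually_atTop, implies_true, exists_const]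
  have hε' : 0 < ε.toReal := ENNReal.toReal_pos hε.ne' hεt
  have h1 := hf.hasFDerivAt
  rw [hasFDerivAt_iff_isLittleO_nhds_zero] at h1
  have h2 := h1.def hε'
  rw [Metric.eventually_nhds_iff] at h2
  obtain ⟨δ, hδ, h3⟩ := h2
  have h4 : ∀ᶠ k : ℕ in atTop, 1 / ((k : ℝ) + 1) < δ :=
    (tendsto_one_div_add_atTop_nhds_zero_nat).eventually (gt_mem_nhds hδ)
  filter_upwards [h4] with k hk
  rw [← ENNReal.ofReal_toReal hεt]
  apply tay_le hε'.le
  intro u hu
  exact h3 (by simpa using hu.trans hk)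

end Vale.Agent.P073
end

section

/-!
# Topological lemma: a smooth local diffeomorphism finely close to a homeomorphism is a
diffeomorphism onto the same target.
-/

namespace Vale.Agent.P073

open MeasureTheory Set Filter Topology Metric unitInterval
open scoped ENNReal ContDiff

section Core

variable {E : Type*} [NormedAddCommGroup E] [NormedSpace ℝ E] [ProperSpace E]

/-- A map `p` of an open connected proper subset `Λ` of `E` to itself which is a local
homeomorphism and moves `y` by at most `1/4 min (dist (y, Λᶜ), 1)` is bijective. -/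
theorem bijective_of_near_id {Λ : Set E} (hΛo : IsOpen Λ) (hΛc : IsPreconnected Λ)
    (hΛn : Λᶜ.Nonempty) (p : Λ → Λ) (hp : IsLocalHomeomorph p)
    (hnear : ∀ y : Λ, ‖(p y : E) - y‖ ≤ (1 / 4) * min (infDist (y : E) Λᶜ) 1) :
    Function.Bijective p := by
  classical
  rcases isEmpty_or_nonempty Λ with hemp | hne
  · exact ⟨fun x => (hemp.false x).elim, fun x => (hemp.false x).elim⟩
  have hcont : Continuous p := hp.continuous
  have hLip : ∀ a b : E, infDist a Λᶜ ≤ infDist b Λᶜ + dist a b := fun a b =>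
    infDist_le_infDist_add_dist
  have hpos : ∀ y ∈ Λ, 0 < infDist y Λᶜ := fun y hy =>
    (hΛo.isClosed_compl.notMem_iff_infDist_pos hΛn).1 (by simpa using hy)
  have hmem : ∀ y : E, 0 < infDist y Λᶜ → y ∈ Λ := fun y hy => by
    have := (hΛo.isClosed_compl.notMem_iff_infDist_pos hΛn).2 hy
    simpa using this
  have : PreconnectedSpace Λ := isPreconnected_iff_preconnectedSpace.1 hΛc
  have : LocallyCompactSpace Λ := hΛo.locallyCompactSpace
  -- properness
  have hproper : IsProperMap p := by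
    rw [isProperMap_iff_isCompact_preimage]
    refine ⟨hcont, fun K hK => ?_⟩
    rcases K.eq_empty_or_nonempty with rfl | hKne
    · simp
    have hK' : IsCompact ((↑) '' K : Set E) := hK.image continuous_subtype_val
    obtain ⟨z, hzK, hz⟩ := hK'.exists_isMinOn (hKne.image _)
      (continuous_infDist_pt (Λᶜ)).continuousOn
    set c := infDist z Λᶜ with hc
    have hcpos : 0 < c := by
      obtain ⟨z', -, rfl⟩ := hzK
      exact hpos _ z'.2
    let M : Set E := cthickening 1 ((↑) '' K : Set E) ∩ {y | (4 / 5) * c ≤ infDist y Λᶜ}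
    have hMc : IsCompact M := hK'.cthickening.inter_right
      (isClosed_le continuous_const (continuous_infDist_pt _))
    have hMΛ : M ⊆ Λ := fun y hy => hmem y (lt_of_lt_of_le (by (clear * - hcpos; positivity)) hy.2)
    have hMc' : IsCompact ((↑) ⁻¹' M : Set Λ) := by
      rw [Subtype.isCompact_iff, Subtype.image_preimage_coe, inter_eq_right.2 hMΛ]
      exact hMc
    refine hMc'.of_isClosed_subset (hK.isClosed.preimage hcont) fun y hy => ?_
    have hyn := hnear y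
    have hwK : (p y : E) ∈ ((↑) '' K : Set E) := mem_image_of_mem _ hy
    have hdist : dist (p y : E) y ≤ (1 / 4) * min (infDist (y : E) Λᶜ) 1 := by
      rw [dist_eq_norm]; exact hyn
    refine ⟨?_, ?_⟩
    · apply mem_cthickening_of_dist_le _ (p y : E) _ _ hwK
      rw [dist_comm]
      have : min (infDist (y : E) Λᶜ) 1 ≤ 1 := min_le_right _ _
      linarith only [hdist, this]
    · have h1 : c ≤ infDist (p y : E) Λᶜ := hz hwK
      have h2 := hLip (p y : E) y
      have h3 : min (infDist (y : E) Λᶜ) 1 ≤ infDist (y : E) Λᶜ := min_le_left _ _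
      show (4 / 5) * c ≤ infDist (y : E) Λᶜ
      linarith only [hdist, h1, h2, h3]
  have hclosed : IsClosedMap p := hproper.isClosedMap
  -- covering map
  have hcov : IsCoveringMap p := by
    rw [isCoveringMap_iff_isCoveringMapOn_univ]
    apply hclosed.isCoveringMapOn_of_isLocalHomeomorphOn
    · intro w _
      refine (hproper.isCompact_preimage isCompact_singleton).finite ?_
      exact IsDiscrete.of_openPartialHomeomorph p subset_rfl fun e _ => by
        obtain ⟨φ, h1, h2⟩ := hp e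
        exact ⟨φ, h1, h2.symm⟩
    · exact hp.isLocalHomeomorphOn
  constructor
  · -- injectivity
    intro y₁ y₂ h12
    set w : Λ := p y₁ with hw
    set d := infDist (w : E) Λᶜ with hd
    have hdpos : 0 < d := hpos _ w.2
    -- both points are near `w`
    have hnearw : ∀ y : Λ, p y = w → ‖(y : E) - w‖ ≤ d / 3 := by
      intro y hy
      have h1 := hnear y
      rw [hy] at h1
      have h2 := hLip (y : E) w
      have h3 : min (infDist (y : E) Λᶜ) 1 ≤ infDist (y : E) Λᶜ := min_le_left _ _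
      have h4 : dist (y : E) (w : E) = ‖(w : E) - y‖ := by rw [dist_comm, dist_eq_norm]
      have h5 : ‖(y : E) - w‖ = ‖(w : E) - y‖ := norm_sub_rev _ _
      rw [h5]
      rw [h4] at h2
      linarith only [h1, h2, h3]
    have hy1 := hnearw y₁ rfl
    have hy2 := hnearw y₂ h12.symm
    -- segment between them
    have hseg : ∀ t : I, ‖((1 - (t : ℝ)) • (y₁ : E) + (t : ℝ) • (y₂ : E)) - w‖ ≤ d / 3 := by
      intro t
      have hconv : Convex ℝ (closedBall (w : E) (d / 3)) := convex_closedBall _ _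
      have := hconv (x := (y₁ : E)) (by simpa only [mem_closedBall, dist_eq_norm] using hy1)
        (y := (y₂ : E)) (by simpa only [mem_closedBall, dist_eq_norm] using hy2)
        (a := 1 - (t : ℝ)) (b := (t : ℝ)) (by linarith only [t.2.2]) t.2.1 (by ring)
      simpa only [ge_iff_le, mem_closedBall, dist_eq_norm] using this
    have hball : ∀ z : E, ‖z - w‖ ≤ 2 * d / 3 → z ∈ Λ := by
      intro z hz
      apply hmem
      have := hLip (w : E) z
      rw [dist_comm, dist_eq_norm] at this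
      linarith only [hdpos, hz, this]
    let γ : C(I, Λ) :=
      { toFun := fun t => ⟨(1 - (t : ℝ)) • (y₁ : E) + (t : ℝ) • (y₂ : E),
          hball _ ((hseg t).trans (by linarith only [hdpos]))⟩
        continuous_toFun := by
          apply Continuous.subtype_mk
          (clear * -; fun_prop) }
    have hγ0 : γ 0 = y₁ := by
      apply Subtype.ext; simp only [ContinuousMap.coe_mk, Icc.coe_zero, sub_zero, one_smul, zero_smul, add_zero, Subtype.coe_eta, γ]
    have hγ1 : γ 1 = y₂ := by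
      apply Subtype.ext; simp only [ContinuousMap.coe_mk, Icc.coe_one, sub_self, zero_smul, one_smul, zero_add, Subtype.coe_eta, γ]
    have hγn : ∀ t : I, ‖((γ t : Λ) : E) - w‖ ≤ d / 3 := hseg
    have hpγ : ∀ t : I, ‖(p (γ t) : E) - w‖ ≤ 2 * d / 3 := by
      intro t
      have h1 := hnear (γ t)
      have h2 := hLip ((γ t : Λ) : E) w
      have h3 : min (infDist ((γ t : Λ) : E) Λᶜ) 1 ≤ infDist ((γ t : Λ) : E) Λᶜ := min_le_left _ _
      have h4 := hγn t
      rw [dist_eq_norm] at h2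
      have h5 : ‖(p (γ t) : E) - w‖ ≤ ‖(p (γ t) : E) - (γ t : Λ)‖ + ‖((γ t : Λ) : E) - w‖ := by
        have := norm_add_le ((p (γ t) : E) - (γ t : Λ)) (((γ t : Λ) : E) - w)
        simpa only [ge_iff_le, sub_add_sub_cancel] using this
      linarith only [h1, h2, h3, h4, h5]
    -- the loop `p ∘ γ` is null-homotopic
    let γ₀ : C(I, Λ) := ContinuousMap.comp ⟨p, hcont⟩ γ
    let γ₁ : C(I, Λ) := ContinuousMap.const I w
    have hH : γ₀.HomotopicRel γ₁ {0, 1} := by
      refine ⟨⟨⟨⟨fun q => ⟨(1 - (q.1 : ℝ)) • (p (γ q.2) : E) + (q.1 : ℝ) • (w : E), ?_⟩, ?_⟩,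
        ?_, ?_⟩, ?_⟩⟩
      · apply hball
        have : (1 - (q.1 : ℝ)) • (p (γ q.2) : E) + (q.1 : ℝ) • (w : E) - w
            = (1 - (q.1 : ℝ)) • ((p (γ q.2) : E) - w) := by
          rw [smul_sub, sub_smul, sub_smul, one_smul, one_smul]; abel
        rw [this, norm_smul, Real.norm_eq_abs, abs_of_nonneg (by linarith only [q.1.2.2])]
        have h1 := hpγ q.2
        have h2 : (0 : ℝ) ≤ q.1 := q.1.2.1
        have h3 : (q.1 : ℝ) ≤ 1 := q.1.2.2
        have h4 := norm_nonneg ((p (γ q.2) : E) - w)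
        linarith only [mul_nonneg (sub_nonneg.2 h1) (sub_nonneg.2 h3), mul_nonneg (le_of_lt (sub_pos.2 hdpos)) (sub_nonneg.2 h2)]
      · apply Continuous.subtype_mk
        have : Continuous fun q : I × I => (p (γ q.2) : E) :=
          continuous_subtype_val.comp (hcont.comp (γ.continuous.comp continuous_snd))
        have h2 : Continuous fun q : I × I => (q.1 : ℝ) :=
          continuous_subtype_val.comp continuous_fst
        exact ((continuous_const.sub h2).smul this).add (h2.smul continuous_const)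
      · intro t
        apply Subtype.ext
        simp only [Icc.coe_zero, sub_zero, one_smul, zero_smul, add_zero, ContinuousMap.comp_apply, ContinuousMap.coe_mk, γ₀]
      · intro t
        apply Subtype.ext
        simp only [Icc.coe_one, sub_self, zero_smul, one_smul, zero_add, ContinuousMap.const_apply, γ₁]
      · intro t x hx
        apply Subtype.ext
        have hx' : p (γ x) = w := by
          rcases hx with rfl | hx
          · rw [hγ0]
          · rw [mem_singleton_iff] at hx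
            subst hx
            rw [hγ1]; exact h12.symm
        simp only [ContinuousMap.coe_mk, γ₀, ContinuousMap.comp_apply, hx']
        rw [← add_smul]; simp only [sub_add_cancel, one_smul]
    have hl0 : γ₀ 0 = p y₁ := by simp [γ₀, hγ0]
    have hl1 : γ₁ 0 = p y₁ := rfl
    have key := hcov.liftPath_apply_one_eq_of_homotopicRel hH y₁ hl0 hl1
    have hΓ0 : γ = hcov.liftPath γ₀ y₁ hl0 := by
      rw [hcov.eq_liftPath_iff']
      refine ⟨?_, hγ0⟩
      ext t; rfl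
    have hΓ1 : ContinuousMap.const I y₁ = hcov.liftPath γ₁ y₁ hl1 := by
      rw [hcov.eq_liftPath_iff']
      refine ⟨?_, rfl⟩
      ext t; rfl
    rw [← hΓ0, ← hΓ1, hγ1] at key
    exact key.symm
  · -- surjectivity
    have hclopen : IsClopen (range p) := ⟨hclosed.isClosed_range, hp.isOpenMap.isOpen_range⟩
    have := hclopen.eq_univ (range_nonempty p)
    exact range_eq_univ.1 this

end Core

section Diffeo

variable {E : Type*} [NormedAddCommGroup E] [NormedSpace ℝ E] [FiniteDimensional ℝ E]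

/-- The inverse function theorem packaged for endomorphisms with injective derivative. -/
theorem exists_openPartialHomeomorph_of_injective {Ω : Set E} (hΩ : IsOpen Ω) {g : E → E}
    (hg : ContDiffOn ℝ ∞ g Ω) {x : E} (hx : x ∈ Ω) (hinj : ∀ v, fderiv ℝ g x v = 0 → v = 0) :
    ∃ e : OpenPartialHomeomorph E E, x ∈ e.source ∧ (∀ z, e z = g z) ∧ e.source ⊆ Ω ∧
      ContDiffAt ℝ ∞ e.symm (g x) := by
  have hgx : ContDiffAt ℝ ∞ g x := hg.contDiffAt (hΩ.mem_nhds hx)
  have hinj' : Function.Injective (fderiv ℝ g x).toLinearMap := by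
    rw [← LinearMap.ker_eq_bot, LinearMap.ker_eq_bot']
    exact hinj
  let L : E ≃L[ℝ] E :=
    (LinearEquiv.ofInjectiveEndo (fderiv ℝ g x).toLinearMap hinj').toContinuousLinearEquiv
  have hL : (L : E →L[ℝ] E) = fderiv ℝ g x := by
    ext v; rfl
  have hd : HasFDerivAt g (L : E →L[ℝ] E) x := by
    rw [hL]
    exact (hgx.differentiableAt (by simp)).hasFDerivAt
  let e₀ := hgx.toOpenPartialHomeomorph g hd (by simp)
  have he₀x : x ∈ e₀.source := hgx.mem_toOpenPartialHomeomorph_source hd (by simp)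
  have he₀ : ∀ z, e₀ z = g z := fun z => by
    rw [hgx.toOpenPartialHomeomorph_coe hd (by simp)]
  have hsymm : ContDiffAt ℝ ∞ e₀.symm (g x) := by
    have hxt : g x ∈ e₀.target := by
      rw [← he₀ x]; exact e₀.map_source he₀x
    have hsx : e₀.symm (g x) = x := by
      rw [← he₀ x]; exact e₀.left_inv he₀x
    refine e₀.contDiffAt_symm hxt (f₀' := L) ?_ ?_
    · rw [hsx]
      exact hd.congr_of_eventuallyEq (Eventually.of_forall he₀)
    · rw [hsx]
      exact hgx.congr_of_eventuallyEq (Eventually.of_forall he₀)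
  refine ⟨e₀.restrOpen Ω hΩ, ?_, ?_, ?_, ?_⟩
  · simp [he₀x, hx]
  · intro z; exact he₀ z
  · intro z hz
    have : z ∈ e₀.source ∩ Ω := by simpa using hz
    exact this.2
  · exact hsymm

/-- **Fine closeness lemma.** -/
theorem exists_delta_diffeo {Ω Λ : Set E} (hΩ : IsOpen Ω) (hΛ : IsOpen Λ)
    (hΛc : IsPreconnected Λ) (hΛn : Λᶜ.Nonempty) {f h : E → E} (hf : ContinuousOn f Ω)
    (hh : ContinuousOn h Λ) (hb : BijOn f Ω Λ) (hinv : InvOn h f Ω Λ) :
    ∃ δ : E → ℝ, ContinuousOn δ Ω ∧ (∀ x ∈ Ω, 0 < δ x) ∧ ∀ g : E → E, ContDiffOn ℝ ∞ g Ω →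
      (∀ x ∈ Ω, ∀ v, fderiv ℝ g x v = 0 → v = 0) → (∀ x ∈ Ω, ‖g x - f x‖ ≤ δ x) →
      BijOn g Ω Λ ∧ ∃ k : E → E, ContDiffOn ℝ ∞ k Λ ∧ InvOn k g Ω Λ := by
  have : ProperSpace E := FiniteDimensional.proper_real E
  refine ⟨fun x => (1 / 4) * min (infDist (f x) Λᶜ) 1, ?_, ?_, ?_⟩
  · have h1 : ContinuousOn (fun x => infDist (f x) Λᶜ) Ω :=
      (continuous_infDist_pt _).comp_continuousOn hf
    exact continuousOn_const.mul (h1.inf continuousOn_const)
  · intro x hx
    have : 0 < infDist (f x) Λᶜ :=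
      (hΛ.isClosed_compl.notMem_iff_infDist_pos hΛn).1 (by simpa using hb.mapsTo hx)
    (clear * - this; positivity)
  intro g hg hinj hgf
  have hhΩ : ∀ y ∈ Λ, h y ∈ Ω := by
    intro y hy
    obtain ⟨x, hx, rfl⟩ := hb.surjOn hy
    rw [hinv.1 hx]; exact hx
  have hnear : ∀ y ∈ Λ, ‖g (h y) - y‖ ≤ (1 / 4) * min (infDist y Λᶜ) 1 := by
    intro y hy
    have := hgf (h y) (hhΩ y hy)
    simpa only [one_div, ge_iff_le, hinv.2 hy] using this
  have hmaps : ∀ y ∈ Λ, g (h y) ∈ Λ := by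
    intro y hy
    have hpos : 0 < infDist y Λᶜ :=
      (hΛ.isClosed_compl.notMem_iff_infDist_pos hΛn).1 (by simpa using hy)
    have h1 := hnear y hy
    have h2 : min (infDist y Λᶜ) 1 ≤ infDist y Λᶜ := min_le_left _ _
    apply ball_infDist_compl_subset (x := y)
    rw [mem_ball, dist_eq_norm]
    linarith
  let p : Λ → Λ := fun y => ⟨g (h y), hmaps y y.2⟩
  have hpcont : Continuous p := by
    apply Continuous.subtype_mk
    have h1 : Continuous fun y : Λ => h y := hh.domRestrict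
    exact hg.continuousOn.comp_continuous h1 fun y => hhΩ y y.2
  -- `g` is a local homeomorphism on `Ω`
  have hgloc : IsLocalHomeomorphOn g Ω := by
    intro x hx
    obtain ⟨e, hxe, he, -, -⟩ := exists_openPartialHomeomorph_of_injective hΩ hg hx (hinj x hx)
    exact ⟨e, hxe, funext fun z => (he z).symm⟩
  -- the homeomorphism `Λ ≃ Ω`
  let e : Λ ≃ₜ Ω :=
    { toFun := fun y => ⟨h y, hhΩ y y.2⟩
      invFun := fun x => ⟨f x, hb.mapsTo x.2⟩
      left_inv := fun y => Subtype.ext (hinv.2 y.2)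
      right_inv := fun x => Subtype.ext (hinv.1 x.2)
      continuous_toFun := by
        apply Continuous.subtype_mk
        exact hh.domRestrict
      continuous_invFun := by
        apply Continuous.subtype_mk
        exact hf.domRestrict }
  have hploc : IsLocalHomeomorph p := by
    have h1 : IsLocalHomeomorph ((↑) : Λ → E) := hΛ.isOpenEmbedding_subtypeVal.isLocalHomeomorph
    have h2 : IsLocalHomeomorph ((↑) : Ω → E) := hΩ.isOpenEmbedding_subtypeVal.isLocalHomeomorph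
    have h3 : IsLocalHomeomorph (g ∘ ((↑) : Ω → E)) := by
      rw [isLocalHomeomorph_iff_isLocalHomeomorphOn_univ]
      exact hgloc.comp h2.isLocalHomeomorphOn (fun x _ => x.2)
    have h4 : IsLocalHomeomorph ((g ∘ ((↑) : Ω → E)) ∘ e) := h3.comp e.isLocalHomeomorph
    exact IsLocalHomeomorph.of_comp (f := p) (g := ((↑) : Λ → E)) h4 h1 hpcont
  have hbij := bijective_of_near_id hΛ hΛc hΛn p hploc fun y => hnear y y.2
  have hbijOn : BijOn g Ω Λ := by
    refine ⟨?_, ?_, ?_⟩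
    · intro x hx
      have := hmaps (f x) (hb.mapsTo hx)
      rwa [hinv.1 hx] at this
    · intro x hx x' hx' hxx
      have : p ⟨f x, hb.mapsTo hx⟩ = p ⟨f x', hb.mapsTo hx'⟩ := by
        apply Subtype.ext
        simp only [p]
        rw [hinv.1 hx, hinv.1 hx', hxx]
      have h2 := hbij.1 this
      exact hb.injOn hx hx' (congrArg Subtype.val h2)
    · intro w hw
      obtain ⟨y, hy⟩ := hbij.2 ⟨w, hw⟩
      exact ⟨h y, hhΩ y y.2, congrArg Subtype.val hy⟩
  have hinvOn : InvOn (Function.invFunOn g Ω) g Ω Λ := hbijOn.invOn_invFunOn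
  refine ⟨hbijOn, Function.invFunOn g Ω, ?_, hinvOn⟩
  intro w hw
  apply ContDiffAt.contDiffWithinAt
  obtain ⟨x, hx, rfl⟩ := hbijOn.surjOn hw
  obtain ⟨e', hxe, he, hes, hsm⟩ :=
    exists_openPartialHomeomorph_of_injective hΩ hg hx (hinj x hx)
  refine hsm.congr_of_eventuallyEq ?_
  have hgx : g x ∈ e'.target := by
    rw [← he x]; exact e'.map_source hxe
  filter_upwards [e'.open_target.mem_nhds hgx, hΛ.mem_nhds hw] with z hz hzΛ
  have hzs : e'.symm z ∈ Ω := hes (e'.map_target hz)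
  have hgz : g (e'.symm z) = z := by rw [← he]; exact e'.right_inv hz
  have hgz' : g (Function.invFunOn g Ω z) = z := hinvOn.2 hzΛ
  have hmem : Function.invFunOn g Ω z ∈ Ω := hbijOn.surjOn.mapsTo_invFunOn hzΛ
  exact hbijOn.injOn hmem hzs (hgz'.trans hgz.symm)

end Diffeo

end Vale.Agent.P073
end

section

/-!
# Small smooth positive functions with small derivative on an open set
-/

namespace Vale.Agent.P073

open Set Filter Topology Metric Function
open scoped ENNReal ContDiff NNReal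

variable {E : Type*} [NormedAddCommGroup E] [NormedSpace ℝ E] [FiniteDimensional ℝ E]

/-- On an open set `Λ` with a positive function `δ` locally bounded below, there is a smooth
function `κ`, positive on `Λ`, with `κ < δ` and `‖fderiv κ‖ < δ` on `Λ`. -/
theorem exists_kappa_of_local {Λ : Set E} (hΛ : IsOpen Λ) {δ : E → ℝ}
    (hδ : ∀ y ∈ Λ, ∃ c > 0, ∀ᶠ z in 𝓝 y, c ≤ δ z) :
    ∃ κ : E → ℝ, ContDiff ℝ ∞ κ ∧
      (∀ y ∈ Λ, 0 < κ y ∧ κ y < δ y ∧ ‖fderiv ℝ κ y‖ < δ y) ∧ ∀ y ∉ Λ, κ y = 0 := by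
  classical
  have δpos' : ∀ y ∈ Λ, 0 < δ y := by
    intro y hy
    obtain ⟨c, hc, h⟩ := hδ y hy
    exact hc.trans_le h.self_of_nhds
  rcases eq_empty_or_nonempty Λ with (rfl | h's)
  · exact ⟨fun _ => 0, contDiff_const, by simp only [mem_empty_iff_false, lt_self_iff_false, fderiv_fun_const, Pi.zero_apply, norm_zero, and_self, false_and, imp_self, implies_true], by simp⟩
  let ι := { f : E → ℝ // tsupport f ⊆ Λ ∧ HasCompactSupport f ∧ ContDiff ℝ ∞ f ∧
    range f ⊆ Icc 0 1 ∧ ∃ c > 0, ∀ z ∈ tsupport f, c ≤ δ z }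
  obtain ⟨T, T_count, hT⟩ : ∃ T : Set ι, T.Countable ∧ ⋃ f ∈ T, support (f : E → ℝ) = Λ := by
    have : ⋃ f : ι, (f : E → ℝ).support = Λ := by
      refine Subset.antisymm (iUnion_subset fun f => (subset_tsupport _).trans f.2.1) ?_
      intro x hx
      obtain ⟨c, hc, hcδ⟩ := hδ x hx
      rcases exists_contDiff_tsupport_subset (n := ⊤)
        (Filter.inter_mem (hΛ.mem_nhds hx) hcδ) with ⟨f, hf⟩
      let g : ι := ⟨f, hf.1.trans inter_subset_left, hf.2.1, hf.2.2.1, hf.2.2.2.1, c, hc,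
        fun z hz => (hf.1 hz).2⟩
      have : x ∈ support (g : E → ℝ) := by
        simp only [g, hf.2.2.2.2, mem_support, Ne, one_ne_zero, not_false_iff]
      exact mem_iUnion_of_mem _ this
    simp_rw [← this]
    apply TopologicalSpace.isOpen_iUnion_countable
    rintro ⟨f, hf⟩
    exact hf.2.2.1.continuous.isOpen_support
  obtain ⟨g0, hg⟩ : ∃ g0 : ℕ → ι, T = range g0 := by
    apply Countable.exists_eq_range T_count
    rcases eq_empty_or_nonempty T with (rfl | hT)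
    · simp only [← hT, mem_empty_iff_false, iUnion_of_empty, iUnion_empty,
        Set.not_nonempty_empty] at h's
    · exact hT
  let g : ℕ → E → ℝ := fun n => (g0 n).1
  have g_s : ∀ n, tsupport (g n) ⊆ Λ := fun n => (g0 n).2.1
  have s_g : ∀ x ∈ Λ, ∃ n, x ∈ support (g n) := fun x hx ↦ by
    rw [← hT] at hx
    obtain ⟨i, iT, hi⟩ : ∃ i ∈ T, x ∈ support (i : E → ℝ) := by
      simpa only [mem_iUnion, exists_prop] using hx
    rw [hg] at iT
    obtain ⟨n, rfl⟩ := iT
    exact ⟨n, hi⟩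
  have g_smooth : ∀ n, ContDiff ℝ ∞ (g n) := fun n => (g0 n).2.2.2.1
  have g_comp_supp : ∀ n, HasCompactSupport (g n) := fun n => (g0 n).2.2.1
  have g_nonneg : ∀ n x, 0 ≤ g n x := fun n x => ((g0 n).2.2.2.2.1 (mem_range_self x)).1
  have g_c : ∀ n, ∃ c > 0, ∀ z ∈ tsupport (g n), c ≤ δ z := fun n => (g0 n).2.2.2.2.2
  choose c cpos hc using g_c
  let w : ℕ → ℝ := fun n => (1 / 2) ^ (n + 2) * min (c n) 1
  have wpos : ∀ n, 0 < w n := fun n => by
    have := cpos n
    (clear * - this; positivity)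
  have w_le : ∀ n, w n ≤ (1 / 2) ^ (n + 2) := fun n => by
    have : min (c n) 1 ≤ 1 := min_le_right _ _
    have h2 : (0 : ℝ) < (1 / 2) ^ (n + 2) := by positivity
    exact mul_le_of_le_one_right h2.le this
  have hsum2 : HasSum (fun n : ℕ => (1 / 2 : ℝ) ^ (n + 2)) (1 / 2) := by
    have h4 := hasSum_geometric_two.mul_left ((1 / 4 : ℝ))
    have e1 : (fun n : ℕ => (1 / 2 : ℝ) ^ (n + 2)) = fun i : ℕ => 1 / 4 * (1 / 2) ^ i := by
      funext n; rw [pow_add]; ring
    rw [e1]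
    have e2 : (1 / 4 : ℝ) * 2 = 1 / 2 := by norm_num
    rwa [e2] at h4
  have w_sum : Summable w :=
    Summable.of_nonneg_of_le (fun n => (wpos n).le) w_le hsum2.summable
  have : ∀ n, ∃ r : ℝ, 0 < r ∧ ∀ i ≤ n + 1, ∀ x, ‖iteratedFDeriv ℝ i (r • g n) x‖ ≤ w n := by
    intro n
    have : ∀ i, ∃ R, ∀ x, ‖iteratedFDeriv ℝ i (fun x => g n x) x‖ ≤ R := by
      intro i
      have : BddAbove (range fun x => ‖iteratedFDeriv ℝ i (fun x : E => g n x) x‖) := by
        apply ((g_smooth n).continuous_iteratedFDeriv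
          (mod_cast le_top)).norm.bddAbove_range_of_hasCompactSupport
        apply HasCompactSupport.comp_left _ norm_zero
        apply (g_comp_supp n).iteratedFDeriv
      rcases this with ⟨R, hR⟩
      exact ⟨R, fun x => hR (mem_range_self _)⟩
    choose R hR using this
    let M := max (((Finset.range (n + 2)).image R).max' (by simp)) 1
    have δnpos : 0 < w n := wpos n
    have IR : ∀ i ≤ n + 1, R i ≤ M := by
      intro i hi
      refine le_trans ?_ (le_max_left _ _)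
      apply Finset.le_max'
      apply Finset.mem_image_of_mem
      simp only [Finset.mem_range]
      lia
    refine ⟨M⁻¹ * w n, by (clear * - δnpos; positivity), fun i hi x => ?_⟩
    calc
      ‖iteratedFDeriv ℝ i ((M⁻¹ * w n) • g n) x‖ = ‖(M⁻¹ * w n) • iteratedFDeriv ℝ i (g n) x‖ := by
        rw [iteratedFDeriv_const_smul_apply]
        exact (g_smooth n).contDiffAt.of_le (mod_cast le_top)
      _ = M⁻¹ * w n * ‖iteratedFDeriv ℝ i (g n) x‖ := by
        rw [norm_smul _ (iteratedFDeriv ℝ i (g n) x), Real.norm_of_nonneg]; (clear * - δnpos; positivity)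
      _ ≤ M⁻¹ * w n * M := by gcongr; exact (hR i x).trans (IR i hi)
      _ = w n := by
        have hM : M ≠ 0 := (lt_of_lt_of_le one_pos (le_max_right _ _)).ne'
        (clear * - hM δnpos; field_simp)
  choose r rpos hr using this
  have hr0 : ∀ n x, ‖(r n • g n) x‖ ≤ w n := fun n x => by
    have := hr n 0 (Nat.zero_le _) x
    rwa [norm_iteratedFDeriv_zero] at this
  have hr1 : ∀ n x, ‖fderiv ℝ (r n • g n) x‖ ≤ w n := fun n x => by
    have := hr n 1 (by omega) x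
    rwa [norm_iteratedFDeriv_one] at this
  have S : ∀ x, Summable fun n => (r n • g n) x := fun x ↦
    Summable.of_norm_bounded w_sum fun n => hr0 n x
  have hsm : ∀ n, ContDiff ℝ ∞ (r n • g n) := fun n => contDiff_const.smul (g_smooth n)
  have hcomp : ∀ n, ∀ y ∈ tsupport (g n), w n ≤ (1 / 2) ^ (n + 2) * δ y := fun n y hy => by
    have h1 : min (c n) 1 ≤ δ y := (min_le_left _ _).trans (hc n y hy)
    exact mul_le_mul_of_nonneg_left h1 (by positivity)
  refine ⟨fun x => ∑' n, (r n • g n) x, ?_, ?_, ?_⟩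
  · refine contDiff_tsum_of_eventually (v := fun _ => w) hsm (fun _ _ => w_sum) fun k _ => ?_
    simp only [Nat.cofinite_eq_atTop, eventually_atTop]
    exact ⟨k, fun n hn x => hr n k (by omega) x⟩
  · intro y hy
    have hδy := δpos' y hy
    refine ⟨?_, ?_, ?_⟩
    · obtain ⟨n, hn⟩ := s_g y hy
      have hterm : 0 < (r n • g n) y := by
        have h1 : 0 < g n y := lt_of_le_of_ne (g_nonneg n y) (Ne.symm hn)
        have := rpos n
        simp only [Pi.smul_apply, smul_eq_mul]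
        (clear * - this h1; positivity)
      refine (S y).tsum_pos (fun m => ?_) n hterm
      simp only [Pi.smul_apply, smul_eq_mul]
      exact mul_nonneg (rpos m).le (g_nonneg m y)
    · have hle : ∀ n, (r n • g n) y ≤ (1 / 2) ^ (n + 2) * δ y := by
        intro n
        by_cases hn : y ∈ tsupport (g n)
        · exact (Real.le_norm_self _).trans ((hr0 n y).trans (hcomp n y hn))
        · have : g n y = 0 := image_eq_zero_of_notMem_tsupport hn
          simp only [Pi.smul_apply, smul_eq_mul, this, mul_zero]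
          (clear * - hδy; positivity)
      have h2 : Summable fun n : ℕ => (1 / 2 : ℝ) ^ (n + 2) * δ y := hsum2.summable.mul_right _
      have h3 := (S y).tsum_le_tsum hle h2
      rw [tsum_mul_right, hsum2.tsum_eq] at h3
      show (∑' n, (r n • g n) y) < δ y
      linarith only [hδy, h3]
    · have hfd : fderiv ℝ (fun x => ∑' n, (r n • g n) x) y = ∑' n, fderiv ℝ (r n • g n) y := by
        have := fderiv_tsum w_sum (fun n => (hsm n).differentiable (by simp)) hr1 (S y)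
        exact congrFun this y
      rw [hfd]
      have hle : ∀ n, ‖fderiv ℝ (r n • g n) y‖ ≤ (1 / 2) ^ (n + 2) * δ y := by
        intro n
        by_cases hn : y ∈ tsupport (g n)
        · exact (hr1 n y).trans (hcomp n y hn)
        · have hz : fderiv ℝ (r n • g n) y = 0 := by
            have h1 : (r n • g n) =ᶠ[𝓝 y] fun _ => (0 : ℝ) := by
              have h2 : (tsupport (g n))ᶜ ∈ 𝓝 y := (isClosed_tsupport _).isOpen_compl.mem_nhds hn
              filter_upwards [h2] with z hz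
              have : g n z = 0 := image_eq_zero_of_notMem_tsupport hz
              simp [this]
            rw [h1.fderiv_eq]; simp only [fderiv_fun_const, Pi.zero_apply]
          rw [hz, norm_zero]
          (clear * - hδy; positivity)
      have h2 : Summable fun n : ℕ => (1 / 2 : ℝ) ^ (n + 2) * δ y := hsum2.summable.mul_right _
      have h3 := tsum_of_norm_bounded (h2.hasSum) hle
      rw [tsum_mul_right, hsum2.tsum_eq] at h3
      linarith only [hδy, h3]
  · intro y hy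
    have : ∀ n, (r n • g n) y = 0 := fun n => by
      have h1 : g n y = 0 := image_eq_zero_of_notMem_tsupport fun h => hy (g_s n h)
      simp [h1]
    show ∑' n, (r n • g n) y = 0
    simp [this]

/-- Version with `δ` continuous on `Λ`. -/
theorem exists_kappa {Λ : Set E} (hΛ : IsOpen Λ) {δ : E → ℝ} (hδ : ContinuousOn δ Λ)
    (hpos : ∀ y ∈ Λ, 0 < δ y) :
    ∃ κ : E → ℝ, ContDiff ℝ ∞ κ ∧
      (∀ y ∈ Λ, 0 < κ y ∧ κ y < δ y ∧ ‖fderiv ℝ κ y‖ < δ y) ∧ ∀ y ∉ Λ, κ y = 0 := by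
  refine exists_kappa_of_local hΛ fun y hy => ⟨δ y / 2, half_pos (hpos y hy), ?_⟩
  have h1 : Tendsto δ (𝓝 y) (𝓝 (δ y)) := (hδ.continuousAt (hΛ.mem_nhds hy))
  exact (h1.eventually (lt_mem_nhds (half_lt_self (hpos y hy)))).mono fun z hz => hz.le

end Vale.Agent.P073
end

section

/-!
# Fine approximation by diffeomorphisms with two sided bounds
-/

set_option maxSynthPendingDepth 3

namespace Vale.Agent.P073

open MeasureTheory Set Filter Topology Metric
open scoped Real InnerProductSpace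

/-- `f` is a homeomorphism of `Ω` onto `Λ` which has diffeomorphic approximations with
derivatives bounded above and below by a fixed continuous function, close to `f` with an
arbitrary weight, the derivatives being close to `F` in the weighted mean. -/
structure Fine (Ω Λ : Set R3) (f : R3 → R3) (F : R3 → R3 →L[ℝ] R3) (C : R3 → ℝ) : Prop where
  homeo : IsHomeo Ω Λ f
  meas : Measurable F
  contC : ContinuousOn C Ω
  posC : ∀ x ∈ Ω, 0 < C x
  bdF : ∀ x ∈ Ω, ‖F x‖ ≤ C x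
  approx : ∀ w : R3 → ℝ, ContinuousOn w Ω → ∃ g : R3 → R3, IsDiffeo Ω Λ g ∧
    (∀ x ∈ Ω, ‖g x - f x‖ * w x ≤ 1) ∧ (∀ x ∈ Ω, ‖fderiv ℝ g x‖ ≤ C x) ∧
    (∀ x ∈ Ω, ∀ v, ‖v‖ ≤ C x * ‖fderiv ℝ g x v‖) ∧
    ∫⁻ x in Ω, ENNReal.ofReal (w x * ‖fderiv ℝ g x - F x‖) ≤ 1

theorem IsHomeo.congr {Ω Λ : Set R3} {f f' : R3 → R3} (h : IsHomeo Ω Λ f) (he : EqOn f f' Ω) :
    IsHomeo Ω Λ f' := by
  obtain ⟨h1, h2, k, h3, h4⟩ := h
  refine ⟨h1.congr he, h2.congr he.symm, k, h3, ?_⟩
  refine ⟨fun x hx => ?_, fun y hy => ?_⟩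
  · rw [← he hx]; exact h4.1 hx
  · have hky : k y ∈ Ω := by
      obtain ⟨x, hx, rfl⟩ := h1.surjOn hy
      rw [h4.1 hx]; exact hx
    rw [← he hky]; exact h4.2 hy

theorem Fine.congr {Ω Λ : Set R3} {f f' : R3 → R3} {F : R3 → R3 →L[ℝ] R3} {C : R3 → ℝ}
    (h : Fine Ω Λ f F C) (he : EqOn f f' Ω) : Fine Ω Λ f' F C where
  homeo := h.homeo.congr he
  meas := h.meas
  contC := h.contC
  posC := h.posC
  bdF := h.bdF
  approx w hw := by
    obtain ⟨g, h1, h2, h3, h4, h5⟩ := h.approx w hw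
    exact ⟨g, h1, fun x hx => by rw [← he hx]; exact h2 x hx, h3, h4, h5⟩

theorem fderiv_norm_le_of_LipOn {f : R3 → R3} {x : R3} {r L : ℝ} (hr : 0 < r) (hL0 : 0 ≤ L)
    (hL : LipOn f (ball x r) L) : ‖fderiv ℝ f x‖ ≤ L := by
  by_cases hd : DifferentiableAt ℝ f x
  · refine hd.hasFDerivAt.le_of_lip' hL0 ?_
    filter_upwards [ball_mem_nhds x hr] with y hy
    exact hL y hy x (mem_ball_self hr)
  · rw [fderiv_zero_of_not_differentiableAt hd]
    simpa only [norm_zero] using hL0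

theorem ae_differentiableAt_of_LipOn {Ω : Set R3} {f : R3 → R3} {r L : R3 → ℝ}
    (hr : ∀ x ∈ Ω, 0 < r x) (hL : ∀ x ∈ Ω, LipOn f (ball x (r x)) (L x)) (hΩ : IsOpen Ω) :
    ∀ᵐ x ∂(volume.restrict Ω), DifferentiableAt ℝ f x := by
  rw [ae_restrict_iff' hΩ.measurableSet, ae_iff]
  apply measure_null_of_locally_null
  intro x hx
  have hxΩ : x ∈ Ω := by
    by_contra h
    exact hx fun h' => absurd h' h
  refine ⟨{y | ¬ (y ∈ Ω → DifferentiableAt ℝ f y)} ∩ ball x (r x),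
    inter_mem self_mem_nhdsWithin (mem_nhdsWithin_of_mem_nhds (ball_mem_nhds _ (hr x hxΩ))), ?_⟩
  have hlip : LipschitzOnWith (Real.toNNReal (L x)) f (ball x (r x)) := by
    apply LipschitzOnWith.of_dist_le_mul
    intro y hy z hz
    rw [dist_eq_norm, dist_eq_norm]
    refine (hL x hxΩ y hy z hz).trans ?_
    gcongr
    exact Real.le_coe_toNNReal _
  have h1 := hlip.ae_differentiableWithinAt_of_mem (μ := (volume : Measure R3))
  rw [ae_iff] at h1
  refine measure_mono_null ?_ h1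
  rintro y ⟨hy1, hy2⟩ hcon
  apply hy1
  intro _
  exact (hcon hy2).differentiableAt (isOpen_ball.mem_nhds hy2)

end Vale.Agent.P073
end

section

/-!
# The basic class is finely approximable
-/

set_option maxSynthPendingDepth 3

namespace Vale.Agent.P073

open MeasureTheory Set Filter Topology Metric
open scoped Real InnerProductSpace ContDiff
open Profile

theorem LipOn.congr {f f' : R3 → R3} {U : Set R3} {L : ℝ} (h : LipOn f U L) (he : EqOn f f' U) :
    LipOn f' U L := fun y hy z hz => by rw [← he hy, ← he hz]; exact h y hy z hz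

theorem PI.congr {f f' : R3 → R3} {U : Set R3} {ρ : ℝ} {G H : BF} (h : PI f U ρ G H)
    (he : EqOn f f' U) : PI f' U ρ G H := fun y hy z hz => by
  rw [← he hy, ← he hz]; exact h y hy z hz

theorem PII.congr {f f' : R3 → R3} {U : Set R3} {c : ℝ} (h : PII f U c) (he : EqOn f f' U) :
    PII f' U c := fun v hv => by
  obtain ⟨n, hn, h1⟩ := h v hv
  refine ⟨n, hn, fun y hy t ht hyt => ?_⟩
  rw [← he hy, ← he hyt]
  exact h1 y hy t ht hyt

theorem PI.up {f : R3 → R3} {U : Set R3} {ρ ρ' : ℝ} {G H : BF} (h : PI f U ρ G H)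
    (hρ : ρ ≤ ρ') (hG : ∀ u, 0 ≤ G u u) : PI f U ρ' G H := fun y hy z hz => by
  obtain ⟨h1, h2⟩ := h y hy z hz
  exact ⟨h1, h2.trans (mul_le_mul_of_nonneg_right hρ (hG _))⟩

/-- local data for a function -/
structure LData (Ω : Set R3) (f : R3 → R3) (ρ : ℝ) (r L c σ τ : R3 → ℝ) (G : R3 → BF) :
    Prop where
  rc : ContinuousOn r Ω
  Lc : ContinuousOn L Ω
  cc : ContinuousOn c Ω
  σc : ContinuousOn σ Ω
  τc : ContinuousOn τ Ω
  Gs : ContDiffOn ℝ ∞ G Ω
  r0 : ∀ x ∈ Ω, 0 < r x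
  rΩ : ∀ x ∈ Ω, ball x (r x) ⊆ Ω
  L0 : ∀ x ∈ Ω, 0 < L x
  lip : ∀ x ∈ Ω, LipOn f (ball x (r x)) (L x)
  cp : ∀ x ∈ Ω, 0 < c x
  σ0 : ∀ x ∈ Ω, 0 < σ x
  τ0 : ∀ x ∈ Ω, 0 < τ x
  fb : ∀ x ∈ Ω, FB (G x) (σ x ^ 2) (τ x ^ 2)
  alt : ∀ x ∈ Ω, (∃ H : BF, FB H (σ x ^ 2) (τ x ^ 2) ∧ PI f (ball x (r x)) ρ (G x) H) ∨
      PII f (ball x (r x)) (c x)

theorem exists_LData {Ω : Set R3} (hΩ : IsOpen Ω) {f f' : R3 → R3} (he : EqOn f f' Ω) {K : ℝ}
    (hK : 0 ≤ K) (hloc : ∀ a ∈ Ω, SmallDistortionAt K f a ∨ DirMonotoneAt f a) :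
    ∃ r L c σ τ G, LData Ω f' (max (K ^ 2) 1) r L c σ τ G := by
  obtain ⟨r, L, c, σ, τ, G, hrc, hLc, hcc, hσc, hτc, hGs, hdata⟩ :=
    exists_local_data hΩ hK hloc
  refine ⟨r, L, c, σ, τ, G, ?_⟩
  exact
    { rc := hrc
      Lc := hLc
      cc := hcc
      σc := hσc
      τc := hτc
      Gs := hGs
      r0 := fun x hx => (hdata x hx).1
      rΩ := fun x hx => (hdata x hx).2.1
      L0 := fun x hx => (hdata x hx).2.2.1
      lip := fun x hx => (hdata x hx).2.2.2.1.congr (he.mono (hdata x hx).2.1)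
      cp := fun x hx => (hdata x hx).2.2.2.2.1
      σ0 := fun x hx => (hdata x hx).2.2.2.2.2.1
      τ0 := fun x hx => (hdata x hx).2.2.2.2.2.2.1
      fb := fun x hx => (hdata x hx).2.2.2.2.2.2.2.1
      alt := by
        intro x hx
        have he := he.mono (hdata x hx).2.1
        rcases (hdata x hx).2.2.2.2.2.2.2.2 with ⟨H, hH, hPI⟩ | hPII
        · refine Or.inl ⟨H, hH, (hPI.congr he).up (le_max_left _ _) fun u => ?_⟩
          exact (by (clear * -; positivity) : 0 ≤ σ x ^ 2 * ‖u‖ ^ 2).trans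
            (((hdata x hx).2.2.2.2.2.2.2.1).2 u).1
        · exact Or.inr (hPII.congr he) }

/-- the bound -/
noncomputable def Cb (Jz ρ q : ℝ) (L c σ τ : R3 → ℝ) (x : R3) : ℝ :=
  L x + 4 * Jz * (τ x / σ x) * L x + 4 * Real.sqrt ρ * τ x / (q * σ x) + 2 / c x

/-- the inverse of the allowed size of the error constant -/
noncomputable def κd (Jz ρ q V : ℝ) (L c σ τ w : R3 → ℝ) (x : R3) : ℝ :=
  1 + 8 * ρ * Jz / q + 4 * Jz * (τ x / σ x) * L x / c x +
    2 * (1 + V) * (|w x| * (2 * Jz * (τ x / σ x))) * L x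

section

variable {Ω : Set R3} {f : R3 → R3} {ρ : ℝ} {r L c σ τ : R3 → ℝ} {G : R3 → BF} {Jz q V : ℝ}
  {w : R3 → ℝ}

theorem LData.τσc (h : LData Ω f ρ r L c σ τ G) : ContinuousOn (fun x => τ x / σ x) Ω :=
  h.τc.div h.σc fun x hx => (h.σ0 x hx).ne'

theorem LData.Cb_parts (h : LData Ω f ρ r L c σ τ G) (hJ : 0 ≤ Jz) (hq : 0 < q) {x : R3}
    (hx : x ∈ Ω) : L x ≤ Cb Jz ρ q L c σ τ x ∧
      4 * Jz * (τ x / σ x) * L x ≤ Cb Jz ρ q L c σ τ x ∧
      4 * Real.sqrt ρ * τ x / (q * σ x) ≤ Cb Jz ρ q L c σ τ x ∧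
      2 / c x ≤ Cb Jz ρ q L c σ τ x := by
  have h1 := h.L0 x hx
  have h2 := h.cp x hx
  have h3 := h.σ0 x hx
  have h4 := h.τ0 x hx
  have p1 : 0 ≤ 4 * Jz * (τ x / σ x) * L x := by (clear * - hJ h4 h3 h1; positivity)
  have p2 : 0 ≤ 4 * Real.sqrt ρ * τ x / (q * σ x) := by (clear * - h4 hq h3; positivity)
  have p3 : 0 ≤ 2 / c x := by positivity
  simp only [Cb]
  refine ⟨by linarith, by linarith only [p3, p2, h1], by linarith only [h1, p1, p3], by (clear * - h1 p1 p2; linarith)⟩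

theorem LData.Cb_cont (h : LData Ω f ρ r L c σ τ G) (hq : 0 < q) :
    ContinuousOn (Cb Jz ρ q L c σ τ) Ω := by
  refine ContinuousOn.add (ContinuousOn.add (ContinuousOn.add h.Lc ?_) ?_) ?_
  · exact (continuousOn_const.mul h.τσc).mul h.Lc
  · exact (continuousOn_const.mul h.τc).div (continuousOn_const.mul h.σc)
      fun x hx => (mul_pos hq (h.σ0 x hx)).ne'
  · exact continuousOn_const.div h.cc fun x hx => (h.cp x hx).ne'

theorem LData.κd_parts (h : LData Ω f ρ r L c σ τ G) (hJ : 0 ≤ Jz) (hq : 0 < q) (hV : 0 ≤ V)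
    (hρ : 0 ≤ ρ) {x : R3} (hx : x ∈ Ω) : 1 ≤ κd Jz ρ q V L c σ τ w x ∧
      8 * ρ * Jz / q ≤ κd Jz ρ q V L c σ τ w x ∧
      4 * Jz * (τ x / σ x) * L x / c x ≤ κd Jz ρ q V L c σ τ w x ∧
      2 * (1 + V) * (|w x| * (2 * Jz * (τ x / σ x))) * L x ≤ κd Jz ρ q V L c σ τ w x := by
  have h1 := h.L0 x hx
  have h2 := h.cp x hx
  have h3 := h.σ0 x hx
  have h4 := h.τ0 x hx
  have p1 : 0 ≤ 8 * ρ * Jz / q := by (clear * - hρ hJ hq; positivity)
  have p2 : 0 ≤ 4 * Jz * (τ x / σ x) * L x / c x := by (clear * - hJ h4 h3 h1 h2; positivity)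
  have p3 : 0 ≤ 2 * (1 + V) * (|w x| * (2 * Jz * (τ x / σ x))) * L x := by (clear * - hV hJ h4 h3 h1; positivity)
  simp only [κd]
  refine ⟨by linarith, by linarith only [p3, p2], by linarith only [p3, p1], by (clear * - p1 p2; linarith)⟩

theorem LData.κd_cont (h : LData Ω f ρ r L c σ τ G) (hw : ContinuousOn w Ω) :
    ContinuousOn (κd Jz ρ q V L c σ τ w) Ω := by
  refine ContinuousOn.add (ContinuousOn.add continuousOn_const ?_) ?_
  · exact ((continuousOn_const.mul h.τσc).mul h.Lc).div h.cc fun x hx => (h.cp x hx).ne'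
  · exact (continuousOn_const.mul (hw.abs.mul (continuousOn_const.mul h.τσc))).mul h.Lc

/-- choice of the scale -/
theorem LData.exists_eps (h : LData Ω f ρ r L c σ τ G) (hΩ : IsOpen Ω)
    (hw : ContinuousOn w Ω) {ν δ0 κ : R3 → ℝ} (hν : ContinuousOn ν Ω)
    (hν0 : ∀ x ∈ Ω, 0 < ν x) (hδ : ContinuousOn δ0 Ω) (hδ0 : ∀ x ∈ Ω, 0 < δ0 x)
    (hκ : ContinuousOn κ Ω) (hκ0 : ∀ x ∈ Ω, 0 < κ x) :
    ∃ ε : R3 → ℝ, Frame Ω G ε σ τ ∧ ∀ x ∈ Ω, ε x / σ x < 1 / ν x ∧
      L x * (ε x / σ x) ≤ δ0 x ∧ L x * (ε x / σ x) * (|w x| + 1) ≤ 1 ∧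
      kap G ε σ x * κ x ≤ 1 := by
  have hDGc : ContinuousOn (fun x => ‖fderiv ℝ G x‖) Ω :=
    (h.Gs.continuousOn_fderiv_of_isOpen hΩ (by simp only [WithTop.one_le_coe, le_top])).norm
  set d1 : R3 → ℝ := fun x => σ x / ν x with hd1
  set d2 : R3 → ℝ := fun x => δ0 x * σ x / L x with hd2
  set d3 : R3 → ℝ := fun x => σ x / (L x * (|w x| + 1)) with hd3
  set d4 : R3 → ℝ := fun x => σ x / (4 * κ x) with hd4
  set d5 : R3 → ℝ := fun x => σ x ^ 3 / (2 * (‖fderiv ℝ G x‖ + 1) * κ x) with hd5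
  have c1 : ContinuousOn d1 Ω := h.σc.div hν fun x hx => (hν0 x hx).ne'
  have c2 : ContinuousOn d2 Ω := (hδ.mul h.σc).div h.Lc fun x hx => (h.L0 x hx).ne'
  have c3 : ContinuousOn d3 Ω := h.σc.div (h.Lc.mul (hw.abs.add continuousOn_const))
    fun x hx => by
      have := h.L0 x hx
      (clear * - this; positivity)
  have c4 : ContinuousOn d4 Ω := h.σc.div (continuousOn_const.mul hκ)
    fun x hx => by
      have := hκ0 x hx
      (clear * - this; positivity)
  have c5 : ContinuousOn d5 Ω := (h.σc.pow 3).div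
    ((continuousOn_const.mul (hDGc.add continuousOn_const)).mul hκ)
    fun x hx => by
      have := hκ0 x hx
      (clear * - this; (clear * - this; positivity))
  obtain ⟨ε, hεs, hε, -⟩ := exists_kappa hΩ
    (δ := fun x => min (min (min (d1 x) (d2 x)) (min (d3 x) (d4 x))) (min (d5 x) (σ x)))
    ((((c1.inf c2).inf (c3.inf c4)).inf (c5.inf h.σc)))
    (fun x hx => by
      have q1 := h.σ0 x hx
      have q2 := hν0 x hx
      have q3 := hδ0 x hx
      have q4 := h.L0 x hx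
      have q5 := hκ0 x hx
      refine lt_min (lt_min (lt_min ?_ ?_) (lt_min ?_ ?_)) (lt_min ?_ q1) <;>
        simp only [hd1, hd2, hd3, hd4, hd5] <;> positivity)
  have hε0 : ∀ x ∈ Ω, 0 < ε x := fun x hx => (hε x hx).1
  have hεd : ∀ x ∈ Ω, ε x < d1 x ∧ ε x < d2 x ∧ ε x < d3 x ∧ ‖fderiv ℝ ε x‖ < d4 x ∧
      ε x < d5 x ∧ ε x < σ x := by
    intro x hx
    obtain ⟨-, h1, h2⟩ := hε x hx
    simp only [lt_min_iff] at h1 h2
    exact ⟨h1.1.1.1, h1.1.1.2, h1.1.2.1, h2.1.2.2, h1.2.1, h1.2.2⟩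
  refine ⟨ε,
    { smooth := h.Gs
      symm := fun x hx => (h.fb x hx).1
      low := fun x hx u => ((h.fb x hx).2 u).1
      up := fun x hx u => ((h.fb x hx).2 u).2
      smooth_eps := hεs.contDiffOn
      eps_pos := hε0
      eps_le := fun x hx => (hεd x hx).2.2.2.2.2.le
      tau_pos := h.τ0 }, ?_⟩
  intro x hx
  have q1 := h.σ0 x hx
  have q2 := hν0 x hx
  have q3 := hδ0 x hx
  have q4 := h.L0 x hx
  have q5 := hκ0 x hx
  have q6 := hε0 x hx
  obtain ⟨h1, h2, h3, h4, h5, -⟩ := hεd x hx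
  simp only [hd1] at h1
  simp only [hd2] at h2
  simp only [hd3] at h3
  simp only [hd4] at h4
  simp only [hd5] at h5
  rw [lt_div_iff₀ (by positivity)] at h1 h2 h3 h4 h5
  refine ⟨?_, ?_, ?_, ?_⟩
  · rw [div_lt_div_iff₀ q1 q2]; linarith only [h1]
  · rw [mul_div_assoc', div_le_iff₀ q1]; linarith only [h2]
  · rw [mul_div_assoc', div_mul_eq_mul_div, div_le_one₀ q1]
    nlinarith only [h3]
  · unfold kap
    have e1 : 2 * ‖fderiv ℝ ε x‖ / σ x * κ x ≤ 1 / 2 := by
      rw [div_mul_eq_mul_div, div_le_iff₀ q1]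
      linarith only [h4]
    have e2 : ε x * ‖fderiv ℝ G x‖ / σ x ^ 3 * κ x ≤ 1 / 2 := by
      rw [div_mul_eq_mul_div, div_le_iff₀ (by (clear * - q1; positivity))]
      have : 0 ≤ ε x * κ x := by (clear * - q6 q5; positivity)
      linarith only [this, h5]
    calc (2 * ‖fderiv ℝ ε x‖ / σ x + ε x * ‖fderiv ℝ G x‖ / σ x ^ 3) * κ x
        = 2 * ‖fderiv ℝ ε x‖ / σ x * κ x + ε x * ‖fderiv ℝ G x‖ / σ x ^ 3 * κ x := by ring
      _ ≤ 1 := by linarith only [e2, e1]

/-- bounds from above and below -/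
theorem LData.bounds (h : LData Ω f ρ r L c σ τ G) (hΩ : IsOpen Ω) (hρ1 : 1 ≤ ρ)
    {a : ℝ} {P : ℝ → ℝ} (hP : Profile a P) (ha0 : 0 < a) (hc0 : 0 < c0 a ρ) (hV : 0 ≤ V)
    (hf : LocallyIntegrable f) {ε : R3 → ℝ} (hFr : Frame Ω G ε σ τ) {x : R3} (hx : x ∈ Ω)
    (hεr : ε x / σ x < r x)
    (hkx : kap G ε σ x * κd ((Z P)⁻¹ * J0 P) ρ (c0 a ρ) V L c σ τ w x ≤ 1) :
    ‖fderiv ℝ (sm P (Bf G ε) f) x‖ ≤ Cb ((Z P)⁻¹ * J0 P) ρ (c0 a ρ) L c σ τ x ∧
    ∀ v, ‖v‖ ≤ Cb ((Z P)⁻¹ * J0 P) ρ (c0 a ρ) L c σ τ x *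
      ‖fderiv ℝ (sm P (Bf G ε) f) x v‖ := by
  have hZ := hP.Z_pos ha0
  set Jz := (Z P)⁻¹ * J0 P with hJz
  have hJ : 0 ≤ Jz := mul_nonneg (inv_nonneg.2 hZ.le) J0_nonneg
  have q1 := h.σ0 x hx
  have q2 := h.τ0 x hx
  have q3 := h.cp x hx
  have q4 := h.L0 x hx
  have hk0 := hFr.kap_nonneg hx
  obtain ⟨k1, k2, k3, -⟩ := h.κd_parts (w := w) hJ hc0 hV (by linarith only [hρ1] : 0 ≤ ρ) hx
  obtain ⟨C1, C2, C3, C4⟩ := h.Cb_parts (ρ := ρ) hJ hc0 hx
  set κx := κd Jz ρ (c0 a ρ) V L c σ τ w x with hκx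
  constructor
  · have h1 := hFr.deriv_err hΩ hP ha0 hf hx hεr q4.le (h.lip x hx) 0
      (e := L x) q4.le (fun u hu => by
        have := h.lip x hx (x - u) (by simpa [dist_eq_norm] using hu) x
          (mem_ball_self (h.r0 x hx))
        simpa only [zero_apply, add_zero, ge_iff_le, sub_sub_cancel_left, norm_neg] using this)
    rw [sub_zero] at h1
    refine h1.trans (le_trans ?_ C2)
    have h2 : kap G ε σ x ≤ 1 := by (by_contra nlg; linarith only [nlg, mul_nonneg (le_of_lt (sub_pos.2 (not_le.1 nlg))) (sub_nonneg.2 k1), k1, hkx])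
    calc 2 * ((Z P)⁻¹ * J0 P) * (τ x / σ x) * (L x + kap G ε σ x * L x)
        ≤ 2 * Jz * (τ x / σ x) * (L x + 1 * L x) := by (clear * - h2 q4 hJ q2 q1; gcongr)
      _ = _ := by ring
  · intro v
    rcases h.alt x hx with ⟨H, hH, hPI⟩ | hPII
    · have h1 : 8 * ρ * kap G ε σ x * ((Z P)⁻¹ * J0 P) ≤ c0 a ρ := by
        rw [div_le_iff₀ hc0] at k2
        calc 8 * ρ * kap G ε σ x * ((Z P)⁻¹ * J0 P)
            = kap G ε σ x * (8 * ρ * Jz) := by ring
          _ ≤ kap G ε σ x * (κx * c0 a ρ) := by (clear * - k2 hk0; gcongr)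
          _ = (kap G ε σ x * κx) * c0 a ρ := by ring
          _ ≤ 1 * c0 a ρ := by (clear * - hkx hc0; gcongr)
          _ = _ := one_mul _
      refine (hFr.low_one hΩ hP ha0 hf hx hεr (h.lip x hx) hρ1 hH hPI hc0 h1 v).trans ?_
      (clear * - C3; gcongr)
    · have h1 : 4 * ((Z P)⁻¹ * J0 P) * (τ x / σ x) * kap G ε σ x * L x ≤ c x := by
        rw [div_le_iff₀ q3] at k3
        calc 4 * ((Z P)⁻¹ * J0 P) * (τ x / σ x) * kap G ε σ x * L x
            = kap G ε σ x * (4 * Jz * (τ x / σ x) * L x) := by ring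
          _ ≤ kap G ε σ x * (κx * c x) := by (clear * - k3 hk0; gcongr)
          _ = (kap G ε σ x * κx) * c x := by ring
          _ ≤ 1 * c x := by (clear * - hkx q3; gcongr)
          _ = _ := one_mul _
      refine (hFr.low_two hΩ hP ha0 hf hx hεr q4.le (h.lip x hx) q3 hPII h1 v).trans ?_
      (clear * - C4; gcongr)

theorem LData.deriv_le (h : LData Ω f ρ r L c σ τ G) {x : R3} (hx : x ∈ Ω) :
    ‖fderiv ℝ f x‖ ≤ L x :=
  fderiv_norm_le_of_LipOn (h.r0 x hx) (h.L0 x hx).le (h.lip x hx)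

theorem LData.tay_le (h : LData Ω f ρ r L c σ τ G) {x : R3} (hx : x ∈ Ω) {s : ℝ}
    (hs : s ≤ r x) : tay f x s ≤ ENNReal.ofReal (2 * L x) := by
  have q4 := h.L0 x hx
  apply Vale.Agent.P073.tay_le (by positivity)
  intro u hu
  have h1 : ‖f (x + u) - f x‖ ≤ L x * ‖u‖ := by
    have := h.lip x hx (x + u) (by simpa using hu.trans_le hs) x (mem_ball_self (h.r0 x hx))
    simpa only [ge_iff_le, add_sub_cancel_left] using this
  have h2 : ‖fderiv ℝ f x u‖ ≤ L x * ‖u‖ :=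
    ((fderiv ℝ f x).le_opNorm u).trans (by gcongr; exact h.deriv_le hx)
  calc ‖f (x + u) - f x - fderiv ℝ f x u‖ ≤ ‖f (x + u) - f x‖ + ‖fderiv ℝ f x u‖ :=
        norm_sub_le _ _
    _ ≤ 2 * L x * ‖u‖ := by linarith

theorem inv_succ_le {r : ℝ} (hr : 0 < r) {k : ℕ} (hk : r⁻¹ ≤ k) : 1 / ((k : ℝ) + 1) ≤ r := by
  rw [div_le_iff₀ (by positivity)]
  rw [inv_le_iff_one_le_mul₀ hr] at hk
  linarith

/-- choice of the index -/
theorem LData.exists_index (h : LData Ω f ρ r L c σ τ G) (hΩ : IsOpen Ω)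
    (hΩb : Bornology.IsBounded Ω) (hf : Measurable f) {W : R3 → ℝ} (hW : ContinuousOn W Ω)
    (hW0 : ∀ x ∈ Ω, 0 ≤ W x) : ∃ (N : R3 → ℕ) (ν : R3 → ℝ), ContinuousOn ν Ω ∧
      (∀ x ∈ Ω, (N x : ℝ) < ν x ∧ 1 / ((N x : ℝ) + 1) ≤ r x) ∧
      ∫⁻ x in Ω, ENNReal.ofReal (W x) * tay f x (1 / ((N x : ℝ) + 1)) ≤ 2⁻¹ := by
  set Θ : R3 → ℝ := fun x => (r x)⁻¹ + 2 * W x * L x with hΘ
  have hΘc : ContinuousOn Θ Ω :=
    (h.rc.inv₀ fun x hx => (h.r0 x hx).ne').add ((continuousOn_const.mul hW).mul h.Lc)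
  have hΘ1 : ∀ x ∈ Ω, (r x)⁻¹ ≤ Θ x := by
    intro x hx
    have : 0 ≤ 2 * W x * L x := by
      have := hW0 x hx
      have := h.L0 x hx
      (clear hΩ hΩb hf hW Θ hΘ hΘc; positivity)
    simp only [hΘ]
    linarith only [this]
  obtain ⟨N, hN1, hN2, hN3⟩ := exists_shell hΩ hΩb hΘc
    (φ := fun k x => ENNReal.ofReal (W x) * tay f x (1 / ((k : ℝ) + 1)))
    (fun k => (hW.aemeasurable hΩ.measurableSet).ennreal_ofReal.mul
      (measurable_tay hf _).aemeasurable)
    (fun x hx k hk => by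
      refine (mul_le_mul_right (h.tay_le hx
        (inv_succ_le (h.r0 x hx) ((hΘ1 x hx).trans hk))) _).trans ?_
      rw [← ENNReal.ofReal_mul (hW0 x hx)]
      apply ENNReal.ofReal_le_ofReal
      simp only [hΘ]
      have := inv_pos.2 (h.r0 x hx)
      linarith)
    (by
      filter_upwards [ae_differentiableAt_of_LipOn h.r0 h.lip hΩ] with x hx
      have := ENNReal.Tendsto.const_mul (a := ENNReal.ofReal (W x)) (tay_tendsto hx)
        (Or.inr ENNReal.ofReal_ne_top)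
      simpa only [one_div, mul_zero] using this)
    (δ := 2⁻¹) (by simp)
  obtain ⟨ν, hνs, hν⟩ := exists_smooth_gt hΩ (b := fun x => (N x : ℝ)) (by
    intro x hx
    obtain ⟨m, hm⟩ := hN1 x hx
    refine ⟨m + 1, hm.mono fun y hy => ?_⟩
    have : (N y : ℝ) ≤ m := by exact_mod_cast hy
    linarith only [this])
  exact ⟨N, ν, hνs.continuousOn, fun x hx => ⟨hν x hx,
    inv_succ_le (h.r0 x hx) ((hΘ1 x hx).trans (hN2 x hx))⟩, hN3⟩

end

end Vale.Agent.P073
end

section

/-!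
# The basic class is finely approximable
-/

set_option maxSynthPendingDepth 3

namespace Vale.Agent.P073

open MeasureTheory Set Filter Topology Metric
open scoped Real InnerProductSpace ContDiff
open Profile

theorem half_vol {V : ℝ} (hV : 0 ≤ V) {Ω : Set R3} (hvol : volume Ω = ENNReal.ofReal V) :
    ENNReal.ofReal (1 / (2 * (1 + V))) * volume Ω ≤ 2⁻¹ := by
  rw [hvol, ← ENNReal.ofReal_mul (by positivity)]
  calc ENNReal.ofReal (1 / (2 * (1 + V)) * V) ≤ ENNReal.ofReal (2⁻¹) := by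
        apply ENNReal.ofReal_le_ofReal
        rw [div_mul_eq_mul_div, one_mul, div_le_iff₀ (by positivity)]
        linarith
    _ = 2⁻¹ := by
        rw [ENNReal.ofReal_inv_of_pos (by norm_num)]
        norm_num

theorem LData.integrand {Ω : Set R3} {f : R3 → R3} {ρ : ℝ} {r L c σ τ : R3 → ℝ} {G : R3 → BF}
    {V : ℝ} {w : R3 → ℝ} (h : LData Ω f ρ r L c σ τ G) (hΩ : IsOpen Ω) (hρ1 : 1 ≤ ρ)
    {a : ℝ} {P : ℝ → ℝ} (hP : Profile a P) (ha0 : 0 < a) (hc0 : 0 < c0 a ρ) (hV : 0 ≤ V)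
    (hfc : ContinuousOn f Ω)
    (hf : LocallyIntegrable f) {ε : R3 → ℝ} (hFr : Frame Ω G ε σ τ) {x : R3} (hx : x ∈ Ω)
    {s : ℝ} (hεs : ε x / σ x < s) (hs0 : 0 < s) (hsr : s ≤ r x)
    (hkx : kap G ε σ x * κd ((Z P)⁻¹ * J0 P) ρ (c0 a ρ) V L c σ τ w x ≤ 1) :
    ENNReal.ofReal (w x * ‖fderiv ℝ (sm P (Bf G ε) f) x - fderiv ℝ f x‖) ≤
      ENNReal.ofReal (|w x| * (2 * ((Z P)⁻¹ * J0 P) * (τ x / σ x))) * tay f x s +
        ENNReal.ofReal (1 / (2 * (1 + V))) := by
  have hZ := hP.Z_pos ha0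
  set Jz := (Z P)⁻¹ * J0 P with hJz
  have hJ : 0 ≤ Jz := mul_nonneg (inv_nonneg.2 hZ.le) J0_nonneg
  have q1 := h.σ0 x hx
  have q2 := h.τ0 x hx
  have q4 := h.L0 x hx
  have hk0 := hFr.kap_nonneg hx
  obtain ⟨-, -, -, k4⟩ := h.κd_parts (w := w) hJ hc0 hV (by linarith only [hρ1] : 0 ≤ ρ) hx
  have htop : tay f x s ≠ ⊤ := ((h.tay_le hx hsr).trans_lt ENNReal.ofReal_lt_top).ne
  have hW0 : 0 ≤ |w x| * (2 * Jz * (τ x / σ x)) := by (clear * - hJ q2 q1; positivity)
  have h1 := hFr.deriv_err hΩ hP ha0 hf hx hεs q4.le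
    ((h.lip x hx).mono (ball_subset_ball hsr))
    (fderiv ℝ f x) (e := (tay f x s).toReal) ENNReal.toReal_nonneg (fun u hu => by
      have hcont : ContinuousOn f (ball x s) :=
        hfc.mono ((ball_subset_ball hsr).trans (h.rΩ x hx))
      have h2 := le_tay hcont (u := -u) (by simpa using hu)
      rw [norm_neg, map_neg, sub_neg_eq_add, ← sub_eq_add_neg] at h2
      rw [← ENNReal.ofReal_le_ofReal_iff (by (clear * -; positivity)),
        ENNReal.ofReal_mul ENNReal.toReal_nonneg, ENNReal.ofReal_toReal htop]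
      exact h2)
  have h2 : w x * ‖fderiv ℝ (sm P (Bf G ε) f) x - fderiv ℝ f x‖ ≤
      (|w x| * (2 * Jz * (τ x / σ x))) * (tay f x s).toReal + 1 / (2 * (1 + V)) := by
    calc w x * ‖fderiv ℝ (sm P (Bf G ε) f) x - fderiv ℝ f x‖
        ≤ |w x| * ‖fderiv ℝ (sm P (Bf G ε) f) x - fderiv ℝ f x‖ := by
          gcongr; exact le_abs_self _
      _ ≤ |w x| * (2 * ((Z P)⁻¹ * J0 P) * (τ x / σ x) *
          ((tay f x s).toReal + kap G ε σ x * L x)) := by (clear * - h1; gcongr)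
      _ = (|w x| * (2 * Jz * (τ x / σ x))) * (tay f x s).toReal +
          kap G ε σ x * ((|w x| * (2 * Jz * (τ x / σ x))) * L x) := by ring
      _ ≤ _ := by
          gcongr
          rw [le_div_iff₀ (by (clear * - hV; positivity))]
          calc kap G ε σ x * ((|w x| * (2 * Jz * (τ x / σ x))) * L x) * (2 * (1 + V))
              = kap G ε σ x * (2 * (1 + V) * (|w x| * (2 * Jz * (τ x / σ x))) * L x) := by ring
            _ ≤ kap G ε σ x * κd ((Z P)⁻¹ * J0 P) ρ (c0 a ρ) V L c σ τ w x := by (clear * - k4 hk0; gcongr)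
            _ ≤ 1 := hkx
  refine (ENNReal.ofReal_le_ofReal h2).trans ?_
  rw [ENNReal.ofReal_add (mul_nonneg hW0 ENNReal.toReal_nonneg) (by (clear * - hV; positivity)),
    ENNReal.ofReal_mul hW0, ENNReal.ofReal_toReal htop]

theorem fine_of_LData {Ω Λ : Set R3} (hΩ : IsOpen Ω) (hΩb : Bornology.IsBounded Ω)
    (hΛ : IsOpen Λ) (hΛc : IsPreconnected Λ) (hΛn : Λᶜ.Nonempty) {f : R3 → R3}
    (hf : IsHomeo Ω Λ f) (hfm : Measurable f) (hfi : LocallyIntegrable f) {ρ : ℝ} (hρ1 : 1 ≤ ρ)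
    (hρ5 : ρ < 5) {r L c σ τ : R3 → ℝ} {G : R3 → BF} (h : LData Ω f ρ r L c σ τ G) :
    ∃ F C, Fine Ω Λ f F C := by
  obtain ⟨a, ha0, ha1, hc0⟩ := exists_a hρ5
  obtain ⟨P, hP⟩ := exists_profile ha0 ha1
  have hZ := hP.Z_pos ha0
  have hJ : 0 ≤ (Z P)⁻¹ * J0 P := mul_nonneg (inv_nonneg.2 hZ.le) J0_nonneg
  refine ⟨fderiv ℝ f, Cb ((Z P)⁻¹ * J0 P) ρ (c0 a ρ) L c σ τ, hf, measurable_fderiv ℝ f,
    h.Cb_cont hc0, fun x hx => (h.L0 x hx).trans_le (h.Cb_parts hJ hc0 hx).1,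
    fun x hx => (h.deriv_le hx).trans (h.Cb_parts hJ hc0 hx).1, ?_⟩
  intro w hw
  obtain ⟨hbij, hfc, k, hk, hinv⟩ := hf
  obtain ⟨δ0, hδ0c, hδ0p, hδ0⟩ := exists_delta_diffeo hΩ hΛ hΛc hΛn hfc hk hbij hinv
  set V := (volume Ω).toReal with hV
  have hV0 : 0 ≤ V := ENNReal.toReal_nonneg
  have hvol : volume Ω = ENNReal.ofReal V := (ENNReal.ofReal_toReal hΩb.measure_lt_top.ne).symm
  obtain ⟨N, ν, hνc, hν, hN⟩ := h.exists_index hΩ hΩb hfm
    (W := fun x => |w x| * (2 * ((Z P)⁻¹ * J0 P) * (τ x / σ x)))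
    (hw.abs.mul (continuousOn_const.mul h.τσc)) (fun x hx => by
      have q1 := h.σ0 x hx
      have q2 := h.τ0 x hx
      (clear * - hJ q2 q1; positivity))
  have hN0 : ∀ x, (0 : ℝ) ≤ N x := fun x => Nat.cast_nonneg _
  obtain ⟨ε, hFr, hε⟩ := h.exists_eps hΩ hw (ν := fun x => ν x + 1)
    (hνc.add continuousOn_const) (fun x hx => by
      have := (hν x hx).1
      have := hN0 x
      (clear Λ hΩ hΩb hΛ hΛc hΛn f hfm hfi ρ hρ1 hρ5 L c σ τ G h hc0 P hP hZ hJ w hw hbij hfc k hk hinv δ0 hδ0c hδ0p hδ0 V hV hV0 hvol hνc hN hN0 this; linarith)) hδ0c hδ0p (h.κd_cont (Jz := (Z P)⁻¹ * J0 P) (q := c0 a ρ) (V := V) hw)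
    (fun x hx => one_pos.trans_le (h.κd_parts hJ hc0 hV0 (by linarith only [hρ1]) hx).1)
  have hs0 : ∀ x, (0 : ℝ) < 1 / ((N x : ℝ) + 1) := fun x => by
    have := hN0 x
    (clear * -; positivity)
  have hεs : ∀ x ∈ Ω, ε x / σ x < 1 / ((N x : ℝ) + 1) := by
    intro x hx
    refine (hε x hx).1.trans_le ?_
    have h1 := (hν x hx).1
    have h2 := hN0 x
    exact one_div_le_one_div_of_le (by linarith only []) (by linarith only [h1])
  have hεr : ∀ x ∈ Ω, ε x / σ x < r x := fun x hx => (hεs x hx).trans_le (hν x hx).2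
  have hclose : ∀ x ∈ Ω, ‖sm P (Bf G ε) f x - f x‖ ≤ L x * (ε x / σ x) := fun x hx =>
    hFr.close hP ha0 hx (hεr x hx) (h.L0 x hx).le (h.lip x hx)
  have hbds := fun x (hx : x ∈ Ω) => h.bounds (w := w) hΩ hρ1 hP ha0 hc0 hV0 hfi hFr hx
    (hεr x hx) (hε x hx).2.2.2
  have hgs : ContDiffOn ℝ ∞ (sm P (Bf G ε) f) Ω := sm_contDiffOn hΩ hP ha0 hFr.formField hfi
  obtain ⟨hgb, kk, hkk, hginv⟩ := hδ0 _ hgs (fun x hx v hv => by
      have := (hbds x hx).2 v
      rw [hv, norm_zero, mul_zero] at this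
      exact norm_le_zero_iff.1 this) (fun x hx => (hclose x hx).trans (hε x hx).2.1)
  refine ⟨sm P (Bf G ε) f, ⟨hgb, hgs, kk, hkk, hginv⟩, ?_, fun x hx => (hbds x hx).1,
    fun x hx => (hbds x hx).2, ?_⟩
  · intro x hx
    calc ‖sm P (Bf G ε) f x - f x‖ * w x ≤ ‖sm P (Bf G ε) f x - f x‖ * (|w x| + 1) := by
          gcongr
          have := le_abs_self (w x)
          linarith only [this]
      _ ≤ L x * (ε x / σ x) * (|w x| + 1) := by
          gcongr
          exact hclose x hx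
      _ ≤ 1 := (hε x hx).2.2.1
  · calc ∫⁻ x in Ω, ENNReal.ofReal (w x * ‖fderiv ℝ (sm P (Bf G ε) f) x - fderiv ℝ f x‖)
        ≤ ∫⁻ x in Ω, (ENNReal.ofReal (|w x| * (2 * ((Z P)⁻¹ * J0 P) * (τ x / σ x))) *
            tay f x (1 / ((N x : ℝ) + 1)) + ENNReal.ofReal (1 / (2 * (1 + V)))) := by
          refine setLIntegral_mono' hΩ.measurableSet fun x hx => ?_
          exact h.integrand hΩ hρ1 hP ha0 hc0 hV0 hfc hfi hFr hx (hεs x hx) (hs0 x)
            (hν x hx).2 (hε x hx).2.2.2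
      _ = (∫⁻ x in Ω, ENNReal.ofReal (|w x| * (2 * ((Z P)⁻¹ * J0 P) * (τ x / σ x))) *
            tay f x (1 / ((N x : ℝ) + 1))) +
          ENNReal.ofReal (1 / (2 * (1 + V))) * volume Ω := by
          rw [lintegral_add_right _ measurable_const, lintegral_const,
            Measure.restrict_apply MeasurableSet.univ, univ_inter]
      _ ≤ 2⁻¹ + 2⁻¹ := add_le_add hN (half_vol hV0 hvol)
      _ = 1 := ENNReal.inv_two_add_inv_two

theorem fine_of_local {Ω Λ : Set R3} (hΩ : IsOpen Ω) (hΩb : Bornology.IsBounded Ω)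
    (hΛ : IsOpen Λ) (hΛc : IsPreconnected Λ) (hΛb : Bornology.IsBounded Λ) {f : R3 → R3}
    (hf : IsHomeo Ω Λ f) {K : ℝ} (hK : 0 ≤ K) (hK5 : K ^ 2 < 5)
    (hloc : ∀ a ∈ Ω, SmallDistortionAt K f a ∨ DirMonotoneAt f a) :
    ∃ F C, Fine Ω Λ f F C := by
  classical
  set f' : R3 → R3 := Ω.indicator f with hf'
  have hff' : EqOn f f' Ω := fun x hx => (indicator_of_mem hx f).symm
  have hfh' : IsHomeo Ω Λ f' := hf.congr hff'
  suffices h : ∃ F C, Fine Ω Λ f' F C by
    obtain ⟨F, C, h⟩ := h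
    exact ⟨F, C, h.congr hff'.symm⟩
  have hf'm : Measurable f' := by
    rw [hf', ← piecewise_eq_indicator]
    exact hf.2.1.measurable_piecewise continuousOn_const hΩ.measurableSet
  obtain ⟨Rb, hRb⟩ := hΛb.exists_norm_le
  have hbd : ∀ x, ‖f' x‖ ≤ |Rb| := by
    intro x
    by_cases hx : x ∈ Ω
    · rw [← hff' hx]
      exact (hRb _ (hf.1.mapsTo hx)).trans (le_abs_self _)
    · rw [hf', indicator_of_notMem hx]
      simp only [norm_zero, abs_nonneg]
  have hf'i : LocallyIntegrable f' := by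
    have h1 : MemLp f' ⊤ (volume : Measure R3) :=
      memLp_top_of_bound hf'm.aestronglyMeasurable |Rb| (Eventually.of_forall hbd)
    exact h1.locallyIntegrable le_top
  have hΛn : Λᶜ.Nonempty := by
    by_contra h
    rw [not_nonempty_iff_eq_empty, compl_empty_iff] at h
    rw [h] at hΛb
    exact NormedSpace.unbounded_univ ℝ R3 hΛb
  obtain ⟨r, L, c, σ, τ, G, h⟩ := exists_LData hΩ hff' hK hloc
  exact fine_of_LData hΩ hΩb hΛ hΛc hΛn hfh' hf'm hf'i (le_max_right _ _)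
    (max_lt hK5 (by norm_num)) h

end Vale.Agent.P073
end

section

/-!
# Distortion of measure, and weights forcing closeness
-/

set_option maxSynthPendingDepth 3

namespace Vale.Agent.P073

open MeasureTheory Set Filter Topology Metric
open scoped Real InnerProductSpace ENNReal

/-- determinant bound from a lower bound of the map -/
theorem one_le_det {A : R3 →L[ℝ] R3} {C : ℝ} (hC : 0 < C) (h : ∀ v, ‖v‖ ≤ C * ‖A v‖) :
    1 ≤ C ^ 3 * |A.det| := by
  have hinj : Function.Injective A := by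
    rw [injective_iff_map_eq_zero]
    intro v hv
    have := h v
    rw [hv, norm_zero, mul_zero] at this
    exact norm_le_zero_iff.1 this
  have hsurj : Function.Surjective A :=
    (LinearMap.injective_iff_surjective (f := (A : R3 →ₗ[ℝ] R3))).1 hinj
  have hsub : ball (0 : R3) C⁻¹ ⊆ A '' ball 0 1 := by
    intro y hy
    obtain ⟨v, rfl⟩ := hsurj y
    refine ⟨v, ?_, rfl⟩
    rw [mem_ball_zero_iff] at hy ⊢
    calc ‖v‖ ≤ C * ‖A v‖ := h v
      _ < C * C⁻¹ := by (clear * - hy hC; gcongr)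
      _ = 1 := mul_inv_cancel₀ hC.ne'
  have h1 := measure_mono (μ := (volume : Measure R3)) hsub
  rw [Measure.addHaar_image_continuousLinearMap] at h1
  have h2 : volume (ball (0 : R3) C⁻¹) = ENNReal.ofReal (C⁻¹ ^ 3) * volume (ball (0 : R3) 1) := by
    have := Measure.addHaar_ball_mul_of_pos (volume : Measure R3) 0 (inv_pos.2 hC) 1
    simpa only [EuclideanSpace.volume_ball_fin_three, inv_pow, ENNReal.ofReal_one, one_pow, one_mul, mul_one,     finrank_euclideanSpace, Fintype.card_fin] using this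
  rw [h2] at h1
  have h3 : volume (ball (0 : R3) 1) ≠ 0 := (measure_ball_pos _ _ one_pos).ne'
  have h4 : volume (ball (0 : R3) 1) ≠ ⊤ := measure_ball_lt_top.ne
  have h5 := (ENNReal.mul_le_mul_iff_left h3 h4).1 h1
  rw [ENNReal.ofReal_le_ofReal_iff (abs_nonneg _)] at h5
  have h6 : A.det = LinearMap.det (A : R3 →ₗ[ℝ] R3) := rfl
  rw [h6]
  calc (1 : ℝ) = C ^ 3 * C⁻¹ ^ 3 := by rw [← mul_pow, mul_inv_cancel₀ hC.ne', one_pow]
    _ ≤ _ := by (clear * - h5 hC; gcongr)

/-- A weight forcing the points of a neighbourhood of the graph to satisfy an open condition. -/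
theorem exists_weight {Ω : Set R3} (hΩ : IsOpen Ω) {f : R3 → R3} (hf : ContinuousOn f Ω)
    {p : R3 → R3 → Prop} (hp : ∀ a ∈ Ω, ∀ᶠ q : R3 × R3 in 𝓝 (a, f a), p q.1 q.2) :
    ∃ w : R3 → ℝ, ContinuousOn w Ω ∧ (∀ x ∈ Ω, 0 < w x) ∧
      ∀ x ∈ Ω, ∀ y, ‖y - f x‖ * w x ≤ 1 → p x y := by
  obtain ⟨δ, hδs, hδ⟩ := exists_smooth_selection hΩ
    (t := fun x => {s : ℝ | 0 < s ∧ ∀ y, ‖y - f x‖ ≤ s → p x y}) (by
      intro x hx
      refine convex_of_down (fun s hs => hs.1) fun s hs s' hs' hss => ⟨hs', fun y hy => ?_⟩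
      exact hs.2 y (hy.trans hss)) (by
      intro a ha
      have h1 := hp a ha
      rw [Metric.eventually_nhds_iff] at h1
      obtain ⟨s, hs, h1⟩ := h1
      refine ⟨s / 3, ?_⟩
      have h2 : ∀ᶠ x in 𝓝 a, dist (f x) (f a) < s / 2 :=
        (hf.continuousAt (hΩ.mem_nhds ha)).eventually (ball_mem_nhds _ (half_pos hs))
      filter_upwards [ball_mem_nhds a hs, h2] with x hx hx2
      refine ⟨by positivity, fun y hy => ?_⟩
      refine @h1 (x, y) ?_
      rw [Prod.dist_eq, max_lt_iff]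
      refine ⟨hx, ?_⟩
      calc dist y (f a) ≤ dist y (f x) + dist (f x) (f a) := dist_triangle _ _ _
        _ < s := by rw [dist_eq_norm]; linarith)
  have hδ0 : ∀ x ∈ Ω, 0 < δ x := fun x hx => (hδ x hx).1
  refine ⟨fun x => (δ x)⁻¹, hδs.continuousOn.inv₀ fun x hx => (hδ0 x hx).ne',
    fun x hx => inv_pos.2 (hδ0 x hx), fun x hx y hy => (hδ x hx).2 y ?_⟩
  have := hδ0 x hx
  rw [mul_inv_le_iff₀ this, one_mul] at hy
  exact hy

/-- Change of variables for a diffeomorphism. -/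
theorem IsDiffeo.lintegral {Ω Λ : Set R3} (hΩ : IsOpen Ω) {g : R3 → R3} (hg : IsDiffeo Ω Λ g)
    (u : R3 → ℝ≥0∞) : ∫⁻ y in Λ, u y = ∫⁻ x in Ω, ENNReal.ofReal |(fderiv ℝ g x).det| * u (g x) := by
  rw [← hg.1.image_eq]
  refine lintegral_image_eq_lintegral_abs_det_fderiv_mul volume hΩ.measurableSet ?_ hg.1.injOn u
  intro x hx
  exact (((hg.2.1.contDiffAt (hΩ.mem_nhds hx)).differentiableAt (by simp)).hasFDerivAt).hasFDerivWithinAt

variable {Ω Λ : Set R3} {f : R3 → R3} {F : R3 → R3 →L[ℝ] R3} {C : R3 → ℝ}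

/-- Measure distortion of a finely approximable map. -/
theorem Fine.distort (h : Fine Ω Λ f F C) (hΩ : IsOpen Ω) (hΛ : IsOpen Λ)
    {φ W : R3 → ℝ} (hφ0 : ∀ x ∈ Ω, 0 ≤ φ x) (hW : ContinuousOn W Λ)
    (hφW : ∀ x ∈ Ω, φ x * C x ^ 3 ≤ W (f x)) {u : R3 → ℝ≥0∞} (hu : Measurable u) :
    ∫⁻ x in Ω, ENNReal.ofReal (φ x) * u (f x) ≤ ∫⁻ y in Λ, ENNReal.ofReal (W y) * u y := by
  classical
  refine ENNReal.le_of_forall_pos_le_add fun ε hε _ => ?_
  -- the semicontinuous majorant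
  have hWm : Measurable fun y => Λ.indicator (fun y => ENNReal.ofReal (W y) * u y) y := by
    have h1 : Measurable (Λ.piecewise W 0) :=
      hW.measurable_piecewise continuousOn_const hΛ.measurableSet
    have h2 : (fun y => Λ.indicator (fun y => ENNReal.ofReal (W y) * u y) y) =
        Λ.indicator fun y => ENNReal.ofReal (Λ.piecewise W 0 y) * u y := by
      ext y
      by_cases hy : y ∈ Λ
      · simp [hy]
      · simp [hy]
    rw [h2]
    exact (h1.ennreal_ofReal.mul hu).indicator hΛ.measurableSet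
  obtain ⟨V, hV1, hV2, hV3⟩ := exists_le_lowerSemicontinuous_lintegral_ge volume
    (fun y => Λ.indicator (fun y => ENNReal.ofReal (W y) * u y) y) hWm
    (ε := (ε : ℝ≥0∞)) (by simpa using hε.ne')
  rw [lintegral_indicator hΛ.measurableSet] at hV3
  refine le_trans ?_ hV3
  -- approximating sequence
  have happ := fun j : ℕ => h.approx (fun _ => (j : ℝ)) continuousOn_const
  choose g hg1 hg2 hg3 hg4 hg5 using happ
  have hlim : ∀ x ∈ Ω, Tendsto (fun j => g j x) atTop (𝓝 (f x)) := by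
    intro x hx
    rw [tendsto_iff_norm_sub_tendsto_zero]
    refine squeeze_zero' (Eventually.of_forall fun j => norm_nonneg _) ?_
      (tendsto_one_div_atTop_nhds_zero_nat (𝕜 := ℝ))
    filter_upwards [eventually_gt_atTop 0] with j hj
    rw [le_div_iff₀ (by exact_mod_cast hj)]
    exact hg2 j x hx
  -- pointwise inequality
  have hpt : ∀ x ∈ Ω, ENNReal.ofReal (φ x) * u (f x) ≤
      liminf (fun j => ENNReal.ofReal |(fderiv ℝ (g j) x).det| * V (g j x)) atTop := by
    intro x hx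
    have hfx : f x ∈ Λ := h.homeo.1.mapsTo hx
    have hC := h.posC x hx
    have h1 : ENNReal.ofReal (W (f x)) * u (f x) ≤ V (f x) := by
      have := hV1 (f x)
      rwa [indicator_of_mem hfx] at this
    have h2 : V (f x) ≤ liminf (fun j => V (g j x)) atTop := by
      refine (LowerSemicontinuousAt.le_liminf (hV2 (f x))).trans ?_
      exact (liminf_le_liminf_of_le (hlim x hx))
    have h3 : ENNReal.ofReal ((C x ^ 3)⁻¹) * V (f x) ≤
        liminf (fun j => ENNReal.ofReal |(fderiv ℝ (g j) x).det| * V (g j x)) atTop := by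
      calc ENNReal.ofReal ((C x ^ 3)⁻¹) * V (f x)
          ≤ ENNReal.ofReal ((C x ^ 3)⁻¹) * liminf (fun j => V (g j x)) atTop := by (clear * - h2; gcongr)
        _ = liminf (fun j => ENNReal.ofReal ((C x ^ 3)⁻¹) * V (g j x)) atTop :=
            (ENNReal.liminf_const_mul_of_ne_top ENNReal.ofReal_ne_top).symm
        _ ≤ _ := by
            refine liminf_le_liminf (Eventually.of_forall fun j => ?_)
            gcongr
            have := one_le_det hC (hg4 j x hx)
            rw [inv_le_iff_one_le_mul₀ (by (clear * - hC; positivity))]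
            linarith only [this]
    refine le_trans ?_ h3
    have h4 : ENNReal.ofReal (φ x) ≤ ENNReal.ofReal ((C x ^ 3)⁻¹) * ENNReal.ofReal (W (f x)) := by
      rw [← ENNReal.ofReal_mul (by (clear * - hC; positivity))]
      apply ENNReal.ofReal_le_ofReal
      rw [← div_eq_inv_mul, le_div_iff₀ (by (clear * - hC; positivity))]
      exact hφW x hx
    calc ENNReal.ofReal (φ x) * u (f x)
        ≤ ENNReal.ofReal ((C x ^ 3)⁻¹) * ENNReal.ofReal (W (f x)) * u (f x) := by (clear * - h4; gcongr)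
      _ = ENNReal.ofReal ((C x ^ 3)⁻¹) * (ENNReal.ofReal (W (f x)) * u (f x)) := by ring
      _ ≤ _ := by (clear * - h1; gcongr)
  calc ∫⁻ x in Ω, ENNReal.ofReal (φ x) * u (f x)
      ≤ ∫⁻ x in Ω, liminf (fun j => ENNReal.ofReal |(fderiv ℝ (g j) x).det| * V (g j x)) atTop :=
        setLIntegral_mono' hΩ.measurableSet hpt
    _ ≤ liminf (fun j => ∫⁻ x in Ω, ENNReal.ofReal |(fderiv ℝ (g j) x).det| * V (g j x)) atTop := by
        apply lintegral_liminf_le'
        intro j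
        have hgm : AEMeasurable (g j) (volume.restrict Ω) :=
          (hg1 j).2.1.continuousOn.aemeasurable hΩ.measurableSet
        have hdet : Measurable fun x => ENNReal.ofReal |(fderiv ℝ (g j) x).det| := by
          have h1 : Measurable fun x => (fderiv ℝ (g j) x).det :=
            ContinuousLinearMap.continuous_det.measurable.comp (measurable_fderiv ℝ (g j))
          exact (continuous_abs.measurable.comp h1).ennreal_ofReal
        exact hdet.aemeasurable.mul (hV2.measurable.comp_aemeasurable hgm)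
    _ = liminf (fun _ : ℕ => ∫⁻ y in Λ, V y) atTop := by
        congr 1
        ext j
        exact ((hg1 j).lintegral hΩ V).symm
    _ = ∫⁻ y in Λ, V y := liminf_const _
    _ ≤ ∫⁻ y, V y := setLIntegral_le_lintegral _ _

end Vale.Agent.P073
end
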