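import Vale.Agent.P073.MathlibUsed
import Vale.Agent.P073.Bdl.B2
import Vale.Agent.P073.Bdl.B1

set_option linter.all false

section

/-!
# Composition of finely approximable maps
-/

set_option maxSynthPendingDepth 3

namespace Vale.Agent.P073

open MeasureTheory Set Filter Topology Metric
open scoped Real InnerProductSpace ENNReal

variable {Ω Λ Ξ : Set R3} {f₁ f₂ : R3 → R3} {F₁ F₂ : R3 → R3 →L[ℝ] R3} {C₁ : R3 → ℝ}

theorem rpow_three {p a b c : ℝ} (hp : 0 ≤ p) (ha : 0 ≤ a) (hb : 0 ≤ b) (hc : 0 ≤ c) :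
    (a + b + c) ^ p ≤ 3 ^ p * a ^ p + 3 ^ p * b ^ p + 3 ^ p * c ^ p := by
  have key : ∀ m : ℝ, 0 ≤ m → a ≤ m → b ≤ m → c ≤ m → (a + b + c) ^ p ≤ 3 ^ p * m ^ p := by
    intro m hm h1 h2 h3
    rw [← Real.mul_rpow (by norm_num) hm]
    exact Real.rpow_le_rpow (by (clear * - ha hb hc; positivity)) (by linarith) hp
  have pa : 0 ≤ 3 ^ p * a ^ p := by (clear * - ha; positivity)
  have pb : 0 ≤ 3 ^ p * b ^ p := by positivity
  have pc : 0 ≤ 3 ^ p * c ^ p := by positivity
  rcases le_total a b with h1 | h1 <;> rcases le_total b c with h2 | h2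
  · have := key c hc (h1.trans h2) h2 le_rfl; linarith only [pa, pb, this]
  · have := key b hb h1 le_rfl h2; linarith only [pa, pc, this]
  · rcases le_total a c with h3 | h3
    · have := key c hc h3 h2 le_rfl; linarith only [pa, pb, this]
    · have := key a ha le_rfl h1 h3; linarith only [pb, pc, this]
  · have := key a ha le_rfl h1 (h2.trans h1); linarith only [pb, pc, this]

theorem IsHomeo.comp (h₁ : IsHomeo Ω Λ f₁) (h₂ : IsHomeo Λ Ξ f₂) : IsHomeo Ω Ξ (f₂ ∘ f₁) := by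
  obtain ⟨b1, c1, k1, hk1, i1⟩ := h₁
  obtain ⟨b2, c2, k2, hk2, i2⟩ := h₂
  have m1 : MapsTo k2 Ξ Λ := by
    intro y hy
    obtain ⟨x, hx, rfl⟩ := b2.surjOn hy
    rw [i2.1 hx]; exact hx
  refine ⟨b2.comp b1, c2.comp c1 b1.mapsTo, k1 ∘ k2, hk1.comp hk2 m1, ?_, ?_⟩
  · exact i1.1.comp i2.1 b1.mapsTo
  · intro y hy
    simp only [Function.comp_apply]
    rw [i1.2 (m1 hy), i2.2 hy]

theorem IsDiffeo.comp (h₁ : IsDiffeo Ω Λ f₁) (h₂ : IsDiffeo Λ Ξ f₂) : IsDiffeo Ω Ξ (f₂ ∘ f₁) := by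
  obtain ⟨b1, c1, k1, hk1, i1⟩ := h₁
  obtain ⟨b2, c2, k2, hk2, i2⟩ := h₂
  have m1 : MapsTo k2 Ξ Λ := by
    intro y hy
    obtain ⟨x, hx, rfl⟩ := b2.surjOn hy
    rw [i2.1 hx]; exact hx
  refine ⟨b2.comp b1, c2.comp c1 b1.mapsTo, k1 ∘ k2, hk1.comp hk2 m1, ?_, ?_⟩
  · exact i1.1.comp i2.1 b1.mapsTo
  · intro y hy
    simp only [Function.comp_apply]
    rw [i1.2 (m1 hy), i2.2 hy]

theorem IsDiffeo.hasFDerivAt (hΩ : IsOpen Ω) {g : R3 → R3} (hg : IsDiffeo Ω Λ g) {x : R3}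
    (hx : x ∈ Ω) : HasFDerivAt g (fderiv ℝ g x) x :=
  ((hg.2.1.contDiffAt (hΩ.mem_nhds hx)).differentiableAt (by simp)).hasFDerivAt

theorem IsDiffeo.continuousOn_fderiv (hΩ : IsOpen Ω) {g : R3 → R3} (hg : IsDiffeo Ω Λ g) :
    ContinuousOn (fderiv ℝ g) Ω :=
  hg.2.1.continuousOn_fderiv_of_isOpen hΩ (by simp only [WithTop.one_le_coe, le_top])

theorem fderiv_comp_diffeo (hΩ : IsOpen Ω) (hΛ : IsOpen Λ) {g₁ g₂ : R3 → R3}
    (h₁ : IsDiffeo Ω Λ g₁) (h₂ : IsDiffeo Λ Ξ g₂) {x : R3} (hx : x ∈ Ω) :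
    fderiv ℝ (g₂ ∘ g₁) x = (fderiv ℝ g₂ (g₁ x)).comp (fderiv ℝ g₁ x) :=
  ((h₂.hasFDerivAt hΛ (h₁.1.mapsTo hx)).comp x (h₁.hasFDerivAt hΩ hx)).fderiv

/-- the pointwise estimate in the composition theorem -/
theorem comp_pt {p : ℝ} (hp : 1 ≤ p) {G₂ G₂' F₂ G₁ F₁ : R3 →L[ℝ] R3} {C w η s : ℝ}
    (hC : 0 ≤ C) (hG₁ : ‖G₁‖ ≤ C) (hF₁ : ‖F₁‖ ≤ C)
    (hη : 3 ^ p * |w| * C ^ p * ‖G₂ - G₂'‖ ^ p ≤ η)
    (hs : 3 * (3 ^ p * |w| * ‖G₂'‖ ^ p * (2 * C) ^ (p - 1)) ≤ s) :
    w * ‖G₂.comp G₁ - F₂.comp F₁‖ ^ p ≤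
      (η + 3⁻¹ * (s * ‖G₁ - F₁‖)) + 3 ^ p * |w| * C ^ p * ‖G₂' - F₂‖ ^ p := by
  have hp0 : 0 < p := by linarith only [hp]
  set a := ‖G₂ - G₂'‖ with ha
  set b := ‖G₁ - F₁‖ with hb
  set c := ‖G₂' - F₂‖ with hc
  set D := ‖G₂'‖ with hD
  have ha0 : 0 ≤ a := norm_nonneg _
  have hb0 : 0 ≤ b := norm_nonneg _
  have hc0 : 0 ≤ c := norm_nonneg _
  have hD0 : 0 ≤ D := norm_nonneg _
  have e1 : ‖G₂.comp G₁ - F₂.comp F₁‖ ≤ a * C + D * b + c * C := by
    have e2 : G₂.comp G₁ - F₂.comp F₁ =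
        (G₂ - G₂').comp G₁ + G₂'.comp (G₁ - F₁) + (G₂' - F₂).comp F₁ := by
      ext v
      simp only [sub_apply, ContinuousLinearMap.comp_apply, PiLp.sub_apply, ContinuousLinearMap.sub_comp, ContinuousLinearMap.comp_sub, sub_add_sub_cancel]
    rw [e2]
    refine (norm_add_le _ _).trans (add_le_add ((norm_add_le _ _).trans (add_le_add ?_ ?_)) ?_)
    · exact (ContinuousLinearMap.opNorm_comp_le _ _).trans (by (clear * - hG₁; gcongr))
    · exact ContinuousLinearMap.opNorm_comp_le _ _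
    · exact (ContinuousLinearMap.opNorm_comp_le _ _).trans (by (clear * - hF₁; gcongr))
  have e3 : ‖G₂.comp G₁ - F₂.comp F₁‖ ^ p ≤
      3 ^ p * (a * C) ^ p + 3 ^ p * (D * b) ^ p + 3 ^ p * (c * C) ^ p :=
    (Real.rpow_le_rpow (norm_nonneg _) e1 hp0.le).trans
      (rpow_three hp0.le (by (clear * - hC; positivity)) (by (clear * -; positivity)) (by (clear * - hC; positivity)))
  have hbC : b ≤ 2 * C := by
    calc b ≤ ‖G₁‖ + ‖F₁‖ := norm_sub_le _ _
      _ ≤ 2 * C := by linarith only [hG₁, hF₁]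
  have hbp : b ^ p ≤ (2 * C) ^ (p - 1) * b := by
    rcases hb0.eq_or_lt with h0 | h0
    · rw [← h0, Real.zero_rpow hp0.ne', mul_zero]
    · calc b ^ p = b ^ (p - 1) * b := by
            rw [← Real.rpow_add_one h0.ne']; congr 1; ring
        _ ≤ _ := by (clear * - h0 hbC hp; gcongr)
  have hmid : 3 ^ p * |w| * D ^ p * b ^ p ≤ 3⁻¹ * (s * b) := by
    calc 3 ^ p * |w| * D ^ p * b ^ p
        ≤ 3 ^ p * |w| * D ^ p * ((2 * C) ^ (p - 1) * b) := by (clear * - hbp; gcongr)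
      _ = 3⁻¹ * ((3 * (3 ^ p * |w| * D ^ p * (2 * C) ^ (p - 1))) * b) := by ring
      _ ≤ 3⁻¹ * (s * b) := by (clear * - hs; gcongr)
  calc w * ‖G₂.comp G₁ - F₂.comp F₁‖ ^ p
      ≤ |w| * ‖G₂.comp G₁ - F₂.comp F₁‖ ^ p := by
        gcongr; exact le_abs_self _
    _ ≤ |w| * (3 ^ p * (a * C) ^ p + 3 ^ p * (D * b) ^ p + 3 ^ p * (c * C) ^ p) := by
        (clear * - e3; gcongr)
    _ = 3 ^ p * |w| * C ^ p * a ^ p + 3 ^ p * |w| * D ^ p * b ^ p +
          3 ^ p * |w| * C ^ p * c ^ p := by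
        rw [Real.mul_rpow ha0 hC, Real.mul_rpow hD0 hb0, Real.mul_rpow hc0 hC]
        ring
    _ ≤ (η + 3⁻¹ * (s * b)) + 3 ^ p * |w| * C ^ p * c ^ p :=
        add_le_add (add_le_add hη hmid) le_rfl

/-- the open condition in the composition theorem -/
theorem comp_open (hΩ : IsOpen Ω) (hΛ : IsOpen Λ) {p : ℝ} (hp : 0 < p) (hfc : ContinuousOn f₁ Ω)
    (hm : MapsTo f₁ Ω Λ) (hf₂ : ContinuousOn f₂ Λ) {g₂ : R3 → R3 →L[ℝ] R3}
    (hDg₂c : ContinuousOn g₂ Λ) {w A W : R3 → ℝ} (hw : ContinuousOn w Ω)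
    (hAc : ContinuousOn A Ω) (hWc : ContinuousOn W Λ) (hW : ∀ x ∈ Ω, 2 * |w x| < W (f₁ x))
    {η : ℝ} (hη0 : 0 < η) :
    ∃ w₁ : R3 → ℝ, ContinuousOn w₁ Ω ∧ (∀ x ∈ Ω, 0 < w₁ x) ∧
      ∀ x ∈ Ω, ∀ y, ‖y - f₁ x‖ * w₁ x ≤ 1 → 2 * |w x| < W y ∧
        ‖f₂ y - f₂ (f₁ x)‖ * (2 * |w x|) < 1 ∧ A x * ‖g₂ y - g₂ (f₁ x)‖ ^ p < η := by
  refine exists_weight hΩ hfc
    (p := fun x y => 2 * |w x| < W y ∧ ‖f₂ y - f₂ (f₁ x)‖ * (2 * |w x|) < 1 ∧
      A x * ‖g₂ y - g₂ (f₁ x)‖ ^ p < η) ?_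
  intro a ha
  have hfa : f₁ a ∈ Λ := hm ha
  have t1 : Tendsto (fun q : R3 × R3 => q.1) (𝓝 (a, f₁ a)) (𝓝 a) := continuous_fst.continuousAt
  have t2 : Tendsto (fun q : R3 × R3 => q.2) (𝓝 (a, f₁ a)) (𝓝 (f₁ a)) :=
    continuous_snd.continuousAt
  have cw : Tendsto (fun q : R3 × R3 => |w q.1|) (𝓝 (a, f₁ a)) (𝓝 |w a|) :=
    ((hw.abs).continuousAt (hΩ.mem_nhds ha)).tendsto.comp t1
  have cA : Tendsto (fun q : R3 × R3 => A q.1) (𝓝 (a, f₁ a)) (𝓝 (A a)) :=
    (hAc.continuousAt (hΩ.mem_nhds ha)).tendsto.comp t1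
  have cf : Tendsto (fun q : R3 × R3 => f₁ q.1) (𝓝 (a, f₁ a)) (𝓝 (f₁ a)) :=
    (hfc.continuousAt (hΩ.mem_nhds ha)).tendsto.comp t1
  have cf2 := (hf₂.continuousAt (hΛ.mem_nhds hfa)).tendsto
  have cg2 := (hDg₂c.continuousAt (hΛ.mem_nhds hfa)).tendsto
  have cW := ((hWc.continuousAt (hΛ.mem_nhds hfa)).tendsto).comp t2
  have e1 : ∀ᶠ q : R3 × R3 in 𝓝 (a, f₁ a), 2 * |w q.1| < W q.2 :=
    (cw.const_mul 2).eventually_lt cW (hW a ha)
  have e2 : ∀ᶠ q : R3 × R3 in 𝓝 (a, f₁ a), ‖f₂ q.2 - f₂ (f₁ q.1)‖ * (2 * |w q.1|) < 1 := by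
    have h1 : Tendsto (fun q : R3 × R3 => ‖f₂ q.2 - f₂ (f₁ q.1)‖ * (2 * |w q.1|))
        (𝓝 (a, f₁ a)) (𝓝 (‖f₂ (f₁ a) - f₂ (f₁ a)‖ * (2 * |w a|))) :=
      (((cf2.comp t2).sub (cf2.comp cf)).norm).mul (cw.const_mul 2)
    rw [sub_self, norm_zero, zero_mul] at h1
    exact h1.eventually (gt_mem_nhds one_pos)
  have e3 : ∀ᶠ q : R3 × R3 in 𝓝 (a, f₁ a), A q.1 * ‖g₂ q.2 - g₂ (f₁ q.1)‖ ^ p < η := by
    have h1 : Tendsto (fun q : R3 × R3 => A q.1 * ‖g₂ q.2 - g₂ (f₁ q.1)‖ ^ p) (𝓝 (a, f₁ a))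
        (𝓝 (A a * ‖g₂ (f₁ a) - g₂ (f₁ a)‖ ^ p)) :=
      cA.mul ((((cg2.comp t2).sub (cg2.comp cf)).norm).rpow_const (Or.inr hp.le))
    rw [sub_self, norm_zero, Real.zero_rpow hp.ne', mul_zero] at h1
    exact h1.eventually (gt_mem_nhds hη0)
  filter_upwards [e1, e2, e3] with q h1 h2 h3
  exact ⟨h1, h2, h3⟩

/-- the integral estimate in the composition theorem -/
theorem comp_int (hΩ : IsOpen Ω) {V : ℝ} (hV0 : 0 ≤ V) (hvol : volume Ω = ENNReal.ofReal V)
    (hΛ : IsOpen Λ) {p : ℝ} (h₁ : Fine Ω Λ f₁ F₁ C₁) (hF₂ : Measurable F₂)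
    {g₁ g₂ : R3 → R3} {A W s : R3 → ℝ} {T : R3 → ℝ}
    (hA0 : ∀ x ∈ Ω, 0 ≤ A x) (hAc : ContinuousOn A Ω) (hWc : ContinuousOn W Λ)
    (hAW : ∀ x ∈ Ω, A x * C₁ x ^ 3 ≤ 3⁻¹ * W (f₁ x))
    (hT : ∀ x ∈ Ω, T x ≤ (1 / (3 * (1 + V)) + 3⁻¹ * (s x * ‖fderiv ℝ g₁ x - F₁ x‖)) +
      A x * ‖fderiv ℝ g₂ (f₁ x) - F₂ (f₁ x)‖ ^ p)
    (hg₁i : ∫⁻ x in Ω, ENNReal.ofReal (s x * ‖fderiv ℝ g₁ x - F₁ x‖) ≤ 1)
    (hg₂i : ∫⁻ y in Λ, ENNReal.ofReal (W y * ‖fderiv ℝ g₂ y - F₂ y‖ ^ p) ≤ 1) :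
    ∫⁻ x in Ω, ENNReal.ofReal (T x) ≤ 1 := by
  set η : ℝ := 1 / (3 * (1 + V)) with hη
  have hη0 : 0 < η := by positivity
  have hthird : ENNReal.ofReal η * volume Ω ≤ ENNReal.ofReal 3⁻¹ := by
    rw [hvol, ← ENNReal.ofReal_mul hη0.le]
    apply ENNReal.ofReal_le_ofReal
    simp only [hη]
    rw [div_mul_eq_mul_div, one_mul, div_le_iff₀ (by (clear * - hV0; positivity))]
    linarith only []
  have hum : Measurable fun y => ENNReal.ofReal (‖fderiv ℝ g₂ y - F₂ y‖ ^ p) := by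
    have h1 : Measurable fun y => fderiv ℝ g₂ y - F₂ y :=
      (measurable_fderiv ℝ g₂).sub hF₂
    exact (h1.norm.pow_const p).ennreal_ofReal
  have hd := h₁.distort hΩ hΛ (φ := A) (W := fun y => 3⁻¹ * W y) hA0
    (continuousOn_const.mul hWc) hAW hum
  have m1 : AEMeasurable (fun x => ENNReal.ofReal (A x) *
      ENNReal.ofReal (‖fderiv ℝ g₂ (f₁ x) - F₂ (f₁ x)‖ ^ p)) (volume.restrict Ω) := by
    have h1 : AEMeasurable f₁ (volume.restrict Ω) :=
      h₁.homeo.2.1.aemeasurable hΩ.measurableSet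
    exact (hAc.aemeasurable hΩ.measurableSet).ennreal_ofReal.mul (hum.comp_aemeasurable h1)
  have hM : ∀ x ∈ Ω, ENNReal.ofReal (T x) ≤
      (ENNReal.ofReal η + ENNReal.ofReal (3⁻¹) * ENNReal.ofReal
        (s x * ‖fderiv ℝ g₁ x - F₁ x‖)) +
        ENNReal.ofReal (A x) * ENNReal.ofReal (‖fderiv ℝ g₂ (f₁ x) - F₂ (f₁ x)‖ ^ p) := by
    intro x hx
    refine (ENNReal.ofReal_le_ofReal (hT x hx)).trans ?_
    refine ENNReal.ofReal_add_le.trans (add_le_add (ENNReal.ofReal_add_le.trans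
      (add_le_add le_rfl ?_)) ?_)
    · rw [ENNReal.ofReal_mul (by norm_num)]
    · rw [ENNReal.ofReal_mul (hA0 x hx)]
  have hd' : ∫⁻ y in Λ, ENNReal.ofReal (3⁻¹ * W y) *
      ENNReal.ofReal (‖fderiv ℝ g₂ y - F₂ y‖ ^ p) ≤ ENNReal.ofReal 3⁻¹ := by
    calc ∫⁻ y in Λ, ENNReal.ofReal (3⁻¹ * W y) *
          ENNReal.ofReal (‖fderiv ℝ g₂ y - F₂ y‖ ^ p)
        = ∫⁻ y in Λ, ENNReal.ofReal 3⁻¹ *
          ENNReal.ofReal (W y * ‖fderiv ℝ g₂ y - F₂ y‖ ^ p) := by
          refine lintegral_congr fun y => ?_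
          rw [ENNReal.ofReal_mul (by norm_num), ENNReal.ofReal_mul' (by (clear * -; positivity)), mul_assoc]
      _ = ENNReal.ofReal 3⁻¹ * ∫⁻ y in Λ,
          ENNReal.ofReal (W y * ‖fderiv ℝ g₂ y - F₂ y‖ ^ p) :=
          lintegral_const_mul' _ _ ENNReal.ofReal_ne_top
      _ ≤ ENNReal.ofReal 3⁻¹ * 1 := by (clear * - hg₂i; gcongr)
      _ = _ := mul_one _
  calc ∫⁻ x in Ω, ENNReal.ofReal (T x)
      ≤ ∫⁻ x in Ω, ((ENNReal.ofReal η + ENNReal.ofReal (3⁻¹) * ENNReal.ofReal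
          (s x * ‖fderiv ℝ g₁ x - F₁ x‖)) +
          ENNReal.ofReal (A x) * ENNReal.ofReal (‖fderiv ℝ g₂ (f₁ x) - F₂ (f₁ x)‖ ^ p)) :=
        setLIntegral_mono' hΩ.measurableSet hM
    _ = (ENNReal.ofReal η * volume Ω + ENNReal.ofReal (3⁻¹) * ∫⁻ x in Ω, ENNReal.ofReal
          (s x * ‖fderiv ℝ g₁ x - F₁ x‖)) +
          ∫⁻ x in Ω, ENNReal.ofReal (A x) *
            ENNReal.ofReal (‖fderiv ℝ g₂ (f₁ x) - F₂ (f₁ x)‖ ^ p) := by
        rw [lintegral_add_right' _ m1, lintegral_add_left measurable_const, lintegral_const,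
          Measure.restrict_apply MeasurableSet.univ, univ_inter,
          lintegral_const_mul' _ _ ENNReal.ofReal_ne_top]
    _ ≤ (ENNReal.ofReal 3⁻¹ + ENNReal.ofReal 3⁻¹ * 1) + ENNReal.ofReal 3⁻¹ :=
        add_le_add (add_le_add hthird (mul_le_mul_right hg₁i _)) (hd.trans hd')
    _ = 1 := by
        rw [mul_one, ← ENNReal.ofReal_add (by norm_num) (by norm_num),
          ← ENNReal.ofReal_add (by norm_num) (by norm_num)]
        norm_num

/-- Core of the composition theorem: the second map is approximated first. -/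
theorem comp_core (hΩ : IsOpen Ω) (hΩb : Bornology.IsBounded Ω) (hΛ : IsOpen Λ) {p : ℝ}
    (hp : 1 ≤ p) (h₁ : Fine Ω Λ f₁ F₁ C₁) (hf₂ : IsHomeo Λ Ξ f₂) (hF₂ : Measurable F₂)
    {R : (R3 → R3) → Prop}
    (h₂ : ∀ W : R3 → ℝ, ContinuousOn W Λ → ∃ g : R3 → R3, IsDiffeo Λ Ξ g ∧ R g ∧
      (∀ y ∈ Λ, ‖g y - f₂ y‖ * W y ≤ 1) ∧
      ∫⁻ y in Λ, ENNReal.ofReal (W y * ‖fderiv ℝ g y - F₂ y‖ ^ p) ≤ 1)
    {w w₀ : R3 → ℝ} (hw : ContinuousOn w Ω) (hw₀ : ContinuousOn w₀ Ω) :
    ∃ g₁ g₂ : R3 → R3, IsDiffeo Ω Λ g₁ ∧ IsDiffeo Λ Ξ g₂ ∧ R g₂ ∧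
      (∀ x ∈ Ω, ‖g₁ x - f₁ x‖ * w₀ x ≤ 1) ∧
      (∀ x ∈ Ω, ‖fderiv ℝ g₁ x‖ ≤ C₁ x) ∧ (∀ x ∈ Ω, ∀ v, ‖v‖ ≤ C₁ x * ‖fderiv ℝ g₁ x v‖) ∧
      (∀ x ∈ Ω, ‖g₂ (g₁ x) - f₂ (f₁ x)‖ * w x ≤ 1) ∧
      ∫⁻ x in Ω, ENNReal.ofReal (w x *
        ‖fderiv ℝ (g₂ ∘ g₁) x - (F₂ (f₁ x)).comp (F₁ x)‖ ^ p) ≤ 1 := by
  have hp0 : 0 < p := by linarith only [hp]
  obtain ⟨hbij, hfc, k, hk, hinv⟩ := h₁.homeo
  have hkm : MapsTo k Λ Ω := by
    intro y hy
    obtain ⟨x, hx, rfl⟩ := hbij.surjOn hy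
    rw [hinv.1 hx]; exact hx
  set V := (volume Ω).toReal with hV
  have hV0 : 0 ≤ V := ENNReal.toReal_nonneg
  have hvol : volume Ω = ENNReal.ofReal V := (ENNReal.ofReal_toReal hΩb.measure_lt_top.ne).symm
  have hC0 := h₁.posC
  have hCc := h₁.contC
  -- the weight on the intermediate domain
  set A : R3 → ℝ := fun x => 3 ^ p * |w x| * C₁ x ^ p with hA
  have hA0 : ∀ x ∈ Ω, 0 ≤ A x := fun x hx => by
    have := (hC0 x hx).le
    (clear * - this; positivity)
  have hAc : ContinuousOn A Ω :=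
    (continuousOn_const.mul hw.abs).mul (hCc.rpow_const fun x hx => Or.inl (hC0 x hx).ne')
  set V₀ : R3 → ℝ := fun x => 1 + 2 * |w x| + 3 * (A x * C₁ x ^ 3) with hV₀
  have hAC0 : ∀ x ∈ Ω, 0 ≤ A x * C₁ x ^ 3 := fun x hx =>
    mul_nonneg (hA0 x hx) (pow_nonneg (hC0 x hx).le 3)
  have hV₀c : ContinuousOn V₀ Ω :=
    (continuousOn_const.add (continuousOn_const.mul hw.abs)).add
      (continuousOn_const.mul (hAc.mul (hCc.pow 3)))
  have hWc : ContinuousOn (fun y => V₀ (k y)) Λ := hV₀c.comp hk hkm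
  have hWf : ∀ x ∈ Ω, V₀ (k (f₁ x)) = V₀ x := fun x hx => by rw [hinv.1 hx]
  obtain ⟨g₂, hg₂d, hg₂R, hg₂c, hg₂i⟩ := h₂ _ hWc
  have hDg₂c : ContinuousOn (fderiv ℝ g₂) Λ := hg₂d.continuousOn_fderiv hΛ
  -- the open condition
  obtain ⟨w₁, hw₁c, hw₁0, hw₁⟩ := comp_open hΩ hΛ hp0 hfc hbij.mapsTo hf₂.2.1 hDg₂c hw hAc hWc
    (fun x hx => by
      rw [hWf x hx]
      have := hAC0 x hx
      simp only [hV₀]
      linarith only [this]) (η := 1 / (3 * (1 + V))) (by (clear * -; positivity))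
  -- the weight on the first domain
  set Q : R3 → ℝ := fun x => 3 * (3 ^ p * |w x| * ‖fderiv ℝ g₂ (f₁ x)‖ ^ p * (2 * C₁ x) ^ (p - 1))
    with hQ
  have hQ0 : ∀ x ∈ Ω, 0 ≤ Q x := fun x hx => by
    have := (hC0 x hx).le
    (clear * - this; positivity)
  have hQc : ContinuousOn Q Ω := by
    refine continuousOn_const.mul (((continuousOn_const.mul hw.abs).mul ?_).mul ?_)
    · exact ((hDg₂c.comp hfc hbij.mapsTo).norm).rpow_const fun x hx => Or.inr hp0.le
    · exact (continuousOn_const.mul hCc).rpow_const fun x hx => Or.inr (by linarith only [hp])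
  obtain ⟨g₁, hg₁d, hg₁c, hg₁u, hg₁l, hg₁i⟩ := h₁.approx (fun x => w₁ x + |w₀ x| + Q x)
    ((hw₁c.add hw₀.abs).add hQc)
  have hg₁w : ∀ x ∈ Ω, ‖g₁ x - f₁ x‖ * w₁ x ≤ 1 := by
    intro x hx
    refine le_trans ?_ (hg₁c x hx)
    gcongr
    have := hQ0 x hx
    have := abs_nonneg (w₀ x)
    linarith
  have hcond := fun x hx => hw₁ x hx _ (hg₁w x hx)
  refine ⟨g₁, g₂, hg₁d, hg₂d, hg₂R, ?_, hg₁u, hg₁l, ?_, ?_⟩
  · intro x hx
    refine le_trans ?_ (hg₁c x hx)
    gcongr
    have := hQ0 x hx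
    have := (hw₁0 x hx).le
    have := le_abs_self (w₀ x)
    linarith
  · intro x hx
    obtain ⟨h1, h2, -⟩ := hcond x hx
    have hgx : g₁ x ∈ Λ := hg₁d.1.mapsTo hx
    have h3 := hg₂c (g₁ x) hgx
    have h4 : ‖g₂ (g₁ x) - f₂ (g₁ x)‖ * (2 * |w x|) ≤ 1 := by
      refine le_trans ?_ h3
      (clear * - h1; gcongr)
    calc ‖g₂ (g₁ x) - f₂ (f₁ x)‖ * w x ≤ ‖g₂ (g₁ x) - f₂ (f₁ x)‖ * |w x| := by
          gcongr; exact le_abs_self _
      _ ≤ (‖g₂ (g₁ x) - f₂ (g₁ x)‖ + ‖f₂ (g₁ x) - f₂ (f₁ x)‖) * |w x| := by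
          gcongr
          exact norm_sub_le_norm_sub_add_norm_sub _ _ _
      _ ≤ 1 := by linarith only [h4, h2]
  · refine comp_int hΩ hV0 hvol hΛ (p := p) h₁ hF₂ (g₁ := g₁) (g₂ := g₂) (A := A)
      (W := fun y => V₀ (k y)) (s := fun x => w₁ x + |w₀ x| + Q x) hA0 hAc hWc
      (fun x hx => ?_) (fun x hx => ?_) hg₁i hg₂i
    · rw [hWf x hx]
      have := abs_nonneg (w x)
      simp only [hV₀]
      linarith only [this]
    · rw [fderiv_comp_diffeo hΩ hΛ hg₁d hg₂d hx]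
      refine comp_pt hp (hC0 x hx).le (hg₁u x hx) (h₁.bdF x hx) (hcond x hx).2.2.le ?_
      have := (hw₁0 x hx).le
      have := abs_nonneg (w₀ x)
      simp only [hQ]
      linarith

end Vale.Agent.P073
end

section

/-!
# Closure under composition
-/

set_option maxSynthPendingDepth 3

namespace Vale.Agent.P073

open MeasureTheory Set Filter Topology Metric
open scoped Real InnerProductSpace ENNReal

variable {Ω Λ Ξ : Set R3} {f f₁ f₂ : R3 → R3} {F F₁ F₂ : R3 → R3 →L[ℝ] R3} {C C₁ C₂ : R3 → ℝ}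

/-- fine approximation in the mean of order `p`, with no bounds -/
structure FineP (p : ℝ) (Ω Λ : Set R3) (f : R3 → R3) (F : R3 → R3 →L[ℝ] R3) : Prop where
  homeo : IsHomeo Ω Λ f
  meas : Measurable F
  approx : ∀ w : R3 → ℝ, ContinuousOn w Ω → ∃ g : R3 → R3, IsDiffeo Ω Λ g ∧
    (∀ x ∈ Ω, ‖g x - f x‖ * w x ≤ 1) ∧
    ∫⁻ x in Ω, ENNReal.ofReal (w x * ‖fderiv ℝ g x - F x‖ ^ p) ≤ 1

theorem Fine.toFineP (h : Fine Ω Λ f F C) (hΩ : IsOpen Ω) {p : ℝ} (hp : 1 ≤ p) :
    FineP p Ω Λ f F where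
  homeo := h.homeo
  meas := h.meas
  approx w hw := by
    have hp0 : 0 < p := by linarith only [hp]
    set Q : R3 → ℝ := fun x => |w x| * (2 * C x) ^ (p - 1) with hQ
    have hQ0 : ∀ x ∈ Ω, 0 ≤ Q x := fun x hx => by
      have := (h.posC x hx).le
      positivity
    have hQc : ContinuousOn Q Ω :=
      hw.abs.mul ((continuousOn_const.mul h.contC).rpow_const fun x hx => Or.inr (by linarith only [hp]))
    obtain ⟨g, hg1, hg2, hg3, hg4, hg5⟩ := h.approx (fun x => |w x| + Q x) (hw.abs.add hQc)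
    refine ⟨g, hg1, fun x hx => ?_, ?_⟩
    · refine le_trans ?_ (hg2 x hx)
      gcongr
      have := hQ0 x hx
      have := le_abs_self (w x)
      (clear hΩ hp hw hp0 hQ hQc g hg1 hg2 hg3 hg4 hg5; linarith)
    · refine le_trans ?_ hg5
      refine setLIntegral_mono' hΩ.measurableSet fun x hx => ENNReal.ofReal_le_ofReal ?_
      set b := ‖fderiv ℝ g x - F x‖ with hb
      have hb0 : 0 ≤ b := norm_nonneg _
      have hC := (h.posC x hx).le
      have hbC : b ≤ 2 * C x := by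
        calc b ≤ ‖fderiv ℝ g x‖ + ‖F x‖ := norm_sub_le _ _
          _ ≤ 2 * C x := by linarith [hg3 x hx, h.bdF x hx]
      have hbp : b ^ p ≤ (2 * C x) ^ (p - 1) * b := by
        rcases hb0.eq_or_lt with h0 | h0
        · rw [← h0, Real.zero_rpow hp0.ne', mul_zero]
        · calc b ^ p = b ^ (p - 1) * b := by
                rw [← Real.rpow_add_one h0.ne']; congr 1; ring
            _ ≤ _ := by (clear * - h0 hbC hp; gcongr)
      calc w x * b ^ p ≤ |w x| * ((2 * C x) ^ (p - 1) * b) :=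
            mul_le_mul (le_abs_self _) hbp (by (clear * -; positivity)) (abs_nonneg _)
        _ = Q x * b := by simp only [hQ]; ring
        _ ≤ (|w x| + Q x) * b := by
            gcongr
            have := abs_nonneg (w x)
            linarith only [this]

/-- the derivative of the composition, as a measurable function -/
theorem exists_comp_deriv (hΩ : IsOpen Ω) (hf₁ : ContinuousOn f₁ Ω) (hF₁ : Measurable F₁)
    (hF₂ : Measurable F₂) : ∃ F : R3 → R3 →L[ℝ] R3, Measurable F ∧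
      ∀ x ∈ Ω, F x = (F₂ (f₁ x)).comp (F₁ x) := by
  classical
  have h1 : Measurable (Ω.piecewise f₁ 0) :=
    hf₁.measurable_piecewise continuousOn_const hΩ.measurableSet
  refine ⟨fun x => (F₂ (Ω.piecewise f₁ 0 x)).comp (F₁ x), ?_, fun x hx => ?_⟩
  · have hc : Continuous fun q : (R3 →L[ℝ] R3) × (R3 →L[ℝ] R3) => q.1.comp q.2 :=
      isBoundedBilinearMap_comp.continuous
    exact hc.measurable.comp ((hF₂.comp h1).prodMk hF₁)
  · simp only [piecewise_eq_of_mem _ _ _ hx]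

theorem Fine.compFineP (hΩ : IsOpen Ω) (hΩb : Bornology.IsBounded Ω) (hΛ : IsOpen Λ) {p : ℝ}
    (hp : 1 ≤ p) (h₁ : Fine Ω Λ f₁ F₁ C₁) (h₂ : FineP p Λ Ξ f₂ F₂) :
    ∃ F, FineP p Ω Ξ (f₂ ∘ f₁) F := by
  obtain ⟨F, hFm, hF⟩ := exists_comp_deriv hΩ h₁.homeo.2.1 h₁.meas h₂.meas
  refine ⟨F, h₁.homeo.comp h₂.homeo, hFm, fun w hw => ?_⟩
  obtain ⟨g₁, g₂, hg₁, hg₂, -, -, -, -, hc, hi⟩ := comp_core hΩ hΩb hΛ hp h₁ h₂.homeo h₂.meas
    (R := fun _ => True) (fun W hW => by
      obtain ⟨g, h3, h4, h5⟩ := h₂.approx W hW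
      exact ⟨g, h3, trivial, h4, h5⟩) hw (continuousOn_const (c := (0 : ℝ)))
  refine ⟨g₂ ∘ g₁, hg₁.comp hg₂, hc, ?_⟩
  refine le_trans (le_of_eq ?_) hi
  refine setLIntegral_congr_fun hΩ.measurableSet fun x hx => ?_
  simp only
  rw [hF x hx]

theorem Fine.comp (hΩ : IsOpen Ω) (hΩb : Bornology.IsBounded Ω) (hΛ : IsOpen Λ)
    (h₁ : Fine Ω Λ f₁ F₁ C₁) (h₂ : Fine Λ Ξ f₂ F₂ C₂) :
    ∃ F C, Fine Ω Ξ (f₂ ∘ f₁) F C := by
  obtain ⟨F, hFm, hF⟩ := exists_comp_deriv hΩ h₁.homeo.2.1 h₁.meas h₂.meas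
  have hf₁c := h₁.homeo.2.1
  have hm := h₁.homeo.1.mapsTo
  have hCf : ContinuousOn (fun x => C₂ (f₁ x)) Ω := h₂.contC.comp hf₁c hm
  have hC2 : ∀ x ∈ Ω, 0 < C₂ (f₁ x) := fun x hx => h₂.posC _ (hm hx)
  refine ⟨F, fun x => 2 * C₂ (f₁ x) * C₁ x, h₁.homeo.comp h₂.homeo, hFm,
    (continuousOn_const.mul hCf).mul h₁.contC, fun x hx => ?_, fun x hx => ?_, fun w hw => ?_⟩
  · have := hC2 x hx
    have := h₁.posC x hx
    (clear hΩ hΩb hΛ F hFm hF hf₁c hCf; positivity)
  · rw [hF x hx]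
    have e1 := hC2 x hx
    have e2 := h₁.posC x hx
    calc ‖(F₂ (f₁ x)).comp (F₁ x)‖ ≤ ‖F₂ (f₁ x)‖ * ‖F₁ x‖ :=
          ContinuousLinearMap.opNorm_comp_le _ _
      _ ≤ C₂ (f₁ x) * C₁ x := by
          have := h₂.bdF _ (hm hx)
          have := h₁.bdF x hx
          gcongr
      _ ≤ 2 * C₂ (f₁ x) * C₁ x := by
          have : 0 ≤ C₂ (f₁ x) * C₁ x := by (clear * - e1 e2; positivity)
          linarith only [this]
  · obtain ⟨w₀, hw₀c, -, hw₀⟩ := exists_weight hΩ hf₁c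
      (p := fun x y => C₂ y < 2 * C₂ (f₁ x)) (by
        intro a ha
        have hfa : f₁ a ∈ Λ := hm ha
        have t1 : Tendsto (fun q : R3 × R3 => q.1) (𝓝 (a, f₁ a)) (𝓝 a) :=
          continuous_fst.continuousAt
        have t2 : Tendsto (fun q : R3 × R3 => q.2) (𝓝 (a, f₁ a)) (𝓝 (f₁ a)) :=
          continuous_snd.continuousAt
        have c1 := ((h₂.contC.continuousAt (hΛ.mem_nhds hfa)).tendsto).comp t2
        have c2 := ((hCf.continuousAt (hΩ.mem_nhds ha)).tendsto).comp t1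
        exact c1.eventually_lt (c2.const_mul 2) (by
          have := hC2 a ha
          linarith))
    obtain ⟨g₁, g₂, hg₁, hg₂, ⟨hu₂, hl₂⟩, hcl, hu₁, hl₁, hc, hi⟩ :=
      comp_core hΩ hΩb hΛ le_rfl h₁ h₂.homeo h₂.meas
      (R := fun g => (∀ y ∈ Λ, ‖fderiv ℝ g y‖ ≤ C₂ y) ∧
        ∀ y ∈ Λ, ∀ v, ‖v‖ ≤ C₂ y * ‖fderiv ℝ g y v‖) (fun W hW => by
        obtain ⟨g, h3, h4, h5, h6, h7⟩ := h₂.approx W hW
        refine ⟨g, h3, ⟨h5, h6⟩, h4, ?_⟩
        simpa only [Real.rpow_one] using h7) hw hw₀c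
    have hC' : ∀ x ∈ Ω, C₂ (g₁ x) ≤ 2 * C₂ (f₁ x) := fun x hx =>
      (hw₀ x hx _ (hcl x hx)).le
    refine ⟨g₂ ∘ g₁, hg₁.comp hg₂, hc, fun x hx => ?_, fun x hx v => ?_, ?_⟩
    · rw [fderiv_comp_diffeo hΩ hΛ hg₁ hg₂ hx]
      have e0 := h₂.posC _ (hg₁.1.mapsTo hx)
      have e1 := hC2 x hx
      calc ‖(fderiv ℝ g₂ (g₁ x)).comp (fderiv ℝ g₁ x)‖
          ≤ ‖fderiv ℝ g₂ (g₁ x)‖ * ‖fderiv ℝ g₁ x‖ := ContinuousLinearMap.opNorm_comp_le _ _
        _ ≤ (2 * C₂ (f₁ x)) * C₁ x := by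
            gcongr
            · exact (hu₂ _ (hg₁.1.mapsTo hx)).trans (hC' x hx)
            · exact hu₁ x hx
        _ = _ := by ring
    · rw [fderiv_comp_diffeo hΩ hΛ hg₁ hg₂ hx]
      have e1 := hC2 x hx
      have e2 := h₁.posC x hx
      calc ‖v‖ ≤ C₁ x * ‖fderiv ℝ g₁ x v‖ := hl₁ x hx v
        _ ≤ C₁ x * (C₂ (g₁ x) * ‖fderiv ℝ g₂ (g₁ x) (fderiv ℝ g₁ x v)‖) := by
            gcongr
            exact hl₂ _ (hg₁.1.mapsTo hx) _
        _ ≤ C₁ x * (2 * C₂ (f₁ x) * ‖fderiv ℝ g₂ (g₁ x) (fderiv ℝ g₁ x v)‖) := by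
            gcongr
            exact hC' x hx
        _ = _ := by simp only [ContinuousLinearMap.comp_apply]; ring
    · refine le_trans (le_of_eq ?_) hi
      refine setLIntegral_congr_fun hΩ.measurableSet fun x hx => ?_
      simp only
      rw [hF x hx, Real.rpow_one]

end Vale.Agent.P073
end

section

/-!
# Fine approximation and weak derivatives
-/

set_option maxSynthPendingDepth 3

namespace Vale.Agent.P073

open MeasureTheory Set Filter Topology Metric
open scoped Real InnerProductSpace ContDiff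

variable {Ω Λ : Set R3} {f : R3 → R3} {F F' : R3 → R3 →L[ℝ] R3}

/-- product of a test function and a smooth map -/
theorem contDiff_smul_of_tsupport (hΩ : IsOpen Ω) {φ : R3 → ℝ} (hφ : ContDiff ℝ ∞ φ)
    (hs : tsupport φ ⊆ Ω) {g : R3 → R3} (hg : ContDiffOn ℝ ∞ g Ω) :
    ContDiff ℝ ∞ fun x => φ x • g x := by
  rw [contDiff_iff_contDiffAt]
  intro x
  by_cases hx : x ∈ Ω
  · exact hφ.contDiffAt.smul (hg.contDiffAt (hΩ.mem_nhds hx))
  · have hx' : x ∉ tsupport φ := fun h => hx (hs h)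
    have h1 : (fun x => φ x • g x) =ᶠ[𝓝 x] fun _ => (0 : R3) := by
      have h2 : (tsupport φ)ᶜ ∈ 𝓝 x := (isClosed_tsupport φ).isOpen_compl.mem_nhds hx'
      filter_upwards [h2] with y hy
      rw [image_eq_zero_of_notMem_tsupport hy, zero_smul]
    exact contDiffAt_const.congr_of_eventuallyEq h1

theorem integral_parts (hΩ : IsOpen Ω) {φ : R3 → ℝ} (hφ : ContDiff ℝ ∞ φ)
    (hc : HasCompactSupport φ) (hs : tsupport φ ⊆ Ω) {g : R3 → R3} (hg : ContDiffOn ℝ ∞ g Ω)
    (v : R3) :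
    ∫ x in Ω, φ x • fderiv ℝ g x v = - ∫ x in Ω, (fderiv ℝ φ x v) • g x := by
  set h : R3 → R3 := fun x => φ x • g x with hh
  have hcd : ContDiff ℝ ∞ h := contDiff_smul_of_tsupport hΩ hφ hs hg
  have hhc : HasCompactSupport h := hc.smul_right
  have hz : ∫ x, fderiv ℝ h x v = 0 := by
    have hi1 : Integrable (fun y => fderiv ℝ h y v) := by
      apply Continuous.integrable_of_hasCompactSupport
      · exact (hcd.continuous_fderiv (by simp)).clm_apply continuous_const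
      · exact hhc.fderiv_apply (𝕜 := ℝ) v
    have hi2 : Integrable h := hcd.continuous.integrable_of_hasCompactSupport hhc
    have := integral_smul_fderiv_eq_neg_fderiv_smul_of_integrable (μ := (volume : Measure R3))
      (𝕜 := ℝ) (f := fun _ => (1 : ℝ)) (g := h) (v := v) (by simp only [fderiv_fun_const, Pi.zero_apply, zero_apply, zero_smul, integrable_fun_zero]) (by simpa only [one_smul] using hi1)
      (by simpa only [one_smul] using hi2)
      (fun x _ => differentiableAt_const _) (fun x _ => (hcd.differentiable (by simp)) x)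
    simpa using this
  have hsub : ∀ x, x ∉ Ω → fderiv ℝ h x v = 0 := by
    intro x hx
    have hx' : x ∉ tsupport φ := fun h => hx (hs h)
    have h1 : h =ᶠ[𝓝 x] fun _ => (0 : R3) := by
      have h2 : (tsupport φ)ᶜ ∈ 𝓝 x := (isClosed_tsupport φ).isOpen_compl.mem_nhds hx'
      filter_upwards [h2] with y hy
      simp only [hh]
      rw [image_eq_zero_of_notMem_tsupport hy, zero_smul]
    rw [h1.fderiv_eq]; simp only [fderiv_fun_const, Pi.zero_apply, zero_apply]
  have hz' : ∫ x in Ω, fderiv ℝ h x v = 0 := by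
    rw [setIntegral_eq_integral_of_forall_compl_eq_zero hsub, hz]
  have hpt : ∀ x ∈ Ω, fderiv ℝ h x v = φ x • fderiv ℝ g x v + (fderiv ℝ φ x v) • g x := by
    intro x hx
    have d1 : HasFDerivAt φ (fderiv ℝ φ x) x := (hφ.differentiable (by simp) x).hasFDerivAt
    have d2 : HasFDerivAt g (fderiv ℝ g x) x :=
      ((hg.contDiffAt (hΩ.mem_nhds hx)).differentiableAt (by simp)).hasFDerivAt
    have d3 := d1.smul d2
    have : fderiv ℝ h x = _ := HasFDerivAt.fderiv d3
    rw [this]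
    simp only [add_apply, smul_apply, ContinuousLinearMap.smulRight_apply]
  have i1 : IntegrableOn (fun x => φ x • fderiv ℝ g x v) Ω := by
    have hcont : ContinuousOn (fun x => φ x • fderiv ℝ g x v) (tsupport φ) :=
      hφ.continuous.continuousOn.smul
        (((hg.continuousOn_fderiv_of_isOpen hΩ (by simp only [WithTop.one_le_coe, le_top])).mono hs).clm_apply continuousOn_const)
    have h1 : IntegrableOn (fun x => φ x • fderiv ℝ g x v) (tsupport φ) :=
      hcont.integrableOn_compact hc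
    refine ((integrableOn_iff_integrable_of_support_subset ?_).1 h1).integrableOn
    intro x hx
    by_contra hcon
    exact hx (by simp only [image_eq_zero_of_notMem_tsupport hcon, zero_smul])
  have i2 : IntegrableOn (fun x => (fderiv ℝ φ x v) • g x) Ω := by
    have hcont : ContinuousOn (fun x => (fderiv ℝ φ x v) • g x) (tsupport φ) :=
      ((hφ.continuous_fderiv (by simp)).clm_apply continuous_const).continuousOn.smul
        (hg.continuousOn.mono hs)
    have h1 : IntegrableOn (fun x => (fderiv ℝ φ x v) • g x) (tsupport φ) :=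
      hcont.integrableOn_compact hc
    refine ((integrableOn_iff_integrable_of_support_subset ?_).1 h1).integrableOn
    intro x hx
    by_contra hcon
    apply hx
    simp only
    have h2 : fderiv ℝ φ x = 0 := by
      by_contra h3
      exact hcon (support_fderiv_subset ℝ h3)
    rw [h2]; simp only [zero_apply, zero_smul]
  rw [setIntegral_congr_fun hΩ.measurableSet hpt, integral_add i1 i2] at hz'
  exact eq_neg_of_add_eq_zero_left hz'

theorem IsDiffeo.isWeakDeriv (hΩ : IsOpen Ω) {g : R3 → R3} (hg : IsDiffeo Ω Λ g) :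
    IsWeakDeriv Ω g (fderiv ℝ g) :=
  ⟨hg.2.1.continuousOn.locallyIntegrableOn hΩ.measurableSet,
    (hg.continuousOn_fderiv hΩ).locallyIntegrableOn hΩ.measurableSet,
    fun _ hφ hc hs v => integral_parts hΩ hφ hc hs hg.2.1 v⟩

/-- closeness in the mean of order one -/
theorem FineP.exists_close {p : ℝ} (h : FineP p Ω Λ f F) (hp : 1 ≤ p) (hΩ : IsOpen Ω)
    (hΩb : Bornology.IsBounded Ω) {η : ℝ} (hη : 0 < η) :
    ∃ g : R3 → R3, IsDiffeo Ω Λ g ∧ (∀ x ∈ Ω, ‖g x - f x‖ ≤ η) ∧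
      IntegrableOn (fun x => fderiv ℝ g x - F x) Ω ∧
      ∫ x in Ω, ‖fderiv ℝ g x - F x‖ ≤ η * (volume.real Ω + 1) := by
  have hp0 : 0 < p := by linarith
  obtain ⟨g, hg, hg1, hg2⟩ := h.approx (fun _ => max (η ^ (-p)) η⁻¹) continuousOn_const
  have hm : Measurable fun x => fderiv ℝ g x - F x := (measurable_fderiv ℝ g).sub h.meas
  have hvol : volume Ω ≠ ⊤ := hΩb.measure_lt_top.ne
  have hle : ∫⁻ x in Ω, ‖fderiv ℝ g x - F x‖ₑ ≤ ENNReal.ofReal (η * (volume.real Ω + 1)) := by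
    have hpt : ∀ x, ‖fderiv ℝ g x - F x‖ₑ ≤ ENNReal.ofReal η +
        ENNReal.ofReal η * ENNReal.ofReal (max (η ^ (-p)) η⁻¹ * ‖fderiv ℝ g x - F x‖ ^ p) := by
      intro x
      set t := ‖fderiv ℝ g x - F x‖ with ht
      have ht0 : 0 ≤ t := norm_nonneg _
      have h1 : ‖fderiv ℝ g x - F x‖ₑ = ENNReal.ofReal t := (ofReal_norm _).symm
      rw [h1, ← ENNReal.ofReal_mul hη.le, ← ENNReal.ofReal_add hη.le (by (clear * - hη; positivity))]
      apply ENNReal.ofReal_le_ofReal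
      rcases le_total t η with h2 | h2
      · have : 0 ≤ η * (max (η ^ (-p)) η⁻¹ * t ^ p) := by (clear * - hη; positivity)
        linarith only [h2, this]
      · have htp : 0 < t := hη.trans_le h2
        have h3 : 1 ≤ t / η := (one_le_div hη).2 h2
        have h4 : t / η ≤ (t / η) ^ p := by
          calc t / η = (t / η) ^ (1 : ℝ) := (Real.rpow_one _).symm
            _ ≤ (t / η) ^ p := Real.rpow_le_rpow_of_exponent_le h3 hp
        have h5 : (t / η) ^ p = η ^ (-p) * t ^ p := by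
          rw [Real.div_rpow ht0 hη.le, Real.rpow_neg hη.le]; field_simp
        have h6 : η ^ (-p) * t ^ p ≤ max (η ^ (-p)) η⁻¹ * t ^ p := by
          gcongr; exact le_max_left _ _
        calc t = η * (t / η) := by (clear * - hη htp; field_simp)
          _ ≤ η * (max (η ^ (-p)) η⁻¹ * t ^ p) := by
              gcongr
              linarith only [h4, h5, h6]
          _ ≤ _ := by linarith only [hη]
    calc ∫⁻ x in Ω, ‖fderiv ℝ g x - F x‖ₑ
        ≤ ∫⁻ x in Ω, (ENNReal.ofReal η + ENNReal.ofReal η *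
          ENNReal.ofReal (max (η ^ (-p)) η⁻¹ * ‖fderiv ℝ g x - F x‖ ^ p)) := lintegral_mono hpt
      _ = ENNReal.ofReal η * volume Ω + ENNReal.ofReal η *
          ∫⁻ x in Ω, ENNReal.ofReal (max (η ^ (-p)) η⁻¹ * ‖fderiv ℝ g x - F x‖ ^ p) := by
          rw [lintegral_add_left measurable_const, lintegral_const,
            Measure.restrict_apply MeasurableSet.univ, univ_inter,
            lintegral_const_mul' _ _ ENNReal.ofReal_ne_top]
      _ ≤ ENNReal.ofReal η * volume Ω + ENNReal.ofReal η * 1 := by gcongr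
      _ = ENNReal.ofReal (η * (volume.real Ω + 1)) := by
          rw [ENNReal.ofReal_mul hη.le, ENNReal.ofReal_add measureReal_nonneg zero_le_one,
            ENNReal.ofReal_one, Measure.real, ENNReal.ofReal_toReal hvol]
          ring
  have hint : IntegrableOn (fun x => fderiv ℝ g x - F x) Ω :=
    ⟨hm.aestronglyMeasurable, hle.trans_lt ENNReal.ofReal_lt_top⟩
  refine ⟨g, hg, fun x hx => ?_, hint, ?_⟩
  · have h1 := hg1 x hx
    have h2 : ‖g x - f x‖ * η⁻¹ ≤ 1 := by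
      refine le_trans ?_ h1
      gcongr
      exact le_max_right _ _
    rwa [mul_inv_le_iff₀ hη, one_mul] at h2
  · have h3 := integral_norm_eq_lintegral_enorm (μ := volume.restrict Ω)
      (f := fun x => fderiv ℝ g x - F x) hm.aestronglyMeasurable
    rw [h3]
    refine ENNReal.toReal_le_of_le_ofReal ?_ hle
    have : 0 ≤ volume.real Ω := measureReal_nonneg
    positivity

end Vale.Agent.P073
end

section

/-!
# Fine approximation gives diffeomorphic approximation in Sobolev spaces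
-/

set_option maxSynthPendingDepth 3

namespace Vale.Agent.P073

open MeasureTheory Set Filter Topology Metric
open scoped Real InnerProductSpace ContDiff

variable {Ω Λ : Set R3} {f : R3 → R3} {F F' : R3 → R3 →L[ℝ] R3} {p : ℝ}

theorem FineP.locallyIntegrableOn (h : FineP p Ω Λ f F) (hp : 1 ≤ p) (hΩ : IsOpen Ω)
    (hΩb : Bornology.IsBounded Ω) : LocallyIntegrableOn F Ω := by
  obtain ⟨g, hg, -, hi, -⟩ := h.exists_close hp hΩ hΩb one_pos
  have h1 : LocallyIntegrableOn (fderiv ℝ g) Ω :=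
    (hg.continuousOn_fderiv hΩ).locallyIntegrableOn hΩ.measurableSet
  have h2 : LocallyIntegrableOn (fun x => fderiv ℝ g x - F x) Ω := hi.locallyIntegrableOn
  have h3 := h1.sub h2
  have h4 : F = fderiv ℝ g - fun x => fderiv ℝ g x - F x := by
    ext x : 1
    simp
  rw [h4]
  exact h3

/-- the weak derivative of a finely approximable map -/
theorem FineP.weak (h : FineP p Ω Λ f F) (hp : 1 ≤ p) (hΩ : IsOpen Ω)
    (hΩb : Bornology.IsBounded Ω) : IsWeakDeriv Ω f F := by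
  have hFl := h.locallyIntegrableOn hp hΩ hΩb
  have hfl : LocallyIntegrableOn f Ω := h.homeo.2.1.locallyIntegrableOn hΩ.measurableSet
  refine ⟨hfl, hFl, fun φ hφ hc hs v => ?_⟩
  have hvol : volume Ω ≠ ⊤ := hΩb.measure_lt_top.ne
  obtain ⟨M1, hM1⟩ := hφ.continuous.bounded_above_of_compact_support hc
  have hφ'c : Continuous fun x => fderiv ℝ φ x v :=
    (hφ.continuous_fderiv (by simp)).clm_apply continuous_const
  have hφ's : HasCompactSupport fun x => fderiv ℝ φ x v := hc.fderiv_apply (𝕜 := ℝ) v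
  obtain ⟨M2, hM2⟩ := hφ'c.bounded_above_of_compact_support hφ's
  have hM10 : 0 ≤ M1 := (norm_nonneg _).trans (hM1 0)
  have hM20 : 0 ≤ M2 := (norm_nonneg _).trans (hM2 0)
  have hφs' : tsupport (fun x => fderiv ℝ φ x v) ⊆ Ω :=
    (tsupport_fderiv_apply_subset ℝ v).trans hs
  -- integrability
  have iF : IntegrableOn (fun x => φ x • F x v) Ω := by
    have h1 : IntegrableOn (fun x => φ x • F x) (tsupport φ) :=
      (hFl.integrableOn_compact_subset hs hc).continuousOn_smul hφ.continuous.continuousOn hc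
    have h2 : Integrable (fun x => φ x • F x) := by
      refine (integrableOn_iff_integrable_of_support_subset ?_).1 h1
      intro x hx
      by_contra hcon
      exact hx (by simp [image_eq_zero_of_notMem_tsupport hcon])
    have h3 := (ContinuousLinearMap.apply ℝ R3 v).integrable_comp h2
    exact h3.integrableOn
  have if' : IntegrableOn (fun x => (fderiv ℝ φ x v) • f x) Ω := by
    have h1 : IntegrableOn (fun x => (fderiv ℝ φ x v) • f x) (tsupport fun x => fderiv ℝ φ x v) :=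
      (hfl.integrableOn_compact_subset hφs' hφ's).continuousOn_smul hφ'c.continuousOn hφ's
    refine ((integrableOn_iff_integrable_of_support_subset ?_).1 h1).integrableOn
    intro x hx
    by_contra hcon
    apply hx
    simp only
    rw [image_eq_zero_of_notMem_tsupport hcon, zero_smul]
  have key : ∀ η : ℝ, 0 < η → ‖(∫ x in Ω, φ x • F x v) + ∫ x in Ω, (fderiv ℝ φ x v) • f x‖ ≤
      η * (M1 * ‖v‖ * (volume.real Ω + 1) + M2 * volume.real Ω) := by
    intro η hη
    obtain ⟨g, hg, hgf, hi, hle⟩ := h.exists_close hp hΩ hΩb hη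
    have hparts := integral_parts hΩ hφ hc hs hg.2.1 v
    have ig : IntegrableOn (fun x => φ x • fderiv ℝ g x v) Ω := by
      have h1 : Integrable (fun x => (fderiv ℝ g x - F x) v) (volume.restrict Ω) :=
        (ContinuousLinearMap.apply ℝ R3 v).integrable_comp hi
      have h2 : Integrable (fun x => φ x • (fderiv ℝ g x - F x) v) (volume.restrict Ω) := by
        refine h1.bdd_smul M1 hφ.continuous.aestronglyMeasurable (Eventually.of_forall hM1)
      have h3 : Integrable (fun x => φ x • F x v + φ x • (fderiv ℝ g x - F x) v)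
          (volume.restrict Ω) := iF.add h2
      refine h3.congr (Eventually.of_forall fun x => ?_)
      simp only [sub_apply, smul_sub]
      abel
    have ig' : IntegrableOn (fun x => (fderiv ℝ φ x v) • g x) Ω := by
      have h0 : LocallyIntegrableOn g Ω := hg.2.1.continuousOn.locallyIntegrableOn hΩ.measurableSet
      have h1 : IntegrableOn (fun x => (fderiv ℝ φ x v) • g x) (tsupport fun x => fderiv ℝ φ x v) :=
        (h0.integrableOn_compact_subset hφs' hφ's).continuousOn_smul hφ'c.continuousOn hφ's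
      refine ((integrableOn_iff_integrable_of_support_subset ?_).1 h1).integrableOn
      intro x hx
      by_contra hcon
      apply hx
      simp only
      rw [image_eq_zero_of_notMem_tsupport hcon, zero_smul]
    have e1 : (∫ x in Ω, φ x • F x v) + ∫ x in Ω, (fderiv ℝ φ x v) • f x =
        -(∫ x in Ω, φ x • (fderiv ℝ g x - F x) v) -
          ∫ x in Ω, (fderiv ℝ φ x v) • (g x - f x) := by
      have e2 : ∫ x in Ω, φ x • (fderiv ℝ g x - F x) v =
          (∫ x in Ω, φ x • fderiv ℝ g x v) - ∫ x in Ω, φ x • F x v := by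
        rw [← integral_sub ig iF]
        refine integral_congr_ae (Eventually.of_forall fun x => ?_)
        simp only [sub_apply, smul_sub]
      have e3 : ∫ x in Ω, (fderiv ℝ φ x v) • (g x - f x) =
          (∫ x in Ω, (fderiv ℝ φ x v) • g x) - ∫ x in Ω, (fderiv ℝ φ x v) • f x := by
        rw [← integral_sub ig' if']
        refine integral_congr_ae (Eventually.of_forall fun x => ?_)
        simp only [smul_sub]
      rw [e2, e3, hparts]
      abel
    rw [e1]
    have n1 : ‖∫ x in Ω, φ x • (fderiv ℝ g x - F x) v‖ ≤ M1 * ‖v‖ * (η * (volume.real Ω + 1)) := by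
      calc ‖∫ x in Ω, φ x • (fderiv ℝ g x - F x) v‖
          ≤ ∫ x in Ω, (M1 * ‖v‖) * ‖fderiv ℝ g x - F x‖ := by
            apply norm_integral_le_of_norm_le (hi.norm.const_mul _)
            refine Eventually.of_forall fun x => ?_
            rw [norm_smul]
            calc ‖φ x‖ * ‖(fderiv ℝ g x - F x) v‖ ≤ M1 * (‖fderiv ℝ g x - F x‖ * ‖v‖) := by
                  gcongr
                  · exact hM1 x
                  · exact (fderiv ℝ g x - F x).le_opNorm v
              _ = _ := by ring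
        _ = M1 * ‖v‖ * ∫ x in Ω, ‖fderiv ℝ g x - F x‖ := integral_const_mul _ _
        _ ≤ _ := by (clear * - hle hM10; gcongr)
    have n2 : ‖∫ x in Ω, (fderiv ℝ φ x v) • (g x - f x)‖ ≤ M2 * η * volume.real Ω := by
      refine norm_setIntegral_le_of_norm_le_const hΩb.measure_lt_top fun x hx => ?_
      rw [norm_smul]
      gcongr
      · exact hM2 x
      · exact hgf x hx
    calc ‖-(∫ x in Ω, φ x • (fderiv ℝ g x - F x) v) -
          ∫ x in Ω, (fderiv ℝ φ x v) • (g x - f x)‖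
        ≤ ‖∫ x in Ω, φ x • (fderiv ℝ g x - F x) v‖ +
          ‖∫ x in Ω, (fderiv ℝ φ x v) • (g x - f x)‖ := by
          refine (norm_sub_le _ _).trans ?_
          rw [norm_neg]
      _ ≤ M1 * ‖v‖ * (η * (volume.real Ω + 1)) + M2 * η * volume.real Ω := add_le_add n1 n2
      _ = _ := by ring
  have hzero : ‖(∫ x in Ω, φ x • F x v) + ∫ x in Ω, (fderiv ℝ φ x v) • f x‖ ≤ 0 := by
    set c := M1 * ‖v‖ * (volume.real Ω + 1) + M2 * volume.real Ω with hc
    have hc0 : 0 ≤ c := by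
      have : 0 ≤ volume.real Ω := measureReal_nonneg
      (clear * - hM10 hM20; positivity)
    apply le_of_forall_pos_le_add
    intro δ hδ
    refine (key (δ / (c + 1)) (by (clear * - hδ hM10 hM20; positivity))).trans ?_
    rw [zero_add, div_mul_eq_mul_div, div_le_iff₀ (by (clear * - hM10 hM20; positivity))]
    linarith
  exact eq_neg_of_add_eq_zero_left (norm_le_zero_iff.1 hzero)

/-- uniqueness of the weak derivative -/
theorem IsWeakDeriv.unique (hΩ : IsOpen Ω) (h : IsWeakDeriv Ω f F) (h' : IsWeakDeriv Ω f F') :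
    ∀ᵐ x ∂(volume.restrict Ω), F x = F' x := by
  have h1 : ∀ v : R3, ∀ᵐ x, x ∈ Ω → (F x - F' x) v = 0 := by
    intro v
    have hl : LocallyIntegrableOn (fun x => (F x - F' x) v) Ω := by
      have h2 := h.2.1.sub h'.2.1
      intro x hx
      obtain ⟨s, hs, hi⟩ := h2 x hx
      exact ⟨s, hs, (ContinuousLinearMap.apply ℝ R3 v).integrable_comp hi⟩
    refine hΩ.ae_eq_zero_of_integral_contDiff_smul_eq_zero hl fun φ hφ hc hs => ?_
    have e1 := h.2.2 φ hφ hc hs v
    have e2 := h'.2.2 φ hφ hc hs v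
    have aux : ∀ {H : R3 → R3 →L[ℝ] R3}, LocallyIntegrableOn H Ω →
        IntegrableOn (fun x => φ x • H x v) Ω := by
      intro H hH
      have h1 : IntegrableOn (fun x => φ x • H x) (tsupport φ) :=
        (hH.integrableOn_compact_subset hs hc).continuousOn_smul hφ.continuous.continuousOn hc
      have h2 : Integrable (fun x => φ x • H x) := by
        refine (integrableOn_iff_integrable_of_support_subset ?_).1 h1
        intro x hx
        by_contra hcon
        exact hx (by simp [image_eq_zero_of_notMem_tsupport hcon])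
      exact ((ContinuousLinearMap.apply ℝ R3 v).integrable_comp h2).integrableOn
    have e3 : ∫ x, φ x • (F x - F' x) v = ∫ x in Ω, φ x • (F x - F' x) v := by
      refine (setIntegral_eq_integral_of_forall_compl_eq_zero fun x hx => ?_).symm
      rw [image_eq_zero_of_notMem_tsupport fun h => hx (hs h), zero_smul]
    rw [e3]
    have e4 : ∫ x in Ω, φ x • (F x - F' x) v =
        (∫ x in Ω, φ x • F x v) - ∫ x in Ω, φ x • F' x v := by
      rw [← integral_sub (aux h.2.1) (aux h'.2.1)]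
      refine integral_congr_ae (Eventually.of_forall fun x => ?_)
      simp only [sub_apply, smul_sub]
    rw [e4, e1, e2, sub_self]
  rw [ae_restrict_iff' hΩ.measurableSet]
  have h2 : ∀ᵐ x, ∀ i : Fin 3, x ∈ Ω → (F x - F' x) (EuclideanSpace.single i 1) = 0 :=
    ae_all_iff.2 fun i => h1 _
  filter_upwards [h2] with x hx hxΩ
  rw [← sub_eq_zero]
  have hb : ∀ i, (F x - F' x) ((EuclideanSpace.basisFun (Fin 3) ℝ).toBasis i) = 0 := by
    intro i
    rw [OrthonormalBasis.coe_toBasis, EuclideanSpace.basisFun_apply]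
    exact hx i hxΩ
  have : ((F x - F' x : R3 →L[ℝ] R3) : R3 →ₗ[ℝ] R3) = 0 :=
    (EuclideanSpace.basisFun (Fin 3) ℝ).toBasis.ext fun i => by
      rw [LinearMap.zero_apply]; exact hb i
  ext v : 1
  exact congrArg (fun T : R3 →ₗ[ℝ] R3 => T v) this

end Vale.Agent.P073
end

section

/-!
# Fine approximation gives diffeomorphic approximation in Sobolev spaces, conclusion
-/

set_option maxSynthPendingDepth 3

namespace Vale.Agent.P073

open MeasureTheory Set Filter Topology Metric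
open scoped Real InnerProductSpace

variable {Ω Λ : Set R3} {f : R3 → R3} {F F' : R3 → R3 →L[ℝ] R3} {p : ℝ}

theorem frobNorm_nonneg_r (A : R3 →L[ℝ] R3) : 0 ≤ frobNorm A := Real.sqrt_nonneg _

theorem frobNorm_le_r (A : R3 →L[ℝ] R3) : frobNorm A ≤ 2 * ‖A‖ := by
  unfold frobNorm
  apply Real.sqrt_le_iff.2
  refine ⟨by positivity, ?_⟩
  have h : ∀ j : Fin 3, ‖A (EuclideanSpace.single j 1)‖ ^ 2 ≤ ‖A‖ ^ 2 := by
    intro j
    have := A.le_opNorm (EuclideanSpace.single j 1)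
    simp only [PiLp.norm_single, norm_one, mul_one] at this
    gcongr
  calc ∑ j : Fin 3, ‖A (EuclideanSpace.single j 1)‖ ^ 2 ≤ ∑ _j : Fin 3, ‖A‖ ^ 2 :=
        Finset.sum_le_sum fun j _ => h j
    _ = 3 * ‖A‖ ^ 2 := by simp only [Finset.sum_const, Finset.card_univ, Fintype.card_fin, nsmul_eq_mul, Nat.cast_ofNat]
    _ ≤ (2 * ‖A‖) ^ 2 := by nlinarith only []

theorem memLp_of_lintegral {V : Type*} [NormedAddCommGroup V] (hp : 1 ≤ p) {μ : Measure R3}
    {u : R3 → V} (hu : AEStronglyMeasurable u μ)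
    (h : ∫⁻ x, ENNReal.ofReal (‖u x‖ ^ p) ∂μ < ⊤) : MemLp u (ENNReal.ofReal p) μ := by
  have hp0 : 0 < p := by linarith
  refine ⟨hu, ?_⟩
  rw [eLpNorm_lt_top_iff_lintegral_rpow_enorm_lt_top (by simpa only [ne_eq, ENNReal.ofReal_eq_zero, not_le] using hp0) ENNReal.ofReal_ne_top,
    ENNReal.toReal_ofReal hp0.le]
  refine lt_of_le_of_lt (le_of_eq ?_) h
  refine lintegral_congr fun x => ?_
  rw [← ofReal_norm, ENNReal.ofReal_rpow_of_nonneg (norm_nonneg _) hp0.le]

theorem FineP.approximable (h : FineP p Ω Λ f F) (hp : 1 ≤ p) (hΩ : IsOpen Ω)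
    (hΩb : Bornology.IsBounded Ω) (hS : IsSobolev p Ω f F') :
    DiffeoApproximable p Ω Λ f F' := by
  have hp0 : 0 < p := by linarith
  have hae := (h.weak hp hΩ hΩb).unique hΩ hS.1
  have hvol : volume Ω ≠ ⊤ := hΩb.measure_lt_top.ne
  have happ := fun j : ℕ => h.approx (fun _ => (j : ℝ) + 1) continuousOn_const
  choose g hg1 hg2 hg3 using happ
  have hclose : ∀ j, ∀ x ∈ Ω, ‖g j x - f x‖ ≤ 1 / ((j : ℝ) + 1) := by
    intro j x hx
    rw [le_div_iff₀ (by (clear * -; positivity))]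
    exact hg2 j x hx
  have hint : ∀ j, ∫⁻ x in Ω, ENNReal.ofReal (‖fderiv ℝ (g j) x - F' x‖ ^ p) ≤
      ENNReal.ofReal (1 / ((j : ℝ) + 1)) := by
    intro j
    have e1 : ∫⁻ x in Ω, ENNReal.ofReal (‖fderiv ℝ (g j) x - F' x‖ ^ p) =
        ∫⁻ x in Ω, ENNReal.ofReal (‖fderiv ℝ (g j) x - F x‖ ^ p) := by
      refine lintegral_congr_ae ?_
      filter_upwards [hae] with x hx
      rw [hx]
    have e2 := hg3 j
    have e3 : ∫⁻ x in Ω, ENNReal.ofReal (((j : ℝ) + 1) * ‖fderiv ℝ (g j) x - F x‖ ^ p) =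
        ENNReal.ofReal ((j : ℝ) + 1) *
          ∫⁻ x in Ω, ENNReal.ofReal (‖fderiv ℝ (g j) x - F x‖ ^ p) := by
      rw [← lintegral_const_mul' _ _ ENNReal.ofReal_ne_top]
      refine lintegral_congr fun x => ?_
      rw [ENNReal.ofReal_mul (by (clear * -; positivity))]
    rw [e3] at e2
    rw [e1, one_div, ENNReal.ofReal_inv_of_pos (by (clear * -; positivity))]
    rw [ENNReal.le_inv_iff_mul_le, mul_comm]
    exact e2
  refine ⟨g, fun j => ⟨hg1 j, (hg1 j).isWeakDeriv hΩ, ?_, ?_⟩, ?_⟩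
  · -- the map
    have hm : AEStronglyMeasurable (fun x => g j x - f x) (volume.restrict Ω) :=
      ((hg1 j).2.1.continuousOn.sub h.homeo.2.1).aestronglyMeasurable hΩ.measurableSet
    have h1 : MemLp (fun x => g j x - f x) (ENNReal.ofReal p) (volume.restrict Ω) := by
      have : IsFiniteMeasure (volume.restrict Ω) := ⟨by
        rw [Measure.restrict_apply MeasurableSet.univ, univ_inter]; exact hΩb.measure_lt_top⟩
      refine MemLp.of_bound hm (1 / ((j : ℝ) + 1)) ?_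
      exact (ae_restrict_iff' hΩ.measurableSet).2 (Eventually.of_forall fun x hx => hclose j x hx)
    have h2 := hS.2.1.add h1
    refine h2.ae_eq (Eventually.of_forall fun x => ?_)
    simp
  · have hm : AEStronglyMeasurable (fun x => fderiv ℝ (g j) x - F' x) (volume.restrict Ω) :=
      (measurable_fderiv ℝ (g j)).aestronglyMeasurable.sub hS.2.2.1
    have h1 : MemLp (fun x => fderiv ℝ (g j) x - F' x) (ENNReal.ofReal p) (volume.restrict Ω) :=
      memLp_of_lintegral hp hm ((hint j).trans_lt ENNReal.ofReal_lt_top)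
    have h2 := hS.2.2.add h1
    refine h2.ae_eq (Eventually.of_forall fun x => ?_)
    simp only [Pi.add_apply, add_sub_cancel]
  · -- convergence
    have hbound : ∀ j, ∫⁻ x in Ω, ENNReal.ofReal (‖g j x - f x‖ ^ p +
        frobNorm (fderiv ℝ (g j) x - F' x) ^ p) ≤
        ENNReal.ofReal (1 / ((j : ℝ) + 1)) * (volume Ω + ENNReal.ofReal (2 ^ p)) := by
      intro j
      have hj1 : 1 / ((j : ℝ) + 1) ≤ 1 := by
        rw [div_le_one₀ (by (clear * -; positivity))]
        have : (0 : ℝ) ≤ j := Nat.cast_nonneg j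
        linarith only []
      have hpt : ∀ x ∈ Ω, ENNReal.ofReal (‖g j x - f x‖ ^ p +
          frobNorm (fderiv ℝ (g j) x - F' x) ^ p) ≤ ENNReal.ofReal (1 / ((j : ℝ) + 1)) +
          ENNReal.ofReal (2 ^ p) * ENNReal.ofReal (‖fderiv ℝ (g j) x - F' x‖ ^ p) := by
        intro x hx
        rw [← ENNReal.ofReal_mul (by positivity), ← ENNReal.ofReal_add (by (clear * -; positivity))
          (by (clear * -; positivity))]
        apply ENNReal.ofReal_le_ofReal
        apply add_le_add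
        · have h1 : ‖g j x - f x‖ ≤ 1 := (hclose j x hx).trans hj1
          calc ‖g j x - f x‖ ^ p ≤ ‖g j x - f x‖ ^ (1 : ℝ) :=
                Real.rpow_le_rpow_of_exponent_ge' (norm_nonneg _) h1 zero_le_one hp
            _ = ‖g j x - f x‖ := Real.rpow_one _
            _ ≤ _ := hclose j x hx
        · rw [← Real.mul_rpow (by norm_num) (norm_nonneg _)]
          exact Real.rpow_le_rpow (frobNorm_nonneg_r _) (frobNorm_le_r _) hp0.le
      calc ∫⁻ x in Ω, ENNReal.ofReal (‖g j x - f x‖ ^ p +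
            frobNorm (fderiv ℝ (g j) x - F' x) ^ p)
          ≤ ∫⁻ x in Ω, (ENNReal.ofReal (1 / ((j : ℝ) + 1)) +
            ENNReal.ofReal (2 ^ p) * ENNReal.ofReal (‖fderiv ℝ (g j) x - F' x‖ ^ p)) :=
            setLIntegral_mono' hΩ.measurableSet hpt
        _ = ENNReal.ofReal (1 / ((j : ℝ) + 1)) * volume Ω + ENNReal.ofReal (2 ^ p) *
            ∫⁻ x in Ω, ENNReal.ofReal (‖fderiv ℝ (g j) x - F' x‖ ^ p) := by
            rw [lintegral_add_left measurable_const, lintegral_const,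
              Measure.restrict_apply MeasurableSet.univ, univ_inter,
              lintegral_const_mul' _ _ ENNReal.ofReal_ne_top]
        _ ≤ ENNReal.ofReal (1 / ((j : ℝ) + 1)) * volume Ω + ENNReal.ofReal (2 ^ p) *
            ENNReal.ofReal (1 / ((j : ℝ) + 1)) := by gcongr; exact hint j
        _ = _ := by ring
    have hlim : Tendsto (fun j : ℕ => ENNReal.ofReal (1 / ((j : ℝ) + 1)) *
        (volume Ω + ENNReal.ofReal (2 ^ p))) atTop (𝓝 0) := by
      have h1 : Tendsto (fun j : ℕ => ENNReal.ofReal (1 / ((j : ℝ) + 1))) atTop (𝓝 0) := by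
        have := ENNReal.tendsto_ofReal (tendsto_one_div_add_atTop_nhds_zero_nat (𝕜 := ℝ))
        simpa only [one_div, ENNReal.ofReal_zero] using this
      have h2 := ENNReal.Tendsto.mul_const (b := volume Ω + ENNReal.ofReal (2 ^ p)) h1
        (Or.inr (ENNReal.add_ne_top.2 ⟨hvol, ENNReal.ofReal_ne_top⟩))
      simpa only [one_div, zero_mul] using h2
    exact tendsto_of_tendsto_of_tendsto_of_le_of_le tendsto_const_nhds hlim
      (fun _ => zero_le) hbound

end Vale.Agent.P073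
end

section

/-!
# P073: the convex cone condition
-/

namespace Vale.Agent.P073

open MeasureTheory Set
open scoped ContDiff

/-- The convex cone condition for a map `f` of `Ω` onto `Λ` with weak derivative matrix `F`.
There are a convex cone `C` of matrices which is uniformly transversal to `-1`
(`‖v‖ ≤ K ‖v + M v‖` for all `M` in `C`), a smooth field `A` of invertible matrices on `Ω` and a
smooth function `b (x, y)` on `Ω × Λ`, injective and immersive in `y`, such that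
`D_y b (x, f x) ∘ F x ∘ A x` belongs to `C` for almost every `x`. -/
def ConeCondition (Ω Λ : Set E3) (f : E3 → E3) (F : E3 → (E3 →L[ℝ] E3)) : Prop :=
  ∃ (C : ConvexCone ℝ (E3 →L[ℝ] E3)) (K : ℝ) (A : E3 → (E3 →L[ℝ] E3)) (b : E3 → E3 → E3),
    (∀ M ∈ C, ∀ v : E3, ‖v‖ ≤ K * ‖v + M v‖) ∧
    ContDiffOn ℝ ∞ A Ω ∧ (∀ x ∈ Ω, Function.Injective (A x)) ∧
    ContDiffOn ℝ ∞ (Function.uncurry b) (Ω ×ˢ Λ) ∧ (∀ x ∈ Ω, InjOn (b x) Λ) ∧
    (∀ x ∈ Ω, ∀ y ∈ Λ, Function.Injective (fderiv ℝ (b x) y)) ∧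
    ∀ᵐ x ∂(volume.restrict Ω), ((fderiv ℝ (b x) (f x)).comp (F x)).comp (A x) ∈ C

end Vale.Agent.P073
end

section

/-!
# Generated maps are finely approximable
-/

set_option maxSynthPendingDepth 3

namespace Vale.Agent.P073

open MeasureTheory Set Filter Topology Metric

theorem SmallDistortionAt.mono {K K' : ℝ} {f : E3 → E3} {a : E3} (h : SmallDistortionAt K f a)
    (hK : K ≤ K') : SmallDistortionAt K' f a := by
  obtain ⟨U, hU, S, T, hST⟩ := h
  refine ⟨U, hU, S, T, fun x hx y hy => ⟨(hST x hx y hy).1, (hST x hx y hy).2.trans ?_⟩⟩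
  (clear * - hK; gcongr)

theorem Generated.fine {Ω Λ : Set E3} {f : E3 → E3} (h : Generated Ω Λ f) :
    IsBoundedDomain Ω ∧ IsBoundedDomain Λ ∧ ∃ F C, Fine Ω Λ f F C := by
  induction h with
  | @base Ω Λ f K hΩ hΛ hf hK hloc =>
    refine ⟨hΩ, hΛ, fine_of_local hΩ.1 hΩ.2.2 hΛ.1 hΛ.2.1.isPreconnected hΛ.2.2 hf
      (le_max_right K 0) ?_ fun a ha => (hloc a ha).imp (fun h => h.mono (le_max_left _ _)) id⟩
    have h1 : max K 0 < Real.sqrt 5 := max_lt hK (Real.sqrt_pos.2 (by norm_num))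
    calc max K 0 ^ 2 < Real.sqrt 5 ^ 2 := by
          have : 0 ≤ max K 0 := le_max_right _ _
          (clear * - h1; gcongr)
      _ = 5 := Real.sq_sqrt (by norm_num)
  | comp _ _ ih₁ ih₂ =>
    obtain ⟨hΩ, hΛ, F₁, C₁, h₁⟩ := ih₁
    obtain ⟨-, hΞ, F₂, C₂, h₂⟩ := ih₂
    exact ⟨hΩ, hΞ, h₁.comp hΩ.1 hΩ.2.2 hΛ.1 h₂⟩

end Vale.Agent.P073
end

section

/-!
# P073: a scaled family of mollifiers
-/

set_option linter.unusedSectionVars false

namespace Vale.Agent.P073

open MeasureTheory Set Filter Topology Metric Module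
open scoped ENNReal ContDiff

section

variable {E : Type*} [NormedAddCommGroup E] [InnerProductSpace ℝ E] [FiniteDimensional ℝ E]
  [MeasurableSpace E] [BorelSpace E] (μ : Measure E) [μ.IsAddHaarMeasure]

/-- A fixed bump function of the unit ball. -/
noncomputable def baseBump (E : Type*) [NormedAddCommGroup E] : ContDiffBump (0 : E) :=
  ⟨1 / 2, 1, by norm_num, by norm_num⟩

/-- The normalized mollifier of scale `ε`. -/
noncomputable def eta (ε : ℝ) (z : E) : ℝ :=
  (ε ^ finrank ℝ E)⁻¹ * (baseBump E).normed μ (ε⁻¹ • z)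

theorem eta_nonneg {ε : ℝ} (hε : 0 ≤ ε) (z : E) : 0 ≤ eta μ ε z := by
  unfold eta
  have := (baseBump E).nonneg_normed (μ := μ) (ε⁻¹ • z)
  positivity

theorem contDiff_eta (ε : ℝ) {n : ℕ∞} : ContDiff ℝ n (eta (E := E) μ ε) := by
  unfold eta
  exact contDiff_const.mul ((baseBump E).contDiff_normed.comp (contDiff_const_smul _))

theorem support_eta {ε : ℝ} (hε : 0 < ε) : Function.support (eta (E := E) μ ε) = ball 0 ε := by
  ext z
  have h := (baseBump E).support_normed_eq (μ := μ)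
  have h2 : (ε⁻¹ • z ∈ Function.support ((baseBump E).normed μ)) ↔ ε⁻¹ • z ∈ ball (0 : E) 1 := by
    rw [h]; rfl
  rw [Function.mem_support] at h2 ⊢
  unfold eta
  rw [mul_ne_zero_iff]
  constructor
  · rintro ⟨-, h3⟩
    have h4 := h2.1 h3
    rw [mem_ball_zero_iff, norm_smul, norm_inv, Real.norm_of_nonneg hε.le] at h4
    rw [mem_ball_zero_iff]
    rwa [inv_mul_lt_iff₀ hε, mul_one] at h4
  · intro h3
    refine ⟨by positivity, h2.2 ?_⟩
    rw [mem_ball_zero_iff] at h3 ⊢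
    rw [norm_smul, norm_inv, Real.norm_of_nonneg hε.le, inv_mul_lt_iff₀ hε, mul_one]
    exact h3

theorem tsupport_eta {ε : ℝ} (hε : 0 < ε) : tsupport (eta (E := E) μ ε) ⊆ closedBall 0 ε := by
  rw [tsupport, support_eta μ hε]
  exact closure_ball_subset_closedBall

theorem hasCompactSupport_eta {ε : ℝ} (hε : 0 < ε) : HasCompactSupport (eta (E := E) μ ε) :=
  HasCompactSupport.of_support_subset_isCompact (isCompact_closedBall 0 ε)
    ((subset_tsupport _).trans (tsupport_eta μ hε))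

theorem eta_eq_zero {ε : ℝ} (hε : 0 < ε) {z : E} (hz : ε ≤ ‖z‖) : eta μ ε z = 0 := by
  by_contra h
  have : z ∈ Function.support (eta (E := E) μ ε) := h
  rw [support_eta μ hε, mem_ball_zero_iff] at this
  linarith only [hz, this]

theorem integral_eta {ε : ℝ} (hε : 0 < ε) : ∫ z, eta μ ε z ∂μ = 1 := by
  unfold eta
  rw [integral_const_mul]
  have := Measure.integral_comp_smul μ (fun z => (baseBump E).normed μ z) (ε⁻¹)
  rw [this, (baseBump E).integral_normed]
  rw [inv_pow, inv_inv, abs_of_pos (by positivity), smul_eq_mul, mul_one]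
  exact inv_mul_cancel₀ (by positivity)

theorem integrable_eta {ε : ℝ} (hε : 0 < ε) : Integrable (eta (E := E) μ ε) μ :=
  ((contDiff_eta μ ε (n := 0)).continuous).integrable_of_hasCompactSupport
    (hasCompactSupport_eta μ hε)

/-- the constant controlling the `L^1` norm of the gradient of the mollifiers -/
noncomputable def etaC : ℝ := ∫ z, ‖fderiv ℝ ((baseBump E).normed μ) z‖ ∂μ

theorem etaC_nonneg : 0 ≤ etaC (E := E) μ := integral_nonneg fun _ => norm_nonneg _

theorem fderiv_eta (ε : ℝ) (z : E) :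
    fderiv ℝ (eta μ ε) z =
      ((ε ^ finrank ℝ E)⁻¹ * ε⁻¹) • fderiv ℝ ((baseBump E).normed μ) (ε⁻¹ • z) := by
  have hd : DifferentiableAt ℝ ((baseBump E).normed μ) (ε⁻¹ • z) :=
    ((baseBump E).contDiff_normed (n := 1)).differentiable (by norm_num) _
  have h1 : HasFDerivAt (fun z : E => ε⁻¹ • z) (ε⁻¹ • ContinuousLinearMap.id ℝ E) z :=
    (hasFDerivAt_id z).const_smul ε⁻¹
  have h2 := (hd.hasFDerivAt.comp z h1).const_mul ((ε ^ finrank ℝ E)⁻¹)
  have h3 : HasFDerivAt (eta μ ε) ((ε ^ finrank ℝ E)⁻¹ • (fderiv ℝ ((baseBump E).normed μ)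
      (ε⁻¹ • z)).comp (ε⁻¹ • ContinuousLinearMap.id ℝ E)) z := h2
  rw [h3.fderiv]
  ext v
  simp only [ContinuousLinearMap.comp_smulₛₗ, map_inv₀, Real.ringHom_apply, ContinuousLinearMap.comp_id, smul_apply, smul_eq_mul, mul_assoc]

theorem integral_norm_fderiv_eta {ε : ℝ} (hε : 0 < ε) :
    ∫ z, ‖fderiv ℝ (eta (E := E) μ ε) z‖ ∂μ = etaC (E := E) μ / ε := by
  simp_rw [fderiv_eta, norm_smul]
  rw [integral_const_mul]
  have := Measure.integral_comp_smul μ (fun z => ‖fderiv ℝ ((baseBump E).normed μ) z‖) (ε⁻¹)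
  rw [this]
  unfold etaC
  rw [inv_pow, inv_inv, abs_of_pos (by (clear * - hε; positivity)), smul_eq_mul, Real.norm_of_nonneg (by positivity)]
  field_simp

theorem continuous_fderiv_eta (ε : ℝ) : Continuous (fderiv ℝ (eta (E := E) μ ε)) :=
  (contDiff_eta μ ε (n := 1)).continuous_fderiv (by norm_num)

theorem fderiv_eta_eq_zero {ε : ℝ} (hε : 0 < ε) {z : E} (hz : ε < ‖z‖) :
    fderiv ℝ (eta μ ε) z = 0 := by
  have hz' : z ∉ tsupport (eta (E := E) μ ε) := fun h => by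
    have := tsupport_eta μ hε h
    rw [mem_closedBall_zero_iff] at this
    linarith only [hz, this]
  exact fderiv_of_notMem_tsupport ℝ hz'

theorem hasCompactSupport_fderiv_eta {ε : ℝ} (hε : 0 < ε) :
    HasCompactSupport (fderiv ℝ (eta (E := E) μ ε)) :=
  (hasCompactSupport_eta μ hε).fderiv (𝕜 := ℝ)

theorem integrable_norm_fderiv_eta {ε : ℝ} (hε : 0 < ε) :
    Integrable (fun z => ‖fderiv ℝ (eta (E := E) μ ε) z‖) μ :=
  ((continuous_fderiv_eta μ ε).integrable_of_hasCompactSupport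
    (hasCompactSupport_fderiv_eta μ hε)).norm

end

end Vale.Agent.P073
end

section

/-!
# P073: mollification of functions with weak derivatives
-/

set_option linter.unusedSectionVars false
set_option maxSynthPendingDepth 3

namespace Vale.Agent.P073

open MeasureTheory Set Filter Topology Metric Module
open scoped ENNReal ContDiff

section

variable {E : Type*} [NormedAddCommGroup E] [InnerProductSpace ℝ E] [FiniteDimensional ℝ E]
  [MeasurableSpace E] [BorelSpace E] (μ : Measure E) [μ.IsAddHaarMeasure]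
  {G : Type*} [NormedAddCommGroup G] [NormedSpace ℝ G] [CompleteSpace G]

/-- `U` is the weak derivative of `u` on `Ω`. -/
def HasWeakDerivOn (μ : Measure E) (Ω : Set E) (u : E → G) (U : E → (E →L[ℝ] G)) : Prop :=
  LocallyIntegrableOn u Ω μ ∧ LocallyIntegrableOn U Ω μ ∧
    ∀ φ : E → ℝ, ContDiff ℝ ∞ φ → HasCompactSupport φ → tsupport φ ⊆ Ω → ∀ v : E,
      ∫ x in Ω, φ x • U x v ∂μ = - ∫ x in Ω, (fderiv ℝ φ x v) • u x ∂μ

/-- Mollification at scale `ε`. -/
noncomputable def moll (ε : ℝ) (u : E → G) (x : E) : G := ∫ y, eta μ ε (x - y) • u y ∂μ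

theorem moll_eq_convolution (ε : ℝ) (u : E → G) :
    moll μ ε u = MeasureTheory.convolution u (eta μ ε)
      (ContinuousLinearMap.lsmul ℝ ℝ : ℝ →L[ℝ] G →L[ℝ] G).flip μ := by
  ext x
  rfl

theorem contDiff_moll {ε : ℝ} (hε : 0 < ε) {u : E → G} (hu : LocallyIntegrable u μ) :
    ContDiff ℝ ∞ (moll μ ε u) := by
  rw [moll_eq_convolution]
  exact (hasCompactSupport_eta μ hε).contDiff_convolution_right _ hu (contDiff_eta μ ε)

theorem fderiv_moll_apply {ε : ℝ} (hε : 0 < ε) {u : E → G} (hu : LocallyIntegrable u μ)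
    (x v : E) :
    fderiv ℝ (moll μ ε u) x v = ∫ y, (fderiv ℝ (eta μ ε) (x - y) v) • u y ∂μ := by
  rw [moll_eq_convolution]
  have h := (hasCompactSupport_eta μ hε).hasFDerivAt_convolution_right
    (ContinuousLinearMap.lsmul ℝ ℝ : ℝ →L[ℝ] G →L[ℝ] G).flip hu (contDiff_eta μ ε (n := 1)) x
  rw [h.fderiv, convolution_precompR_apply _ hu (hasCompactSupport_fderiv_eta μ hε)
    (continuous_fderiv_eta μ ε)]
  rfl

theorem moll_congr {ε : ℝ} (hε : 0 < ε) {u w : E → G} {x : E} (h : ∀ y ∈ ball x ε, u y = w y) :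
    moll μ ε u x = moll μ ε w x := by
  unfold moll
  congr 1
  ext y
  by_cases hy : y ∈ ball x ε
  · rw [h y hy]
  · rw [eta_eq_zero μ hε, zero_smul, zero_smul]
    rw [mem_ball, not_lt, dist_comm, dist_eq_norm] at hy
    exact hy

theorem integral_eta_sub {ε : ℝ} (hε : 0 < ε) (x : E) : ∫ y, eta μ ε (x - y) ∂μ = 1 := by
  rw [integral_sub_left_eq_self (fun z => eta μ ε z) μ x]
  exact integral_eta μ hε

theorem continuous_eta_sub (ε : ℝ) (x : E) : Continuous fun y => eta μ ε (x - y) :=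
  (contDiff_eta μ ε (n := 0)).continuous.comp (continuous_const.sub continuous_id)

theorem contDiff_eta_sub (ε : ℝ) (x : E) {n : ℕ∞} : ContDiff ℝ n fun y => eta μ ε (x - y) :=
  (contDiff_eta μ ε).comp (contDiff_const.sub contDiff_id)

theorem tsupport_eta_sub {ε : ℝ} (hε : 0 < ε) (x : E) :
    tsupport (fun y => eta μ ε (x - y)) ⊆ closedBall x ε := by
  apply closure_minimal _ isClosed_closedBall
  intro y hy
  by_contra h
  apply hy
  rw [mem_closedBall, not_le, dist_comm, dist_eq_norm] at h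
  exact eta_eq_zero μ hε h.le

theorem hasCompactSupport_eta_sub {ε : ℝ} (hε : 0 < ε) (x : E) :
    HasCompactSupport (fun y => eta μ ε (x - y)) :=
  HasCompactSupport.of_support_subset_isCompact (isCompact_closedBall x ε)
    ((subset_tsupport _).trans (tsupport_eta_sub μ hε x))

theorem integrable_eta_sub {ε : ℝ} (hε : 0 < ε) (x : E) :
    Integrable (fun y => eta μ ε (x - y)) μ :=
  (continuous_eta_sub μ ε x).integrable_of_hasCompactSupport (hasCompactSupport_eta_sub μ hε x)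

/-- A weighted integral against the mollifier is integrable. -/
theorem integrable_eta_smul {ε : ℝ} (hε : 0 < ε) {x : E} {w : E → G}
    (hw : IntegrableOn w (closedBall x ε) μ) :
    Integrable (fun y => eta μ ε (x - y) • w y) μ := by
  have h1 : IntegrableOn (fun y => eta μ ε (x - y) • w y) (closedBall x ε) μ :=
    hw.continuousOn_smul (continuous_eta_sub μ ε x).continuousOn (isCompact_closedBall x ε)
  refine (integrableOn_iff_integrable_of_support_subset ?_).1 h1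
  intro y hy
  by_contra h
  apply hy
  rw [mem_closedBall, not_le, dist_comm, dist_eq_norm] at h
  show eta μ ε (x - y) • w y = 0
  rw [eta_eq_zero μ hε h.le, zero_smul]

theorem norm_integral_eta_smul_le {ε : ℝ} (hε : 0 < ε) {x : E} {w : E → G} {s : ℝ}
    (hs : ∀ y ∈ ball x ε, ‖w y‖ ≤ s) :
    ‖∫ y, eta μ ε (x - y) • w y ∂μ‖ ≤ s := by
  have h1 : ‖∫ y, eta μ ε (x - y) • w y ∂μ‖ ≤ ∫ y, eta μ ε (x - y) * s ∂μ := by
    apply norm_integral_le_of_norm_le ((integrable_eta_sub μ hε x).mul_const s)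
    refine Eventually.of_forall fun y => ?_
    rw [norm_smul, Real.norm_of_nonneg (eta_nonneg μ hε.le _)]
    by_cases hy : y ∈ ball x ε
    · exact mul_le_mul_of_nonneg_left (hs y hy) (eta_nonneg μ hε.le _)
    · rw [mem_ball, not_lt, dist_comm, dist_eq_norm] at hy
      rw [eta_eq_zero μ hε hy, zero_mul, zero_mul]
  rwa [integral_mul_const, integral_eta_sub μ hε, one_mul] at h1

theorem moll_sub_eq {ε : ℝ} (hε : 0 < ε) {u : E → G} {x : E} (c : G)
    (hu : IntegrableOn u (closedBall x ε) μ) :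
    moll μ ε u x - c = ∫ y, eta μ ε (x - y) • (u y - c) ∂μ := by
  have h1 : c = ∫ y, eta μ ε (x - y) • c ∂μ := by
    rw [integral_smul_const, integral_eta_sub μ hε, one_smul]
  conv_lhs => rw [h1]
  unfold moll
  rw [← integral_sub (integrable_eta_smul μ hε hu)
    ((integrable_eta_sub μ hε x).smul_const c)]
  simp_rw [smul_sub]

theorem norm_moll_sub_le {ε : ℝ} (hε : 0 < ε) {u : E → G} {x : E} {c : G} {s : ℝ}
    (hu : IntegrableOn u (closedBall x ε) μ) (hs : ∀ y ∈ ball x ε, ‖u y - c‖ ≤ s) :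
    ‖moll μ ε u x - c‖ ≤ s := by
  rw [moll_sub_eq μ hε c hu]
  exact norm_integral_eta_smul_le μ hε hs

theorem fderiv_eta_sub (ε : ℝ) (x y v : E) :
    fderiv ℝ (fun y => eta μ ε (x - y)) y v = - fderiv ℝ (eta μ ε) (x - y) v := by
  have hd : DifferentiableAt ℝ (eta μ ε) (x - y) :=
    (contDiff_eta μ ε (n := 1)).differentiable (by norm_num) _
  have h1 : HasFDerivAt (fun y : E => x - y) (-ContinuousLinearMap.id ℝ E) y := by
    simpa using (hasFDerivAt_id y).const_sub x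
  have h2 := hd.hasFDerivAt.comp y h1
  have h3 : HasFDerivAt (fun y => eta μ ε (x - y))
      ((fderiv ℝ (eta μ ε) (x - y)).comp (-ContinuousLinearMap.id ℝ E)) y := h2
  rw [h3.fderiv]
  simp only [ContinuousLinearMap.comp_neg, ContinuousLinearMap.comp_id, neg_apply]

/-- Restriction of the weak derivative identity to a compactly supported test function, written
with integrals over the whole space. -/
theorem HasWeakDerivOn.integral_eq {Ω : Set E} {u : E → G}
    {U : E → (E →L[ℝ] G)} (h : HasWeakDerivOn μ Ω u U) {φ : E → ℝ} (hφ : ContDiff ℝ ∞ φ)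
    (hc : HasCompactSupport φ) (hs : tsupport φ ⊆ Ω) (v : E) :
    ∫ x, φ x • U x v ∂μ = - ∫ x, (fderiv ℝ φ x v) • u x ∂μ := by
  have h1 := h.2.2 φ hφ hc hs v
  rw [setIntegral_eq_integral_of_forall_compl_eq_zero,
    setIntegral_eq_integral_of_forall_compl_eq_zero] at h1
  · exact h1
  · intro x hx
    rw [fderiv_of_notMem_tsupport ℝ (fun h => hx (hs h))]
    simp
  · intro x hx
    rw [image_eq_zero_of_notMem_tsupport (fun h => hx (hs h)), zero_smul]

theorem HasWeakDerivOn.integrableOn_left {Ω : Set E} {u : E → G}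
    {U : E → (E →L[ℝ] G)} (h : HasWeakDerivOn μ Ω u U) {K : Set E} (hK : IsCompact K)
    (hKΩ : K ⊆ Ω) : IntegrableOn u K μ :=
  h.1.integrableOn_compact_subset hKΩ hK

theorem HasWeakDerivOn.integrableOn_right {Ω : Set E} {u : E → G}
    {U : E → (E →L[ℝ] G)} (h : HasWeakDerivOn μ Ω u U) {K : Set E} (hK : IsCompact K)
    (hKΩ : K ⊆ Ω) : IntegrableOn U K μ :=
  h.2.1.integrableOn_compact_subset hKΩ hK

/-- The derivative of the mollification is the mollification of the weak derivative. -/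
theorem fderiv_moll {Ω : Set E} {u : E → G}
    {U : E → (E →L[ℝ] G)} (h : HasWeakDerivOn μ Ω u U) {K : Set E} (hK : IsCompact K)
    (hKΩ : K ⊆ Ω) {ε : ℝ} (hε : 0 < ε) {x : E} (hx : closedBall x ε ⊆ K) :
    fderiv ℝ (moll μ ε (K.indicator u)) x = moll μ ε (K.indicator U) x := by
  have hu : Integrable (K.indicator u) μ :=
    (h.integrableOn_left μ hK hKΩ).integrable_indicator hK.measurableSet
  have hU : Integrable (K.indicator U) μ :=
    (integrable_indicator_iff hK.measurableSet).2 (h.integrableOn_right μ hK hKΩ)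
  ext v
  rw [fderiv_moll_apply μ hε hu.locallyIntegrable]
  have h1 := h.integral_eq μ (contDiff_eta_sub μ ε x) (hasCompactSupport_eta_sub μ hε x)
    ((tsupport_eta_sub μ hε x).trans (hx.trans hKΩ)) v
  simp_rw [fderiv_eta_sub, neg_smul, integral_neg, neg_neg] at h1
  unfold moll
  rw [ContinuousLinearMap.integral_apply (integrable_eta_smul μ hε hU.integrableOn)]
  have h2 : ∫ y, (fderiv ℝ (eta μ ε) (x - y) v) • K.indicator u y ∂μ =
      ∫ y, (fderiv ℝ (eta μ ε) (x - y) v) • u y ∂μ := by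
    congr 1
    ext y
    by_cases hy : y ∈ K
    · rw [indicator_of_mem hy]
    · have : ε < ‖x - y‖ := by
        by_contra h3
        apply hy
        apply hx
        rw [mem_closedBall, dist_comm, dist_eq_norm]
        linarith only [h3]
      rw [fderiv_eta_eq_zero μ hε this]
      simp
  have h3 : ∫ y, (eta μ ε (x - y) • K.indicator U y) v ∂μ = ∫ y, eta μ ε (x - y) • U y v ∂μ := by
    congr 1
    ext y
    by_cases hy : y ∈ K
    · rw [indicator_of_mem hy]; rfl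
    · have : ε ≤ ‖x - y‖ := by
        by_contra h3
        apply hy
        apply hx
        rw [mem_closedBall, dist_comm, dist_eq_norm]
        linarith only [h3]
      rw [eta_eq_zero μ hε this]
      simp only [zero_smul, zero_apply]
  rw [h2, h3, ← h1]

end

end Vale.Agent.P073
end

section

/-!
# P073: convergence of mollifications in `L^p`
-/

set_option linter.unusedSectionVars false
set_option maxSynthPendingDepth 3

namespace Vale.Agent.P073

open MeasureTheory Set Filter Topology Metric Module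
open scoped ENNReal ContDiff

section

variable {E : Type*} [NormedAddCommGroup E] [InnerProductSpace ℝ E] [FiniteDimensional ℝ E]
  [MeasurableSpace E] [BorelSpace E] (μ : Measure E) [μ.IsAddHaarMeasure]
  {G : Type*} [NormedAddCommGroup G] [NormedSpace ℝ G] [CompleteSpace G]

theorem lintegral_eta_sub {ε : ℝ} (hε : 0 < ε) (x : E) :
    ∫⁻ y, ENNReal.ofReal (eta μ ε (x - y)) ∂μ = 1 := by
  rw [← ofReal_integral_eq_lintegral_ofReal (integrable_eta_sub μ hε x)
    (Eventually.of_forall fun y => eta_nonneg μ hε.le _), integral_eta_sub μ hε, ENNReal.ofReal_one]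

theorem lintegral_eta_sub' {ε : ℝ} (hε : 0 < ε) (y : E) :
    ∫⁻ x, ENNReal.ofReal (eta μ ε (x - y)) ∂μ = 1 := by
  rw [lintegral_sub_right_eq_self (fun z => ENNReal.ofReal (eta μ ε z)) y]
  rw [← ofReal_integral_eq_lintegral_ofReal (integrable_eta μ hε)
    (Eventually.of_forall fun y => eta_nonneg μ hε.le _), integral_eta μ hε, ENNReal.ofReal_one]

theorem measurable_eta_sub (ε : ℝ) (x : E) :
    Measurable fun y => ENNReal.ofReal (eta μ ε (x - y)) :=
  (continuous_eta_sub μ ε x).measurable.ennreal_ofReal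

/-- Jensen's inequality for the mollification. -/
theorem enorm_moll_rpow_le {p : ℝ} (hp : 1 ≤ p) {ε : ℝ} (hε : 0 < ε) {W : E → G}
    (hW : AEStronglyMeasurable W μ) (x : E) :
    ‖moll μ ε W x‖ₑ ^ p ≤ ∫⁻ y, ENNReal.ofReal (eta μ ε (x - y)) * ‖W y‖ₑ ^ p ∂μ := by
  have hp0 : 0 < p := by linarith
  set ν : Measure E := μ.withDensity (fun y => ENNReal.ofReal (eta μ ε (x - y))) with hν
  have hνac : ν ≪ μ := withDensity_absolutelyContinuous _ _
  have hprob : IsProbabilityMeasure ν := by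
    constructor
    rw [hν, withDensity_apply _ MeasurableSet.univ, Measure.restrict_univ]
    exact lintegral_eta_sub μ hε x
  have h1 : ‖moll μ ε W x‖ₑ ≤ ∫⁻ y, ENNReal.ofReal (eta μ ε (x - y)) * ‖W y‖ₑ ∂μ := by
    unfold moll
    refine (enorm_integral_le_lintegral_enorm _).trans (le_of_eq ?_)
    congr 1
    ext y
    rw [enorm_smul, Real.enorm_of_nonneg (eta_nonneg μ hε.le _)]
  have h2 : ∫⁻ y, ENNReal.ofReal (eta μ ε (x - y)) * ‖W y‖ₑ ∂μ = ∫⁻ y, ‖W y‖ₑ ∂ν := by
    rw [hν, lintegral_withDensity_eq_lintegral_mul₀ (measurable_eta_sub μ ε x).aemeasurable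
      hW.enorm]
    rfl
  have h3 : ∫⁻ y, ENNReal.ofReal (eta μ ε (x - y)) * ‖W y‖ₑ ^ p ∂μ = ∫⁻ y, ‖W y‖ₑ ^ p ∂ν := by
    rw [hν, lintegral_withDensity_eq_lintegral_mul₀ (measurable_eta_sub μ ε x).aemeasurable
      (hW.enorm.pow_const p)]
    rfl
  have h4 := eLpNorm'_le_eLpNorm'_of_exponent_le (one_pos) hp ν (hW.mono_ac hνac)
  unfold eLpNorm' at h4
  simp only [ENNReal.rpow_one, div_one] at h4
  rw [h3]
  calc ‖moll μ ε W x‖ₑ ^ p ≤ (∫⁻ y, ‖W y‖ₑ ∂ν) ^ p := by
        rw [← h2]; exact ENNReal.rpow_le_rpow h1 hp0.le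
    _ ≤ ((∫⁻ y, ‖W y‖ₑ ^ p ∂ν) ^ (1 / p)) ^ p := ENNReal.rpow_le_rpow h4 hp0.le
    _ = ∫⁻ y, ‖W y‖ₑ ^ p ∂ν := by
        rw [← ENNReal.rpow_mul, one_div_mul_cancel hp0.ne', ENNReal.rpow_one]

theorem lintegral_moll_rpow_le {p : ℝ} (hp : 1 ≤ p) {ε : ℝ} (hε : 0 < ε) {W : E → G}
    (hW : AEStronglyMeasurable W μ) :
    ∫⁻ x, ‖moll μ ε W x‖ₑ ^ p ∂μ ≤ ∫⁻ y, ‖W y‖ₑ ^ p ∂μ := by
  calc ∫⁻ x, ‖moll μ ε W x‖ₑ ^ p ∂μ
      ≤ ∫⁻ x, ∫⁻ y, ENNReal.ofReal (eta μ ε (x - y)) * ‖W y‖ₑ ^ p ∂μ ∂μ :=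
        lintegral_mono fun x => enorm_moll_rpow_le μ hp hε hW x
    _ = ∫⁻ y, ∫⁻ x, ENNReal.ofReal (eta μ ε (x - y)) * ‖W y‖ₑ ^ p ∂μ ∂μ := by
        rw [lintegral_lintegral_swap]
        apply AEMeasurable.mul
        · have : Continuous fun z : E × E => eta μ ε (z.1 - z.2) :=
            (contDiff_eta μ ε (n := 0)).continuous.comp (continuous_fst.sub continuous_snd)
          exact this.measurable.ennreal_ofReal.aemeasurable
        · exact (hW.enorm.pow_const p).comp_snd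
    _ = ∫⁻ y, ‖W y‖ₑ ^ p ∂μ := by
        congr 1
        ext y
        rw [lintegral_mul_const'', lintegral_eta_sub' μ hε, one_mul]
        have : Continuous fun x : E => eta μ ε (x - y) :=
            (contDiff_eta μ ε (n := 0)).continuous.comp (continuous_id.sub continuous_const)
        exact this.measurable.ennreal_ofReal.aemeasurable

theorem eLpNorm_moll_le {p : ℝ} (hp : 1 ≤ p) {ε : ℝ} (hε : 0 < ε) {W : E → G}
    (hW : AEStronglyMeasurable W μ) :
    eLpNorm (moll μ ε W) (ENNReal.ofReal p) μ ≤ eLpNorm W (ENNReal.ofReal p) μ := by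
  have hp0 : 0 < p := by linarith
  have hp1 : ENNReal.ofReal p ≠ 0 := by
    rw [Ne, ENNReal.ofReal_eq_zero]; linarith only [hp]
  rw [eLpNorm_eq_lintegral_rpow_enorm_toReal hp1 ENNReal.ofReal_ne_top,
    eLpNorm_eq_lintegral_rpow_enorm_toReal hp1 ENNReal.ofReal_ne_top,
    ENNReal.toReal_ofReal hp0.le]
  exact ENNReal.rpow_le_rpow (lintegral_moll_rpow_le μ hp hε hW) (by positivity)

theorem moll_sub {ε : ℝ} (hε : 0 < ε) {u w : E → G} (hu : LocallyIntegrable u μ)
    (hw : LocallyIntegrable w μ) : moll μ ε (u - w) = moll μ ε u - moll μ ε w := by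
  ext x
  unfold moll
  rw [Pi.sub_apply, ← integral_sub]
  · congr 1
    ext y
    rw [Pi.sub_apply, smul_sub]
  · exact integrable_eta_smul μ hε (hu.integrableOn_isCompact (isCompact_closedBall x ε))
  · exact integrable_eta_smul μ hε (hw.integrableOn_isCompact (isCompact_closedBall x ε))

/-- Mollifications of a compactly supported continuous function converge in `L^p`. -/
theorem exists_eLpNorm_moll_sub_le_of_continuous {p : ℝ} (hp : 1 ≤ p) {H : E → G}
    (hH : Continuous H) (hc : HasCompactSupport H) {τ : ℝ≥0∞} (hτ : τ ≠ 0) :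
    ∃ ε₀ : ℝ, 0 < ε₀ ∧ ∀ ε : ℝ, 0 < ε → ε < ε₀ →
      eLpNorm (moll μ ε H - H) (ENNReal.ofReal p) μ ≤ τ := by
  have hp0 : 0 < p := by linarith
  have hp1 : ENNReal.ofReal p ≠ 0 := by
    rw [Ne, ENNReal.ofReal_eq_zero]; linarith only [hp]
  set K : Set E := cthickening 1 (tsupport H) with hK
  have hKc : IsCompact K := IsCompact.cthickening hc
  have huc := hc.uniformContinuous_of_continuous hH
  -- choose the sup bound
  have hμK : μ K ^ (1 / p) ≠ ⊤ := by
    apply ENNReal.rpow_ne_top_of_nonneg (by (clear * - hp; positivity)) hKc.measure_lt_top.ne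
  obtain ⟨s, hs0, hs⟩ : ∃ s : ℝ, 0 < s ∧ ENNReal.ofReal s * μ K ^ (1 / p) ≤ τ := by
    have hT : Tendsto (fun s : ℝ => ENNReal.ofReal s * μ K ^ (1 / p)) (𝓝 0) (𝓝 0) := by
      have h1 : Tendsto (fun s : ℝ => ENNReal.ofReal s) (𝓝 0) (𝓝 0) := by
        have := (ENNReal.continuous_ofReal.tendsto 0)
        rwa [ENNReal.ofReal_zero] at this
      have := ENNReal.Tendsto.mul_const h1 (Or.inr hμK)
      rwa [zero_mul] at this
    have h2 : ∀ᶠ s in 𝓝[>] (0 : ℝ), ENNReal.ofReal s * μ K ^ (1 / p) ≤ τ :=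
      (hT.mono_left nhdsWithin_le_nhds).eventually_le_const (pos_iff_ne_zero.2 hτ)
    obtain ⟨s, hs1, hs2⟩ := (h2.and self_mem_nhdsWithin).exists
    exact ⟨s, hs2, hs1⟩
  obtain ⟨ε₁, hε₁, h1⟩ := Metric.uniformContinuous_iff.1 huc s hs0
  refine ⟨min ε₁ 1, lt_min hε₁ one_pos, fun ε hε hεlt => ?_⟩
  have hεε₁ : ε < ε₁ := hεlt.trans_le (min_le_left _ _)
  have hε1 : ε < 1 := hεlt.trans_le (min_le_right _ _)
  have hsup : ∀ x, ‖moll μ ε H x - H x‖ ≤ s := fun x => by
    apply norm_moll_sub_le μ hε (hH.locallyIntegrable.integrableOn_isCompact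
      (isCompact_closedBall x ε))
    intro y hy
    rw [← dist_eq_norm]
    exact (h1 ((mem_ball.1 hy).trans hεε₁)).le
  have hzero : ∀ x, x ∉ K → moll μ ε H x - H x = 0 := fun x hx => by
    have hx1 : ∀ y ∈ ball x ε, H y = 0 := fun y hy => by
      by_contra hne
      apply hx
      rw [hK]
      apply mem_cthickening_of_dist_le x y 1 _ (subset_tsupport _ hne)
      rw [mem_ball, dist_comm] at hy
      linarith only [hε1, hy]
    have hx2 : H x = 0 := hx1 x (mem_ball_self hε)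
    have hx3 : moll μ ε H x = moll μ ε (0 : E → G) x :=
      moll_congr μ hε (fun y hy => hx1 y hy)
    rw [hx2, hx3]
    simp [moll]
  have hle : ∀ x, ‖(moll μ ε H - H) x‖ ≤ ‖K.indicator (fun _ => s) x‖ := fun x => by
    by_cases hx : x ∈ K
    · rw [indicator_of_mem hx, Real.norm_of_nonneg hs0.le]
      exact hsup x
    · rw [Pi.sub_apply, hzero x hx, norm_zero]
      exact norm_nonneg _
  calc eLpNorm (moll μ ε H - H) (ENNReal.ofReal p) μ
      ≤ eLpNorm (K.indicator (fun _ => s)) (ENNReal.ofReal p) μ :=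
        eLpNorm_mono_ae (Eventually.of_forall hle)
    _ = ‖s‖ₑ * μ K ^ (1 / (ENNReal.ofReal p).toReal) :=
        eLpNorm_indicator_const hKc.measurableSet hp1 ENNReal.ofReal_ne_top
    _ = ENNReal.ofReal s * μ K ^ (1 / p) := by
        rw [ENNReal.toReal_ofReal hp0.le, Real.enorm_of_nonneg hs0.le]
    _ ≤ τ := hs

/-- Mollifications converge in `L^p`. -/
theorem exists_eLpNorm_moll_sub_le {p : ℝ} (hp : 1 ≤ p) {W : E → G}
    (hW : MemLp W (ENNReal.ofReal p) μ) {τ : ℝ≥0∞} (hτ : τ ≠ 0) :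
    ∃ ε₀ : ℝ, 0 < ε₀ ∧ ∀ ε : ℝ, 0 < ε → ε < ε₀ →
      eLpNorm (moll μ ε W - W) (ENNReal.ofReal p) μ ≤ τ := by
  have hp1 : (1 : ℝ≥0∞) ≤ ENNReal.ofReal p := by
    rw [← ENNReal.ofReal_one]; exact ENNReal.ofReal_le_ofReal hp
  have hτ3 : τ / 3 ≠ 0 := (ENNReal.div_pos hτ (by norm_num)).ne'
  obtain ⟨H, hHc, hHW, hHcont, hHLp⟩ :=
    hW.exists_hasCompactSupport_eLpNorm_sub_le ENNReal.ofReal_ne_top hτ3
  obtain ⟨ε₀, hε₀, h0⟩ := exists_eLpNorm_moll_sub_le_of_continuous μ hp hHcont hHc hτ3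
  refine ⟨ε₀, hε₀, fun ε hε hεlt => ?_⟩
  have hWloc : LocallyIntegrable W μ := hW.locallyIntegrable hp1
  have hHloc : LocallyIntegrable H μ := hHcont.locallyIntegrable
  have hdecomp : moll μ ε W - W = moll μ ε (W - H) + (moll μ ε H - H) - (W - H) := by
    rw [moll_sub μ hε hWloc hHloc]
    abel
  have hm1 : AEStronglyMeasurable (moll μ ε (W - H)) μ :=
    (contDiff_moll μ hε (hWloc.sub hHloc)).continuous.aestronglyMeasurable
  have hm2 : AEStronglyMeasurable (moll μ ε H - H) μ :=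
    ((contDiff_moll μ hε hHloc).continuous.sub hHcont).aestronglyMeasurable
  have hm3 : AEStronglyMeasurable (W - H) μ := hW.1.sub hHcont.aestronglyMeasurable
  rw [hdecomp]
  calc eLpNorm (moll μ ε (W - H) + (moll μ ε H - H) - (W - H)) (ENNReal.ofReal p) μ
      ≤ eLpNorm (moll μ ε (W - H) + (moll μ ε H - H)) (ENNReal.ofReal p) μ +
        eLpNorm (W - H) (ENNReal.ofReal p) μ := eLpNorm_sub_le (hm1.add hm2) hm3 hp1
    _ ≤ (eLpNorm (moll μ ε (W - H)) (ENNReal.ofReal p) μ +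
        eLpNorm (moll μ ε H - H) (ENNReal.ofReal p) μ) +
        eLpNorm (W - H) (ENNReal.ofReal p) μ := by
          gcongr
          exact eLpNorm_add_le hm1 hm2 hp1
    _ ≤ (τ / 3 + τ / 3) + τ / 3 := by
          gcongr
          · exact (eLpNorm_moll_le μ hp hε hm3).trans hHW
          · exact h0 ε hε hεlt
    _ = τ := ENNReal.add_thirds τ

/-- Mollifications converge in `L^p`, version with integrals. -/
theorem exists_lintegral_moll_sub_le {p : ℝ} (hp : 1 ≤ p) {W : E → G}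
    (hW : MemLp W (ENNReal.ofReal p) μ) {τ : ℝ} (hτ : 0 < τ) :
    ∃ ε₀ : ℝ, 0 < ε₀ ∧ ∀ ε : ℝ, 0 < ε → ε < ε₀ →
      ∫⁻ x, ‖moll μ ε W x - W x‖ₑ ^ p ∂μ ≤ ENNReal.ofReal τ := by
  have hp0 : 0 < p := by linarith only [hp]
  have hp1 : ENNReal.ofReal p ≠ 0 := by
    rw [Ne, ENNReal.ofReal_eq_zero]; linarith only [hp]
  have hτ' : (ENNReal.ofReal τ) ^ (1 / p) ≠ 0 := by
    rw [Ne, ENNReal.rpow_eq_zero_iff]
    push Not
    refine ⟨fun h => ?_, fun _ => by positivity⟩
    rw [ENNReal.ofReal_eq_zero] at h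
    linarith only [hτ, h]
  obtain ⟨ε₀, hε₀, h0⟩ := exists_eLpNorm_moll_sub_le μ hp hW hτ'
  refine ⟨ε₀, hε₀, fun ε hε hεlt => ?_⟩
  have h1 := h0 ε hε hεlt
  rw [eLpNorm_eq_lintegral_rpow_enorm_toReal hp1 ENNReal.ofReal_ne_top,
    ENNReal.toReal_ofReal hp0.le] at h1
  have h2 := ENNReal.rpow_le_rpow h1 hp0.le
  rw [← ENNReal.rpow_mul, ← ENNReal.rpow_mul, one_div_mul_cancel hp0.ne', ENNReal.rpow_one,
    ENNReal.rpow_one] at h2
  exact h2

end

end Vale.Agent.P073
end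

section

/-!
# P073: a commutator estimate of Friedrichs type for continuous functions
-/

set_option linter.unusedSectionVars false
set_option maxSynthPendingDepth 3

namespace Vale.Agent.P073

open MeasureTheory Set Filter Topology Metric Module
open scoped ENNReal ContDiff RealInnerProductSpace

section

variable {E : Type*} [NormedAddCommGroup E] [InnerProductSpace ℝ E] [FiniteDimensional ℝ E]
  [MeasurableSpace E] [BorelSpace E] (μ : Measure E) [μ.IsAddHaarMeasure]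
  {G : Type*} [NormedAddCommGroup G] [NormedSpace ℝ G] [CompleteSpace G]

/-- A locally integrable function times a compactly supported continuous function. -/
theorem integrable_smul_of_locallyIntegrableOn {Ω : Set E} {w : E → G}
    (hw : LocallyIntegrableOn w Ω μ) {φ : E → ℝ} (hφ : Continuous φ) (hc : HasCompactSupport φ)
    (hs : tsupport φ ⊆ Ω) : Integrable (fun y => φ y • w y) μ := by
  have h1 : IntegrableOn (fun y => φ y • w y) (tsupport φ) μ :=
    (hw.integrableOn_compact_subset hs hc).continuousOn_smul hφ.continuousOn hc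
  refine (integrableOn_iff_integrable_of_support_subset ?_).1 h1
  intro y hy
  by_contra h
  apply hy
  show φ y • w y = 0
  rw [image_eq_zero_of_notMem_tsupport h, zero_smul]

theorem integral_fderiv_apply_eq_zero {φ : E → ℝ} (hφ : ContDiff ℝ 1 φ)
    (hc : HasCompactSupport φ) (v : E) : ∫ y, fderiv ℝ φ y v ∂μ = 0 := by
  have hi1 : Integrable (fun y => fderiv ℝ φ y v) μ := by
    apply Continuous.integrable_of_hasCompactSupport
    · exact (hφ.continuous_fderiv (by norm_num)).clm_apply continuous_const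
    · exact hc.fderiv_apply (𝕜 := ℝ) v
  have hi2 : Integrable φ μ := hφ.continuous.integrable_of_hasCompactSupport hc
  have h := integral_mul_fderiv_eq_neg_fderiv_mul_of_integrable (μ := μ) (𝕜 := ℝ)
    (f := fun _ => (1 : ℝ)) (g := φ) (v := v) (by simp only [fderiv_fun_const, Pi.zero_apply, zero_apply, zero_mul, integrable_fun_zero]) (by simpa only [one_mul] using hi1) (by simpa using hi2)
    (fun x _ => differentiableAt_const _) (fun x _ => (hφ.differentiable (by norm_num)) x)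
  simpa using h

/-- Weak derivatives tested against a vector field. -/
theorem HasWeakDerivOn.integral_vectorField {Ω : Set E} {u : E → G}
    {U : E → (E →L[ℝ] G)} (h : HasWeakDerivOn μ Ω u U) {a : E → E} (ha : ContDiff ℝ ∞ a)
    (hc : HasCompactSupport a) (hs : tsupport a ⊆ Ω) (c : G) :
    ∫ y, U y (a y) ∂μ =
      - ∫ y, (∑ i, ⟪stdOrthonormalBasis ℝ E i, fderiv ℝ a y (stdOrthonormalBasis ℝ E i)⟫)
        • (u y - c) ∂μ := by
  set b := stdOrthonormalBasis ℝ E with hb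
  have hφ : ∀ i, ContDiff ℝ ∞ (fun y => ⟪b i, a y⟫) := fun i => contDiff_const.inner ℝ ha
  have hφc : ∀ i, HasCompactSupport (fun y => ⟪b i, a y⟫) := fun i =>
    hc.comp_left (g := fun z => ⟪b i, z⟫) (by simp only [inner_zero_right])
  have hφs : ∀ i, tsupport (fun y => ⟪b i, a y⟫) ⊆ tsupport a := fun i =>
    closure_mono (fun y hy => by
      intro h0
      apply hy
      show ⟪b i, a y⟫ = 0
      rw [h0, inner_zero_right])
  have hfd : ∀ i y, fderiv ℝ (fun y => ⟪b i, a y⟫) y (b i) = ⟪b i, fderiv ℝ a y (b i)⟫ := by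
    intro i y
    have hd : HasFDerivAt a (fderiv ℝ a y) y := (ha.differentiable (by simp) y).hasFDerivAt
    have h1 : HasFDerivAt (fun y => ⟪b i, a y⟫) ((innerSL ℝ (b i)).comp (fderiv ℝ a y)) y :=
      (innerSL ℝ (b i)).hasFDerivAt.comp y hd
    rw [h1.fderiv]
    rfl
  have hsum : ∀ y, U y (a y) = ∑ i, ⟪b i, a y⟫ • U y (b i) := by
    intro y
    conv_lhs => rw [← b.sum_repr' (a y)]
    simp only [map_sum, map_smul]
  have hint1 : ∀ i, Integrable (fun y => ⟪b i, a y⟫ • U y (b i)) μ := by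
    intro i
    have := integrable_smul_of_locallyIntegrableOn μ h.2.1 (hφ i).continuous (hφc i)
      ((hφs i).trans hs)
    exact this.apply_continuousLinearMap (b i)
  have hint2 : ∀ i, Integrable (fun y => fderiv ℝ (fun y => ⟪b i, a y⟫) y (b i) • u y) μ := by
    intro i
    apply integrable_smul_of_locallyIntegrableOn μ h.1
    · exact ((hφ i).continuous_fderiv (by simp)).clm_apply continuous_const
    · exact (hφc i).fderiv_apply (𝕜 := ℝ) (b i)
    · refine (closure_mono ?_).trans ((tsupport_fderiv_subset ℝ).trans ((hφs i).trans hs))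
      intro y hy h0
      apply hy
      show fderiv ℝ (fun y => ⟪b i, a y⟫) y (b i) = 0
      rw [h0]; rfl
  have hint3 : ∀ i, Integrable (fun y => fderiv ℝ (fun y => ⟪b i, a y⟫) y (b i) • c) μ := by
    intro i
    apply Integrable.smul_const
    apply Continuous.integrable_of_hasCompactSupport
    · exact ((hφ i).continuous_fderiv (by simp)).clm_apply continuous_const
    · exact (hφc i).fderiv_apply (𝕜 := ℝ) (b i)
  have hz : ∀ i, ∫ y, fderiv ℝ (fun y => ⟪b i, a y⟫) y (b i) • c ∂μ = 0 := by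
    intro i
    rw [integral_smul_const, integral_fderiv_apply_eq_zero μ ((hφ i).of_le (by simp only [WithTop.one_le_coe, le_top])) (hφc i),
      zero_smul]
  simp_rw [hsum]
  rw [integral_finset_sum _ (fun i _ => hint1 i)]
  have h2 : ∀ i, ∫ y, ⟪b i, a y⟫ • U y (b i) ∂μ =
      - ∫ y, fderiv ℝ (fun y => ⟪b i, a y⟫) y (b i) • (u y - c) ∂μ := by
    intro i
    rw [h.integral_eq μ (hφ i) (hφc i) ((hφs i).trans hs) (b i)]
    congr 1
    have : ∀ y, fderiv ℝ (fun y => ⟪b i, a y⟫) y (b i) • (u y - c) =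
        fderiv ℝ (fun y => ⟪b i, a y⟫) y (b i) • u y -
        fderiv ℝ (fun y => ⟪b i, a y⟫) y (b i) • c := fun y => smul_sub _ _ _
    simp_rw [this]
    rw [integral_sub (hint2 i) (hint3 i), hz i, sub_zero]
  simp_rw [h2]
  rw [Finset.sum_neg_distrib, ← integral_finset_sum]
  · congr 2
    ext y
    rw [Finset.sum_smul]
    apply Finset.sum_congr rfl
    intro i _
    rw [hfd i y]
  · intro i _
    have : ∀ y, fderiv ℝ (fun y => ⟪b i, a y⟫) y (b i) • (u y - c) =
        fderiv ℝ (fun y => ⟪b i, a y⟫) y (b i) • u y -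
        fderiv ℝ (fun y => ⟪b i, a y⟫) y (b i) • c := fun y => smul_sub _ _ _
    simp_rw [this]
    exact (hint2 i).sub (hint3 i)

theorem norm_integral_vectorField_le {Ω : Set E} {u : E → G}
    {U : E → (E →L[ℝ] G)} (h : HasWeakDerivOn μ Ω u U) {a : E → E} (ha : ContDiff ℝ ∞ a)
    (hc : HasCompactSupport a) (hs : tsupport a ⊆ Ω) (c : G) {s : ℝ}
    (hsu : ∀ y ∈ tsupport a, ‖u y - c‖ ≤ s) :
    ‖∫ y, U y (a y) ∂μ‖ ≤ finrank ℝ E * s * ∫ y, ‖fderiv ℝ a y‖ ∂μ := by
  rw [h.integral_vectorField μ ha hc hs c, norm_neg]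
  have hi : Integrable (fun y => ‖fderiv ℝ a y‖) μ :=
    ((ha.continuous_fderiv (by simp)).integrable_of_hasCompactSupport (hc.fderiv (𝕜 := ℝ))).norm
  rw [← integral_const_mul]
  apply norm_integral_le_of_norm_le (hi.const_mul _)
  refine Eventually.of_forall fun y => ?_
  have h1 : |∑ i, ⟪stdOrthonormalBasis ℝ E i, fderiv ℝ a y (stdOrthonormalBasis ℝ E i)⟫| ≤
      finrank ℝ E * ‖fderiv ℝ a y‖ := by
    refine (Finset.abs_sum_le_sum_abs _ _).trans ?_
    have h2 : ∀ i ∈ (Finset.univ : Finset (Fin (finrank ℝ E))),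
        |⟪stdOrthonormalBasis ℝ E i, fderiv ℝ a y (stdOrthonormalBasis ℝ E i)⟫| ≤
        ‖fderiv ℝ a y‖ := by
      intro i _
      refine (abs_real_inner_le_norm _ _).trans ?_
      have h3 := (fderiv ℝ a y).le_opNorm (stdOrthonormalBasis ℝ E i)
      simp only [OrthonormalBasis.norm_eq_one, mul_one, one_mul] at h3 ⊢
      exact h3
    refine (Finset.sum_le_card_nsmul _ _ _ h2).trans ?_
    simp only [Finset.card_univ, Fintype.card_fin, nsmul_eq_mul, Std.le_refl]
  by_cases hy : y ∈ tsupport a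
  · rw [norm_smul, Real.norm_eq_abs]
    have hs0 : 0 ≤ s := (norm_nonneg _).trans (hsu y hy)
    calc _ ≤ (finrank ℝ E * ‖fderiv ℝ a y‖) * s :=
          mul_le_mul h1 (hsu y hy) (norm_nonneg _) (by (clear * -; positivity))
      _ = finrank ℝ E * s * ‖fderiv ℝ a y‖ := by ring
  · have h0 : fderiv ℝ a y = 0 := fderiv_of_notMem_tsupport ℝ hy
    rw [h0]
    simp only [zero_apply, inner_zero_right, Finset.sum_const_zero, zero_smul, norm_zero, mul_zero, Std.le_refl]

/-- Commutator estimate: mollifying `U` and multiplying by the coefficient `A`. -/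
theorem norm_commutator_le {Ω : Set E} (hΩ : IsOpen Ω) {u : E → G}
    {U : E → (E →L[ℝ] G)} (h : HasWeakDerivOn μ Ω u U)
    {A : E → (E →L[ℝ] E)} (hA : ContDiffOn ℝ ∞ A Ω) {ε : ℝ} (hε : 0 < ε) {x : E}
    (hx : closedBall x ε ⊆ Ω) (c : G) {L s : ℝ} (hL : ∀ y ∈ closedBall x ε, ‖fderiv ℝ A y‖ ≤ L)
    (hs : ∀ y ∈ closedBall x ε, ‖u y - c‖ ≤ s) :
    ‖∫ y, eta μ ε (x - y) • (U y).comp (A y - A x) ∂μ‖ ≤
      finrank ℝ E * s * (L * (etaC (E := E) μ + 1)) := by
  have hs0 : 0 ≤ s := (norm_nonneg _).trans (hs x (mem_closedBall_self hε.le))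
  have hL0 : 0 ≤ L := (norm_nonneg _).trans (hL x (mem_closedBall_self hε.le))
  have hC0 := etaC_nonneg (E := E) μ
  apply ContinuousLinearMap.opNorm_le_bound _ (by (clear Ω hΩ U h hA hx; positivity))
  intro v
  -- Lipschitz bound for A
  have hlip : ∀ y ∈ closedBall x ε, ‖A y - A x‖ ≤ L * ε := by
    intro y hy
    have := (convex_closedBall x ε).norm_image_sub_le_of_norm_fderiv_le (𝕜 := ℝ)
      (f := A) (fun z hz => ((hA.contDiffAt (hΩ.mem_nhds (hx hz))).differentiableAt (by simp)))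
      hL (mem_closedBall_self hε.le) hy
    refine this.trans ?_
    rw [mem_closedBall, dist_eq_norm] at hy
    exact mul_le_mul_of_nonneg_left hy hL0
  set a : E → E := fun y => eta μ ε (x - y) • (A y - A x) v with ha
  have hsupp : tsupport a ⊆ closedBall x ε := by
    apply closure_minimal _ isClosed_closedBall
    intro y hy
    by_contra h0
    apply hy
    rw [mem_closedBall, not_le, dist_comm, dist_eq_norm] at h0
    show eta μ ε (x - y) • (A y - A x) v = 0
    rw [eta_eq_zero μ hε h0.le, zero_smul]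
  have hcomp : HasCompactSupport a :=
    HasCompactSupport.of_support_subset_isCompact (isCompact_closedBall x ε)
      ((subset_tsupport _).trans hsupp)
  have hadiff : ContDiff ℝ ∞ a := by
    rw [contDiff_iff_contDiffAt]
    intro y
    by_cases hy : y ∈ closedBall x ε
    · have h1 : ContDiffAt ℝ ∞ A y := hA.contDiffAt (hΩ.mem_nhds (hx hy))
      exact (contDiff_eta_sub μ ε x).contDiffAt.smul
        ((h1.sub contDiffAt_const).clm_apply contDiffAt_const)
    · have h1 : a =ᶠ[𝓝 y] fun _ => 0 := by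
        have : (closedBall x ε)ᶜ ∈ 𝓝 y := isClosed_closedBall.isOpen_compl.mem_nhds hy
        filter_upwards [this] with z hz
        by_contra h0
        exact hz (hsupp (subset_tsupport _ h0))
      exact contDiffAt_const.congr_of_eventuallyEq h1
  have hkey := norm_integral_vectorField_le μ h hadiff hcomp (hsupp.trans hx) c
    (fun y hy => hs y (hsupp hy))
  -- identify the integrals
  have hint : Integrable (fun y => eta μ ε (x - y) • (U y).comp (A y - A x)) μ := by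
    apply integrable_eta_smul μ hε
    have hU : IntegrableOn U (closedBall x ε) μ :=
      h.integrableOn_right μ (isCompact_closedBall x ε) hx
    have hAc : ContinuousOn (fun y => A y - A x) (closedBall x ε) :=
      ((hA.continuousOn).mono hx).sub continuousOn_const
    have hm : AEStronglyMeasurable (fun y => (U y).comp (A y - A x))
        (μ.restrict (closedBall x ε)) := by
      have h1 : AEStronglyMeasurable (fun y => A y - A x) (μ.restrict (closedBall x ε)) :=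
        hAc.aestronglyMeasurable isClosed_closedBall.measurableSet
      exact (ContinuousLinearMap.compL ℝ E E G).aestronglyMeasurable_comp₂ hU.1 h1
    refine Integrable.mono' (hU.norm.mul_const (L * ε)) hm ?_
    rw [ae_restrict_iff' isClosed_closedBall.measurableSet]
    refine Eventually.of_forall fun y hy => ?_
    refine (ContinuousLinearMap.opNorm_comp_le _ _).trans ?_
    exact mul_le_mul_of_nonneg_left (hlip y hy) (norm_nonneg _)
  rw [ContinuousLinearMap.integral_apply hint]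
  have h3 : ∀ y, (eta μ ε (x - y) • (U y).comp (A y - A x)) v = U y (a y) := by
    intro y
    rw [ha]
    simp
  simp_rw [h3]
  refine hkey.trans ?_
  -- bound for the derivative of a
  have hb : ∀ y, ‖fderiv ℝ a y‖ ≤
      (‖fderiv ℝ (eta μ ε) (x - y)‖ * (L * ε) + eta μ ε (x - y) * L) * ‖v‖ := by
    intro y
    by_cases hy : y ∈ closedBall x ε
    · have hAd : HasFDerivAt A (fderiv ℝ A y) y :=
        ((hA.contDiffAt (hΩ.mem_nhds (hx hy))).differentiableAt (by simp)).hasFDerivAt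
      have hη : HasFDerivAt (fun y => eta μ ε (x - y)) (fderiv ℝ (fun y => eta μ ε (x - y)) y) y :=
        (((contDiff_eta_sub μ ε x (n := 1)).differentiable (by norm_num)) y).hasFDerivAt
      have hAv : HasFDerivAt (fun y => (A y - A x) v)
          ((ContinuousLinearMap.apply ℝ E v).comp (fderiv ℝ A y)) y :=
        (ContinuousLinearMap.apply ℝ E v).hasFDerivAt.comp y (hAd.sub_const (A x))
      have hav := hη.smul hAv
      have h4 : fderiv ℝ a y = eta μ ε (x - y) •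
          ((ContinuousLinearMap.apply ℝ E v).comp (fderiv ℝ A y)) +
          (fderiv ℝ (fun y => eta μ ε (x - y)) y).smulRight ((A y - A x) v) := hav.fderiv
      rw [h4]
      refine (norm_add_le _ _).trans ?_
      rw [norm_smul, Real.norm_of_nonneg (eta_nonneg μ hε.le _),
        ContinuousLinearMap.norm_smulRight_apply]
      have h5 : ‖fderiv ℝ (fun y => eta μ ε (x - y)) y‖ ≤ ‖fderiv ℝ (eta μ ε) (x - y)‖ := by
        apply ContinuousLinearMap.opNorm_le_bound _ (norm_nonneg _)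
        intro w
        rw [fderiv_eta_sub, norm_neg]
        exact (fderiv ℝ (eta μ ε) (x - y)).le_opNorm w
      have h6 : ‖(ContinuousLinearMap.apply ℝ E v).comp (fderiv ℝ A y)‖ ≤ L * ‖v‖ := by
        apply ContinuousLinearMap.opNorm_le_bound _ (by (clear * - hL0; positivity))
        intro w
        have h7 : ‖(fderiv ℝ A y w) v‖ ≤ L * ‖w‖ * ‖v‖ := by
          refine ((fderiv ℝ A y w).le_opNorm v).trans ?_
          apply mul_le_mul_of_nonneg_right _ (norm_nonneg _)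
          exact ((fderiv ℝ A y).le_opNorm w).trans
            (mul_le_mul_of_nonneg_right (hL y hy) (norm_nonneg _))
        calc ‖(fderiv ℝ A y w) v‖ ≤ L * ‖w‖ * ‖v‖ := h7
          _ = L * ‖v‖ * ‖w‖ := by ring
      have h8 : ‖(A y - A x) v‖ ≤ L * ε * ‖v‖ :=
        ((A y - A x).le_opNorm v).trans (mul_le_mul_of_nonneg_right (hlip y hy) (norm_nonneg _))
      have h9 := eta_nonneg μ hε.le (x - y)
      calc eta μ ε (x - y) * ‖(ContinuousLinearMap.apply ℝ E v).comp (fderiv ℝ A y)‖ +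
            ‖fderiv ℝ (fun y => eta μ ε (x - y)) y‖ * ‖(A y - A x) v‖
          ≤ eta μ ε (x - y) * (L * ‖v‖) + ‖fderiv ℝ (eta μ ε) (x - y)‖ * (L * ε * ‖v‖) := by
            (clear u U h c s hs hs0 hC0 a ha hsupp hcomp hadiff hkey hint h3 hAd hη hAv hav h4; gcongr)
        _ = _ := by ring
    · have h0 : fderiv ℝ a y = 0 := fderiv_of_notMem_tsupport ℝ (fun h => hy (hsupp h))
      rw [h0, norm_zero]
      have h9 := eta_nonneg μ hε.le (x - y)
      (clear Ω hΩ u U h hA hx c s hs hs0 hC0 hlip a ha hsupp hcomp hadiff hkey hint h3 hy h0; positivity)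
  have hI1 : Integrable (fun y => ‖fderiv ℝ (eta μ ε) (x - y)‖) μ :=
    (integrable_norm_fderiv_eta μ hε).comp_sub_left x
  have hI2 : ∫ y, ‖fderiv ℝ (eta μ ε) (x - y)‖ ∂μ = etaC (E := E) μ / ε := by
    rw [integral_sub_left_eq_self (fun z => ‖fderiv ℝ (eta μ ε) z‖) μ x]
    exact integral_norm_fderiv_eta μ hε
  have hI3 := integrable_eta_sub μ hε x
  have hint4 : Integrable (fun y => ‖fderiv ℝ a y‖) μ :=
    ((hadiff.continuous_fderiv (by simp)).integrable_of_hasCompactSupport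
      (hcomp.fderiv (𝕜 := ℝ))).norm
  have h10 : ∫ y, ‖fderiv ℝ a y‖ ∂μ ≤ L * (etaC (E := E) μ + 1) * ‖v‖ := by
    calc ∫ y, ‖fderiv ℝ a y‖ ∂μ
        ≤ ∫ y, (‖fderiv ℝ (eta μ ε) (x - y)‖ * (L * ε) + eta μ ε (x - y) * L) * ‖v‖ ∂μ :=
          integral_mono hint4 (((hI1.mul_const _).add (hI3.mul_const _)).mul_const _) hb
      _ = (etaC (E := E) μ / ε * (L * ε) + 1 * L) * ‖v‖ := by
          rw [integral_mul_const, integral_add (hI1.mul_const _) (hI3.mul_const _),
            integral_mul_const, integral_mul_const, hI2, integral_eta_sub μ hε]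
      _ = L * (etaC (E := E) μ + 1) * ‖v‖ := by
          (clear Ω hΩ u U h A hA x hx c s hL hs hs0 hL0 hlip a ha hsupp hcomp hadiff hkey hint h3 hb hI1 hI2 hI3 hint4; field_simp)
  calc finrank ℝ E * s * ∫ y, ‖fderiv ℝ a y‖ ∂μ
      ≤ finrank ℝ E * s * (L * (etaC (E := E) μ + 1) * ‖v‖) := by (clear U h ha hkey hint h3; gcongr)
    _ = finrank ℝ E * s * (L * (etaC (E := E) μ + 1)) * ‖v‖ := by ring

end

end Vale.Agent.P073
end
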