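import Vale.Agent.P073.MathlibUsed
import Vale.Agent.P073.Bdl.B3
import Vale.Agent.P073.Bdl.B2
attribute [-instance] ProperSMul.toContinuousSMul IsTopologicalTorsor.toContinuousSMul IdemSemiring.toCanonicallyOrderedAdd IdemSemiring.toMulLeftMono IdemSemiring.toMulRightMono AddQuantale.instAddLeftMono AddQuantale.instAddRightMono Quantale.instMulLeftMono Quantale.instMulRightMono FiniteDimensional.rclike_to_real IsScalarTower.complexToReal FiniteDimensional.complexToReal

set_option linter.all false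

section

/-!
# P073: smoothing on a compact set, with one-sided bounds
-/

set_option linter.unusedSectionVars false
set_option maxSynthPendingDepth 3

namespace Vale.Agent.P073

open MeasureTheory Set Filter Topology Metric Module
open scoped ENNReal ContDiff

section

variable {E : Type*} [NormedAddCommGroup E] [InnerProductSpace ℝ E] [FiniteDimensional ℝ E]
  [MeasurableSpace E] [BorelSpace E] (μ : Measure E) [μ.IsAddHaarMeasure]
  {G : Type*} [NormedAddCommGroup G] [NormedSpace ℝ G] [CompleteSpace G]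

theorem exists_closedBall_subset {K₁ K₂ : Set E} (hK₁ : IsCompact K₁) (h : K₁ ⊆ interior K₂) :
    ∃ r > 0, ∀ x ∈ K₁, closedBall x r ⊆ K₂ := by
  obtain ⟨r, hr, hr'⟩ := hK₁.exists_thickening_subset_open isOpen_interior h
  refine ⟨r / 2, by positivity, fun x hx y hy => interior_subset (hr' ?_)⟩
  rw [mem_thickening_iff]
  refine ⟨x, hx, ?_⟩
  rw [mem_closedBall] at hy
  linarith only [hr, hy]

/-- Uniform oscillation bound of a continuous function near a compact set. -/
theorem exists_osc_le {F : Type*} [NormedAddCommGroup F] {K₁ K₂ : Set E} (hK₁ : IsCompact K₁)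
    (hK₂ : IsCompact K₂) (h : K₁ ⊆ interior K₂) {w : E → F} (hw : ContinuousOn w K₂)
    {s : ℝ} (hs : 0 < s) :
    ∃ r > 0, ∀ x ∈ K₁, ∀ y ∈ closedBall x r, ‖w y - w x‖ ≤ s := by
  obtain ⟨r₀, hr₀, hsub⟩ := exists_closedBall_subset hK₁ h
  have huc := hK₂.uniformContinuousOn_of_continuous hw
  obtain ⟨r₁, hr₁, h1⟩ := Metric.uniformContinuousOn_iff.1 huc s hs
  refine ⟨min r₀ (r₁ / 2), lt_min hr₀ (by (clear * - hr₁; positivity)), fun x hx y hy => ?_⟩
  rw [mem_closedBall, le_min_iff] at hy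
  rw [← dist_eq_norm]
  apply (h1 y (hsub x hx (mem_closedBall.2 hy.1)) x (interior_subset (h hx)) _).le
  linarith only [hr₁, hy]

/-- Smoothing on a compact set: uniform closeness, `L^p` closeness of derivatives, and one-sided
bounds. -/
theorem local_smoothing {Ω : Set E} (hΩ : IsOpen Ω) {p : ℝ} (hp : 1 ≤ p) {u : E → G}
    (hu : ContinuousOn u Ω) {U : E → (E →L[ℝ] G)} (hU : HasWeakDerivOn μ Ω u U)
    {A : E → (E →L[ℝ] E)} (hA : ContDiffOn ℝ ∞ A Ω) {c : E → (E →L[ℝ] G)}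
    (hc : ContinuousOn c Ω) {K₁ K₂ : Set E} (hK₁ : IsCompact K₁) (hK₂ : IsCompact K₂)
    (h12 : K₁ ⊆ interior K₂) (h2 : K₂ ⊆ Ω)
    (hUp : MemLp U (ENNReal.ofReal p) (μ.restrict K₂)) {τ : ℝ} (hτ : 0 < τ) :
    ∃ v : E → G, ContDiff ℝ ∞ v ∧ (∀ x ∈ K₁, ‖v x - u x‖ ≤ τ) ∧
      (∫⁻ x in K₁, ‖fderiv ℝ v x - U x‖ₑ ^ p ∂μ ≤ ENNReal.ofReal τ) ∧
      (∀ (a : E) (ℓ : G →L[ℝ] ℝ), ‖a‖ ≤ 1 → ‖ℓ‖ ≤ 1 →
        (∀ᵐ x ∂μ.restrict Ω, 0 ≤ ℓ ((U x - c x) (A x a))) →
        ∀ x ∈ K₁, -τ ≤ ℓ ((fderiv ℝ v x - c x) (A x a))) := by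
  have hC0 := etaC_nonneg (E := E) μ
  -- bounds on K₂
  have hAK : ContinuousOn A K₂ := hA.continuousOn.mono h2
  have hdA : ContinuousOn (fderiv ℝ A) K₂ :=
    (hA.continuousOn_fderiv_of_isOpen hΩ (by simp only [WithTop.one_le_coe, le_top])).mono h2
  obtain ⟨L, hL⟩ := hK₂.exists_bound_of_continuousOn hdA
  obtain ⟨α, hα⟩ := hK₂.exists_bound_of_continuousOn hAK
  obtain ⟨γ, hγ⟩ := hK₂.exists_bound_of_continuousOn (hc.mono h2)
  set L' := max L 0 with hL'
  set α' := max α 0 with hα'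
  set γ' := max γ 0 with hγ'
  have hL'0 : 0 ≤ L' := le_max_right _ _
  have hα'0 : 0 ≤ α' := le_max_right _ _
  have hγ'0 : 0 ≤ γ' := le_max_right _ _
  -- small parameters
  set n : ℝ := (finrank ℝ E : ℝ) with hn
  have hn0 : 0 ≤ n := Nat.cast_nonneg _
  set D : ℝ := n * (L' * (etaC (E := E) μ + 1)) + α' + γ' * L' + 1 with hD
  have hDpos : 0 < D := by (clear Ω hΩ p hp u hu U hU A hA c hc K₁ K₂ hK₁ hK₂ h12 h2 hUp τ hτ hAK hdA hL hα hγ hL' hα' hγ' hL'0 hα'0 hγ'0 hn hn0 hD; positivity)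
  set s : ℝ := τ / (3 * D) with hs
  have hspos : 0 < s := by (clear Ω hΩ p hp u hu U hU A hA c hc K₁ K₂ hK₁ hK₂ h12 h2 hUp hAK hdA hL hα hγ hL' hα' hγ' hL'0 hα'0 hγ'0 hn hn0 hD hDpos hs; positivity)
  obtain ⟨r₀, hr₀, hsub⟩ := exists_closedBall_subset hK₁ h12
  obtain ⟨r₁, hr₁, hosc₁⟩ := exists_osc_le hK₁ hK₂ h12 (hu.mono h2) hspos
  obtain ⟨r₂, hr₂, hosc₂⟩ := exists_osc_le hK₁ hK₂ h12 (hc.mono h2) hspos
  have hUK : MemLp (K₂.indicator U) (ENNReal.ofReal p) μ :=
    (memLp_indicator_iff_restrict hK₂.measurableSet).2 hUp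
  obtain ⟨r₃, hr₃, hLp⟩ := exists_lintegral_moll_sub_le μ hp hUK hτ
  set ε : ℝ := min (min (min r₀ r₁) (min r₂ (r₃ / 2))) s with hεdef
  have hε : 0 < ε := by
    apply lt_min (lt_min (lt_min hr₀ hr₁) (lt_min hr₂ (by (clear * - hr₃; positivity)))) hspos
  have hε0 : ε ≤ r₀ := ((min_le_left _ _).trans (min_le_left _ _)).trans (min_le_left _ _)
  have hε1 : ε ≤ r₁ := ((min_le_left _ _).trans (min_le_left _ _)).trans (min_le_right _ _)
  have hε2 : ε ≤ r₂ := ((min_le_left _ _).trans (min_le_right _ _)).trans (min_le_left _ _)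
  have hε3 : ε < r₃ := by
    have : ε ≤ r₃ / 2 := ((min_le_left _ _).trans (min_le_right _ _)).trans (min_le_right _ _)
    linarith only [hε, this]
  have hεs : ε ≤ s := min_le_right _ _
  have hball : ∀ x ∈ K₁, closedBall x ε ⊆ K₂ := fun x hx =>
    (closedBall_subset_closedBall hε0).trans (hsub x hx)
  have huint : Integrable (K₂.indicator u) μ :=
    (hU.integrableOn_left μ hK₂ h2).integrable_indicator hK₂.measurableSet
  have hUint : Integrable (K₂.indicator U) μ :=
    (hU.integrableOn_right μ hK₂ h2).integrable_indicator hK₂.measurableSet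
  have hfd : ∀ x ∈ K₁, fderiv ℝ (moll μ ε (K₂.indicator u)) x = moll μ ε (K₂.indicator U) x :=
    fun x hx => fderiv_moll μ hU hK₂ h2 hε (hball x hx)
  have hsτ : s ≤ τ := by
    rw [hs, div_le_iff₀ (by (clear Ω hΩ p hp u hu U hU A hA c hc K₁ K₂ hK₁ hK₂ h12 h2 hUp τ hτ hAK hdA hL hα hγ hL' hα' hγ' hL'0 hα'0 hγ'0 hn hn0 hD hDpos s hs hspos r₀ hr₀ hsub r₁ hr₁ hosc₁ r₂ hr₂ hosc₂ hUK r₃ hr₃ hLp ε hεdef hε hε0 hε1 hε2 hε3 hεs hball huint hUint hfd; positivity))]
    have : 1 ≤ D := by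
      rw [hD]
      have : 0 ≤ n * (L' * (etaC (E := E) μ + 1)) + α' + γ' * L' := by (clear Ω hΩ p hp u hu U hU A hA c hc K₁ K₂ hK₁ hK₂ h12 h2 hUp τ hτ hAK hdA hL hα hγ hL' hα' hγ' hL'0 hα'0 hγ'0 hn hn0 D hD hDpos s hs hspos r₀ hr₀ hsub r₁ hr₁ hosc₁ r₂ hr₂ hosc₂ hUK r₃ hr₃ hLp ε hεdef hε hε0 hε1 hε2 hε3 hεs hball huint hUint hfd; positivity)
      (clear Ω hΩ p hp u hu U hU A hA c hc K₁ K₂ hK₁ hK₂ h12 h2 hUp τ hτ hAK hdA hL hα hγ hL' hα' hγ' hL'0 hα'0 hγ'0 hn hn0 D hD hDpos s hs hspos r₀ hr₀ hsub r₁ hr₁ hosc₁ r₂ hr₂ hosc₂ hUK r₃ hr₃ hLp ε hεdef hε hε0 hε1 hε2 hε3 hεs hball huint hUint hfd; linarith)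
    (clear Ω hΩ p hp u hu U hU A hA c hc K₁ K₂ hK₁ hK₂ h12 h2 hUp hAK hdA hL hα hγ hL' hα' hγ' hL'0 hα'0 hγ'0 hn hn0 s hs hspos r₀ hr₀ hsub r₁ hr₁ hosc₁ r₂ hr₂ hosc₂ hUK r₃ hr₃ hLp ε hεdef hε hε0 hε1 hε2 hε3 hεs hball huint hUint hfd; linarith [mul_nonneg (le_of_lt (sub_pos.2 hτ)) (sub_nonneg.2 this), mul_pos (sub_pos.2 hτ) (sub_pos.2 hDpos)])
  refine ⟨moll μ ε (K₂.indicator u), contDiff_moll μ hε huint.locallyIntegrable, ?_, ?_, ?_⟩
  · intro x hx
    apply norm_moll_sub_le μ hε huint.integrableOn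
    intro y hy
    have hyK : y ∈ K₂ := hball x hx (ball_subset_closedBall hy)
    rw [indicator_of_mem hyK]
    exact (hosc₁ x hx y (closedBall_subset_closedBall hε1 (ball_subset_closedBall hy))).trans hsτ
  · calc ∫⁻ x in K₁, ‖fderiv ℝ (moll μ ε (K₂.indicator u)) x - U x‖ₑ ^ p ∂μ
        = ∫⁻ x in K₁, ‖moll μ ε (K₂.indicator U) x - K₂.indicator U x‖ₑ ^ p ∂μ := by
          apply setLIntegral_congr_fun hK₁.measurableSet
          intro x hx
          simp only
          rw [hfd x hx, indicator_of_mem (interior_subset (h12 hx))]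
      _ ≤ ∫⁻ x, ‖moll μ ε (K₂.indicator U) x - K₂.indicator U x‖ₑ ^ p ∂μ :=
          setLIntegral_le_lintegral _ _
      _ ≤ ENNReal.ofReal τ := hLp ε hε hε3
  · intro a ℓ ha hℓ hae x hx
    rw [hfd x hx]
    have hxK₂ : x ∈ K₂ := interior_subset (h12 hx)
    have hcb := hball x hx
    have hcomm := norm_commutator_le μ hΩ hU hA hε (hcb.trans h2) (u x)
      (fun y hy => (hL y (hcb hy)).trans (le_max_left L 0))
      (fun y hy => hosc₁ x hx y (closedBall_subset_closedBall hε1 hy))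
    -- Lipschitz bound for A on the ball
    have hlip : ∀ y ∈ closedBall x ε, ‖A y - A x‖ ≤ L' * ε := by
      intro y hy
      have := (convex_closedBall x ε).norm_image_sub_le_of_norm_fderiv_le (𝕜 := ℝ)
        (f := A) (fun z hz => ((hA.contDiffAt (hΩ.mem_nhds (h2 (hcb hz)))).differentiableAt
          (by simp)))
        (fun z hz => (hL z (hcb hz)).trans (le_max_left L 0)) (mem_closedBall_self hε.le) hy
      refine this.trans ?_
      rw [mem_closedBall, dist_eq_norm] at hy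
      exact mul_le_mul_of_nonneg_left hy hL'0
    -- the three integrands
    have hcIntOn : IntegrableOn c (closedBall x ε) μ :=
      ((hc.mono h2).mono hcb).integrableOn_compact (isCompact_closedBall x ε)
    have hUIntOn : IntegrableOn U (closedBall x ε) μ :=
      hU.integrableOn_right μ (isCompact_closedBall x ε) (hcb.trans h2)
    have hAcont : ContinuousOn A (closedBall x ε) := hAK.mono hcb
    have hmeasA : AEStronglyMeasurable A (μ.restrict (closedBall x ε)) :=
      hAcont.aestronglyMeasurable isClosed_closedBall.measurableSet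
    -- I1 : η (U - c) A
    have hI1 : Integrable (fun y => eta μ ε (x - y) • (U y - c y).comp (A y)) μ := by
      apply integrable_eta_smul μ hε
      have hm : AEStronglyMeasurable (fun y => (U y - c y).comp (A y))
          (μ.restrict (closedBall x ε)) :=
        (ContinuousLinearMap.compL ℝ E E G).aestronglyMeasurable_comp₂
          (hUIntOn.sub hcIntOn).1 hmeasA
      refine Integrable.mono' ((hUIntOn.sub hcIntOn).norm.mul_const α') hm ?_
      rw [ae_restrict_iff' isClosed_closedBall.measurableSet]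
      refine Eventually.of_forall fun y hy => ?_
      refine (ContinuousLinearMap.opNorm_comp_le _ _).trans ?_
      exact mul_le_mul_of_nonneg_left ((hα y (hcb hy)).trans (le_max_left _ _)) (norm_nonneg _)
    have hI2 : Integrable (fun y => eta μ ε (x - y) • (U y).comp (A y - A x)) μ := by
      apply integrable_eta_smul μ hε
      have hm : AEStronglyMeasurable (fun y => (U y).comp (A y - A x))
          (μ.restrict (closedBall x ε)) :=
        (ContinuousLinearMap.compL ℝ E E G).aestronglyMeasurable_comp₂ hUIntOn.1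
          (hmeasA.sub aestronglyMeasurable_const)
      refine Integrable.mono' (hUIntOn.norm.mul_const (L' * ε)) hm ?_
      rw [ae_restrict_iff' isClosed_closedBall.measurableSet]
      refine Eventually.of_forall fun y hy => ?_
      refine (ContinuousLinearMap.opNorm_comp_le _ _).trans ?_
      exact mul_le_mul_of_nonneg_left (hlip y hy) (norm_nonneg _)
    have hcContOn : ContinuousOn c (closedBall x ε) := (hc.mono h2).mono hcb
    have hI3 : Integrable (fun y => eta μ ε (x - y) • (c y).comp (A y - A x)) μ := by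
      apply integrable_eta_smul μ hε
      apply ContinuousOn.integrableOn_compact (isCompact_closedBall x ε)
      exact hcContOn.clm_comp (hAcont.sub continuousOn_const)
    have hI4 : Integrable (fun y => eta μ ε (x - y) • (c y - c x).comp (A x)) μ := by
      apply integrable_eta_smul μ hε
      apply ContinuousOn.integrableOn_compact (isCompact_closedBall x ε)
      exact (hcContOn.sub continuousOn_const).clm_comp continuousOn_const
    have hdecomp : (moll μ ε (K₂.indicator U) x - c x).comp (A x) =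
        (∫ y, eta μ ε (x - y) • (U y - c y).comp (A y) ∂μ)
        - (∫ y, eta μ ε (x - y) • (U y).comp (A y - A x) ∂μ)
        + (∫ y, eta μ ε (x - y) • (c y).comp (A y - A x) ∂μ)
        + (∫ y, eta μ ε (x - y) • (c y - c x).comp (A x) ∂μ) := by
      have hI12 : Integrable (fun y => eta μ ε (x - y) • (U y - c y).comp (A y) -
          eta μ ε (x - y) • (U y).comp (A y - A x)) μ := hI1.sub hI2
      have hI123 : Integrable (fun y => eta μ ε (x - y) • (U y - c y).comp (A y) -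
          eta μ ε (x - y) • (U y).comp (A y - A x) +
          eta μ ε (x - y) • (c y).comp (A y - A x)) μ := hI12.add hI3
      rw [← integral_sub hI1 hI2, ← integral_add hI12 hI3, ← integral_add hI123 hI4]
      rw [moll_sub_eq μ hε (c x) hUint.integrableOn]
      have hI5 : Integrable (fun y => eta μ ε (x - y) • (K₂.indicator U y - c x)) μ := by
        apply integrable_eta_smul μ hε
        apply hUint.integrableOn.sub
        exact continuousOn_const.integrableOn_compact (isCompact_closedBall x ε)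
      have h6 := ((ContinuousLinearMap.compL ℝ E E G).flip (A x)).integral_comp_comm hI5
      have h7 : (∫ y, eta μ ε (x - y) • (K₂.indicator U y - c x) ∂μ).comp (A x) =
          ((ContinuousLinearMap.compL ℝ E E G).flip (A x))
            (∫ y, eta μ ε (x - y) • (K₂.indicator U y - c x) ∂μ) := rfl
      rw [h7, ← h6]
      congr 1
      ext y z
      by_cases hy : y ∈ K₂
      · rw [indicator_of_mem hy]
        simp only [map_smul, ContinuousLinearMap.flip_apply, map_sub, sub_apply, ContinuousLinearMap.compL_apply, smul_apply, ContinuousLinearMap.comp_apply, ContinuousLinearMap.sub_comp, ContinuousLinearMap.comp_sub, add_apply]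
        module
      · have h8 : ε ≤ ‖x - y‖ := by
          by_contra h9
          apply hy
          apply hcb
          rw [mem_closedBall, dist_comm, dist_eq_norm]
          linarith only [h9]
        rw [eta_eq_zero μ hε h8]
        simp only [zero_smul, ContinuousLinearMap.flip_apply, map_zero, zero_apply, ContinuousLinearMap.sub_comp, ContinuousLinearMap.comp_sub, sub_self, add_zero]
    -- the first integral is nonnegative when tested
    have hpos : 0 ≤ ℓ ((∫ y, eta μ ε (x - y) • (U y - c y).comp (A y) ∂μ) a) := by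
      rw [ContinuousLinearMap.integral_apply hI1]
      have hI1a : Integrable (fun y => (eta μ ε (x - y) • (U y - c y).comp (A y)) a) μ :=
        hI1.apply_continuousLinearMap a
      rw [← ContinuousLinearMap.integral_comp_comm ℓ hI1a]
      apply integral_nonneg_of_ae
      have h9 : ∀ᵐ y ∂μ, y ∈ Ω → 0 ≤ ℓ ((U y - c y) (A y a)) := by
        rwa [← ae_restrict_iff' hΩ.measurableSet]
      filter_upwards [h9] with y hy
      show 0 ≤ ℓ ((eta μ ε (x - y) • (U y - c y).comp (A y)) a)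
      by_cases hyΩ : y ∈ Ω
      · have h10 : (eta μ ε (x - y) • (U y - c y).comp (A y)) a =
            eta μ ε (x - y) • ((U y - c y) (A y a)) := rfl
        rw [h10, map_smul, smul_eq_mul]
        exact mul_nonneg (eta_nonneg μ hε.le _) (hy hyΩ)
      · have h8 : ε ≤ ‖x - y‖ := by
          by_contra h9
          apply hyΩ
          apply h2
          apply hcb
          rw [mem_closedBall, dist_comm, dist_eq_norm]
          linarith only [h9]
        rw [eta_eq_zero μ hε h8]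
        simp
    -- bounds on the other integrals
    have hb3 : ‖∫ y, eta μ ε (x - y) • (c y).comp (A y - A x) ∂μ‖ ≤ γ' * (L' * ε) := by
      apply norm_integral_eta_smul_le μ hε
      intro y hy
      have hy' := ball_subset_closedBall hy
      refine (ContinuousLinearMap.opNorm_comp_le _ _).trans ?_
      exact mul_le_mul ((hγ y (hcb hy')).trans (le_max_left _ _)) (hlip y hy') (norm_nonneg _)
        hγ'0
    have hb4 : ‖∫ y, eta μ ε (x - y) • (c y - c x).comp (A x) ∂μ‖ ≤ s * α' := by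
      apply norm_integral_eta_smul_le μ hε
      intro y hy
      have hy' := ball_subset_closedBall hy
      refine (ContinuousLinearMap.opNorm_comp_le _ _).trans ?_
      exact mul_le_mul (hosc₂ x hx y (closedBall_subset_closedBall hε2 hy'))
        ((hα x hxK₂).trans (le_max_left _ _)) (norm_nonneg _) hspos.le
    have hle : ∀ T : E →L[ℝ] G, -‖T‖ ≤ ℓ (T a) ∧ ℓ (T a) ≤ ‖T‖ := by
      intro T
      have h11 : |ℓ (T a)| ≤ ‖T‖ := by
        calc |ℓ (T a)| = ‖ℓ (T a)‖ := (Real.norm_eq_abs _).symm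
          _ ≤ ‖ℓ‖ * ‖T a‖ := ℓ.le_opNorm _
          _ ≤ 1 * (‖T‖ * 1) := by
              apply mul_le_mul hℓ _ (norm_nonneg _) zero_le_one
              exact (T.le_opNorm a).trans (mul_le_mul_of_nonneg_left ha (norm_nonneg _))
          _ = ‖T‖ := by ring
      exact abs_le.1 h11
    have hfin : ℓ ((moll μ ε (K₂.indicator U) x - c x) (A x a)) =
        ℓ ((∫ y, eta μ ε (x - y) • (U y - c y).comp (A y) ∂μ) a)
        - ℓ ((∫ y, eta μ ε (x - y) • (U y).comp (A y - A x) ∂μ) a)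
        + ℓ ((∫ y, eta μ ε (x - y) • (c y).comp (A y - A x) ∂μ) a)
        + ℓ ((∫ y, eta μ ε (x - y) • (c y - c x).comp (A x) ∂μ) a) := by
      have : (moll μ ε (K₂.indicator U) x - c x) (A x a) =
          ((moll μ ε (K₂.indicator U) x - c x).comp (A x)) a := rfl
      rw [this, hdecomp]
      simp only [ContinuousLinearMap.sub_comp, ContinuousLinearMap.comp_sub, add_apply, sub_apply, map_add, map_sub]
    rw [hfin]
    have e2 := (hle (∫ y, eta μ ε (x - y) • (U y).comp (A y - A x) ∂μ)).2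
    have e3 := (hle (∫ y, eta μ ε (x - y) • (c y).comp (A y - A x) ∂μ)).1
    have e4 := (hle (∫ y, eta μ ε (x - y) • (c y - c x).comp (A x) ∂μ)).1
    have e5 : n * s * (L' * (etaC (E := E) μ + 1)) + γ' * (L' * ε) + s * α' ≤ τ := by
      have e6 : γ' * (L' * ε) ≤ γ' * L' * s := by
        have : γ' * (L' * ε) = γ' * L' * ε := by ring
        rw [this]
        exact mul_le_mul_of_nonneg_left hεs (by (clear * -; positivity))
      have e7 : n * s * (L' * (etaC (E := E) μ + 1)) + γ' * L' * s + s * α' ≤ D * s := by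
        rw [hD]; (clear Ω hΩ p hp u hu U hU A hA c hc K₁ K₂ hK₁ hK₂ h12 h2 hUp hAK hdA hL hα hγ hL' hα' hγ' hL'0 hα'0 hγ'0 hn hn0 hD hDpos hs r₀ hr₀ hsub r₁ hr₁ hosc₁ r₂ hr₂ hosc₂ hUK r₃ hr₃ hLp ε hεdef hε hε0 hε1 hε2 hε3 hεs hball huint hUint hfd hsτ a ℓ ha hℓ hae x hx hxK₂ hcb hcomm hlip hcIntOn hUIntOn hAcont hmeasA hI1 hI2 hcContOn hI3 hI4 hdecomp hpos hb3 hb4 hle hfin e2 e3 e4 e6; nlinarith)
      have e8 : D * s = τ / 3 := by
        rw [hs]; (clear * - hDpos hτ; field_simp)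
      (clear Ω hΩ p hp u hu U hU A hA c hc K₁ K₂ hK₁ hK₂ h12 h2 hUp hAK hdA hL hα hγ hL' hα' hγ' hL'0 hα'0 hγ'0 hn hn0 hD hr₀ hsub hr₁ hosc₁ hr₂ hosc₂ hUK hr₃ hLp hεdef hε hε0 hε1 hε2 hε3 hball huint hUint hfd hsτ a ℓ ha hℓ hae x hx hxK₂ hcb hcomm hlip hcIntOn hUIntOn hAcont hmeasA hI1 hI2 hcContOn hI3 hI4 hdecomp hpos hb3 hb4 hle hfin e2 e3 e4 e7; linarith)
    linarith

end

end Vale.Agent.P073
end

section

/-!
# P073: compact exhaustions with smooth cutoffs, and patching of smooth functions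
-/

set_option linter.unusedSectionVars false
set_option maxSynthPendingDepth 3

namespace Vale.Agent.P073

open Set Filter Topology Metric Module
open scoped ContDiff Manifold

section

variable {E : Type*} [NormedAddCommGroup E] [NormedSpace ℝ E] [FiniteDimensional ℝ E]
  {G : Type*} [NormedAddCommGroup G] [NormedSpace ℝ G]

/-- A compact exhaustion of `Ω` with smooth cutoff functions. -/
structure Exh (Ω : Set E) where
  K : ℕ → Set E
  φ : ℕ → E → ℝ
  K_zero : K 0 = ∅
  isCompact_K : ∀ j, IsCompact (K j)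
  subset_interior : ∀ j, K j ⊆ interior (K (j + 1))
  iUnion_K : ⋃ j, K j = Ω
  contDiff_φ : ∀ j, ContDiff ℝ ∞ (φ j)
  φ_mem : ∀ j x, φ j x ∈ Icc (0 : ℝ) 1
  φ_one : ∀ j, ∀ x ∈ K j, ∀ᶠ y in 𝓝 x, φ j y = 1
  φ_zero : ∀ j, ∀ x ∉ interior (K (j + 1)), ∀ᶠ y in 𝓝 x, φ j y = 0

/-- the auxiliary exhaustion sets -/
def exhSet (Ω : Set E) (j : ℕ) : Set E :=
  closedBall 0 j ∩ (thickening (1 / ((j : ℝ) + 1)) Ωᶜ)ᶜ

theorem isCompact_exhSet (Ω : Set E) (j : ℕ) : IsCompact (exhSet Ω j) :=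
  (isCompact_closedBall 0 (j : ℝ)).inter_right isOpen_thickening.isClosed_compl

theorem exhSet_subset_interior (Ω : Set E) (j : ℕ) :
    exhSet Ω j ⊆ interior (exhSet Ω (j + 1)) := by
  have h1 : exhSet Ω j ⊆ ball 0 ((j + 1 : ℕ) : ℝ) ∩ (cthickening (1 / (((j + 1 : ℕ) : ℝ) + 1)) Ωᶜ)ᶜ := by
    intro x hx
    refine ⟨?_, ?_⟩
    · have := hx.1
      rw [mem_closedBall] at this
      rw [mem_ball]
      push_cast
      linarith
    · intro h
      apply hx.2
      apply cthickening_subset_thickening' (by positivity) _ _ h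
      push_cast
      apply one_div_lt_one_div_of_lt <;> [positivity; linarith]
  refine h1.trans (interior_maximal ?_ (isOpen_ball.inter isClosed_cthickening.isOpen_compl))
  intro x hx
  refine ⟨ball_subset_closedBall hx.1, fun h => hx.2 (thickening_subset_cthickening _ _ h)⟩

theorem iUnion_exhSet {Ω : Set E} (hΩ : IsOpen Ω) : ⋃ j, exhSet Ω j = Ω := by
  apply Subset.antisymm
  · apply iUnion_subset
    intro j x hx
    by_contra h
    exact hx.2 (self_subset_thickening (by positivity) _ h)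
  · intro x hx
    obtain ⟨r, hr, hrΩ⟩ := Metric.isOpen_iff.1 hΩ x hx
    obtain ⟨n, hn⟩ := exists_nat_one_div_lt hr
    obtain ⟨m, hm⟩ := exists_nat_ge ‖x‖
    rw [mem_iUnion]
    refine ⟨max n m, ?_, ?_⟩
    · rw [mem_closedBall_zero_iff]
      refine hm.trans ?_
      exact_mod_cast le_max_right n m
    · intro h
      rw [mem_thickening_iff] at h
      obtain ⟨z, hz, hxz⟩ := h
      apply hz
      apply hrΩ
      rw [mem_ball, dist_comm]
      refine hxz.trans (lt_of_le_of_lt ?_ hn)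
      apply one_div_le_one_div_of_le (by (clear * -; positivity))
      have : (n : ℝ) ≤ ((max n m : ℕ) : ℝ) := by exact_mod_cast le_max_left n m
      linarith only [this]

theorem exists_cutoff {s t : Set E} (hs : IsClosed s) (ht : IsClosed t) (hd : Disjoint s t) :
    ∃ f : E → ℝ, ContDiff ℝ ∞ f ∧ (∀ x ∈ s, ∀ᶠ y in 𝓝 x, f y = 0) ∧
      (∀ x ∈ t, ∀ᶠ y in 𝓝 x, f y = 1) ∧ ∀ x, f x ∈ Icc (0 : ℝ) 1 := by
  obtain ⟨f, h0, h1, h2⟩ := exists_contMDiffMap_zero_one_nhds_of_isClosed 𝓘(ℝ, E) hs ht hd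
    (n := ⊤)
  refine ⟨f, f.contMDiff.contDiff, ?_, ?_, h2⟩
  · intro x hx
    exact (eventually_nhdsSet_iff_forall.1 h0) x hx
  · intro x hx
    exact (eventually_nhdsSet_iff_forall.1 h1) x hx

theorem exists_exh {Ω : Set E} (hΩ : IsOpen Ω) : Nonempty (Exh Ω) := by
  let K : ℕ → Set E := fun j => Nat.casesOn j ∅ (fun i => exhSet Ω i)
  have hKc : ∀ j, IsCompact (K j) := by
    intro j
    cases j with
    | zero => exact isCompact_empty
    | succ i => exact isCompact_exhSet Ω i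
  have hKi : ∀ j, K j ⊆ interior (K (j + 1)) := by
    intro j
    cases j with
    | zero => exact empty_subset _
    | succ i => exact exhSet_subset_interior Ω i
  have hφ : ∀ j, ∃ f : E → ℝ, ContDiff ℝ ∞ f ∧
      (∀ x ∈ (interior (K (j + 1)))ᶜ, ∀ᶠ y in 𝓝 x, f y = 0) ∧
      (∀ x ∈ K j, ∀ᶠ y in 𝓝 x, f y = 1) ∧ ∀ x, f x ∈ Icc (0 : ℝ) 1 := fun j =>
    exists_cutoff isOpen_interior.isClosed_compl (hKc j).isClosed
      (disjoint_left.2 fun x hx hx' => hx (hKi j hx'))
  choose φ h1 h2 h3 h4 using hφ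
  refine ⟨⟨K, φ, rfl, hKc, hKi, ?_, h1, h4, h3, h2⟩⟩
  rw [← iUnion_exhSet hΩ]
  apply Subset.antisymm
  · apply iUnion_subset
    intro j
    cases j with
    | zero => exact empty_subset _
    | succ i => exact subset_iUnion (exhSet Ω) i
  · apply iUnion_subset
    intro j
    exact subset_iUnion K (j + 1)

namespace Exh

variable {Ω : Set E} (X : Exh Ω)

theorem K_succ (j : ℕ) : X.K j ⊆ X.K (j + 1) := (X.subset_interior j).trans interior_subset

theorem K_mono : Monotone X.K := monotone_nat_of_le_succ X.K_succ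

theorem K_subset (j : ℕ) : X.K j ⊆ Ω := by
  conv_rhs => rw [← X.iUnion_K]
  exact subset_iUnion X.K j

theorem exists_mem {x : E} (hx : x ∈ Ω) : ∃ m, x ∈ X.K m := by
  rw [← X.iUnion_K] at hx
  exact mem_iUnion.1 hx

/-- Every point of `Ω` lies in a unique shell. -/
theorem exists_shell {x : E} (hx : x ∈ Ω) : ∃ m, x ∈ X.K (m + 1) ∧ x ∉ X.K m := by
  classical
  have h := X.exists_mem hx
  have h0 : Nat.find h ≠ 0 := by
    intro h0
    have := Nat.find_spec h
    rw [h0, X.K_zero] at this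
    exact this
  obtain ⟨m, hm⟩ := Nat.exists_eq_succ_of_ne_zero h0
  refine ⟨m, ?_, ?_⟩
  · have := Nat.find_spec h
    rwa [hm] at this
  · apply Nat.find_min h
    omega

/-- partial sums of the patching -/
def S (v : ℕ → E → G) (m : ℕ) (x : E) : G :=
  v 0 x + ∑ j ∈ Finset.range m, (1 - X.φ j x) • (v (j + 1) x - v j x)

open Classical in
/-- the patched function -/
noncomputable def patch (v : ℕ → E → G) (x : E) : G :=
  if h : ∃ m, x ∈ X.K m then X.S v (Nat.find h) x else 0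

theorem S_eq_of_le (v : ℕ → E → G) {m m' : ℕ} (h : m ≤ m') {x : E} (hx : x ∈ X.K m) :
    X.S v m' x = X.S v m x := by
  unfold S
  congr 1
  symm
  apply Finset.sum_subset (Finset.range_mono h)
  intro j _ hj
  have hmj : m ≤ j := by simpa using hj
  have := (X.φ_one j x (X.K_mono hmj hx)).self_of_nhds
  rw [this, sub_self, zero_smul]

theorem patch_eq (v : ℕ → E → G) {m : ℕ} {x : E} (hx : x ∈ X.K m) :
    X.patch v x = X.S v m x := by
  classical
  have h : ∃ m, x ∈ X.K m := ⟨m, hx⟩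
  unfold patch
  rw [dif_pos h]
  exact (X.S_eq_of_le v (Nat.find_min' h hx) (Nat.find_spec h)).symm

/-- local form of the patched function on a shell -/
theorem patch_eventuallyEq (v : ℕ → E → G) {m : ℕ} {x : E} (hx : x ∈ X.K (m + 1))
    (hx' : x ∉ X.K m) :
    ∀ᶠ y in 𝓝 x, X.patch v y = X.φ m y • v m y + (1 - X.φ m y) • v (m + 1) y := by
  have h1 : ∀ᶠ y in 𝓝 x, y ∈ X.K (m + 2) :=
    mem_of_superset (isOpen_interior.mem_nhds (X.subset_interior (m + 1) hx)) interior_subset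
  have h2 : ∀ᶠ y in 𝓝 x, ∀ j ∈ Finset.range m, X.φ j y = 0 := by
    rw [eventually_all_finset]
    intro j hj
    apply X.φ_zero j x
    intro h
    apply hx'
    rw [Finset.mem_range] at hj
    exact X.K_mono (by omega : j + 1 ≤ m) (interior_subset h)
  have h3 : ∀ᶠ y in 𝓝 x, X.φ (m + 1) y = 1 := X.φ_one (m + 1) x hx
  filter_upwards [h1, h2, h3] with y hy1 hy2 hy3
  rw [X.patch_eq v hy1]
  unfold S
  rw [Finset.sum_range_succ, Finset.sum_range_succ, hy3, sub_self, zero_smul, add_zero]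
  have h4 : ∑ j ∈ Finset.range m, (1 - X.φ j y) • (v (j + 1) y - v j y) = v m y - v 0 y := by
    rw [← Finset.sum_range_sub (fun j => v j y) m]
    apply Finset.sum_congr rfl
    intro j hj
    rw [hy2 j hj, sub_zero, one_smul]
  rw [h4]
  rw [smul_sub, sub_smul, sub_smul, one_smul, one_smul]
  abel

theorem patch_eq_shell (v : ℕ → E → G) {m : ℕ} {x : E} (hx : x ∈ X.K (m + 1))
    (hx' : x ∉ X.K m) :
    X.patch v x = X.φ m x • v m x + (1 - X.φ m x) • v (m + 1) x :=
  (X.patch_eventuallyEq v hx hx').self_of_nhds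

theorem contDiffOn_patch (v : ℕ → E → G) (hv : ∀ j, ContDiff ℝ ∞ (v j)) :
    ContDiffOn ℝ ∞ (X.patch v) Ω := by
  intro x hx
  obtain ⟨m, hm, hm'⟩ := X.exists_shell hx
  have h1 : ContDiffAt ℝ ∞ (fun y => X.φ m y • v m y + (1 - X.φ m y) • v (m + 1) y) x :=
    (((X.contDiff_φ m).smul (hv m)).add
      ((contDiff_const.sub (X.contDiff_φ m)).smul (hv (m + 1)))).contDiffAt
  exact (h1.congr_of_eventuallyEq (X.patch_eventuallyEq v hm hm')).contDiffWithinAt

theorem fderiv_patch (v : ℕ → E → G) (hv : ∀ j, ContDiff ℝ ∞ (v j)) {m : ℕ} {x : E}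
    (hx : x ∈ X.K (m + 1)) (hx' : x ∉ X.K m) :
    fderiv ℝ (X.patch v) x = (X.φ m x • fderiv ℝ (v m) x + (1 - X.φ m x) • fderiv ℝ (v (m + 1)) x)
      + (fderiv ℝ (X.φ m) x).smulRight (v m x - v (m + 1) x) := by
  have hφ : HasFDerivAt (X.φ m) (fderiv ℝ (X.φ m) x) x :=
    ((X.contDiff_φ m).differentiable (by simp) x).hasFDerivAt
  have hv1 : HasFDerivAt (v m) (fderiv ℝ (v m) x) x :=
    ((hv m).differentiable (by simp) x).hasFDerivAt
  have hv2 : HasFDerivAt (v (m + 1)) (fderiv ℝ (v (m + 1)) x) x :=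
    ((hv (m + 1)).differentiable (by simp) x).hasFDerivAt
  have h1 := (hφ.smul hv1).add ((hφ.const_sub 1).smul hv2)
  have h2 : fderiv ℝ (X.patch v) x = fderiv ℝ (fun y => X.φ m y • v m y +
      (1 - X.φ m y) • v (m + 1) y) x :=
    Filter.EventuallyEq.fderiv_eq (X.patch_eventuallyEq v hx hx')
  rw [h2]
  erw [h1.fderiv]
  ext a
  simp only [add_apply, smul_apply, ContinuousLinearMap.smulRight_apply, neg_apply, neg_smul]
  module

end Exh

end

end Vale.Agent.P073
end

section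

/-!
# P073: fine smoothing on an open set, with one-sided bounds
-/

set_option linter.unusedSectionVars false
set_option maxSynthPendingDepth 3

namespace Vale.Agent.P073

open MeasureTheory Set Filter Topology Metric Module
open scoped ENNReal ContDiff

section

variable {E : Type*} [NormedAddCommGroup E] [InnerProductSpace ℝ E] [FiniteDimensional ℝ E]
  [MeasurableSpace E] [BorelSpace E] (μ : Measure E) [μ.IsAddHaarMeasure]
  {G : Type*} [NormedAddCommGroup G] [NormedSpace ℝ G] [CompleteSpace G]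

theorem exists_pos_lower_bound {K : Set E} (hK : IsCompact K) {δ : E → ℝ}
    (hδ : ContinuousOn δ K) (hpos : ∀ x ∈ K, 0 < δ x) : ∃ d > 0, ∀ x ∈ K, d ≤ δ x := by
  rcases K.eq_empty_or_nonempty with h | h
  · exact ⟨1, one_pos, fun x hx => by rw [h] at hx; exact absurd hx (notMem_empty x)⟩
  · obtain ⟨x₀, hx₀, hmin⟩ := hK.exists_isMinOn h hδ
    exact ⟨δ x₀, hpos x₀ hx₀, fun x hx => hmin hx⟩

theorem four_pow_aux {p : ℝ} (hp : 1 ≤ p) (a b c d : ℝ≥0∞) :
    (a + b + (c + d)) ^ p ≤ ENNReal.ofReal (4 ^ p) * (a ^ p + c ^ p + (b ^ p + d ^ p)) := by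
  have hp0 : 0 ≤ p := by linarith
  set m : ℝ≥0∞ := max (max a b) (max c d) with hm
  have h1 : a + b + (c + d) ≤ 4 * m := by
    have ha : a ≤ m := (le_max_left _ _).trans (le_max_left _ _)
    have hb : b ≤ m := (le_max_right _ _).trans (le_max_left _ _)
    have hc : c ≤ m := (le_max_left _ _).trans (le_max_right _ _)
    have hd : d ≤ m := (le_max_right _ _).trans (le_max_right _ _)
    calc a + b + (c + d) ≤ m + m + (m + m) := by (clear * - ha hb hc hd; gcongr)
      _ = 4 * m := by ring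
  have h2 : m ^ p ≤ a ^ p + c ^ p + (b ^ p + d ^ p) := by
    have : m = a ∨ m = b ∨ m = c ∨ m = d := by
      rw [hm]
      rcases le_total (max a b) (max c d) with h | h
      · rw [max_eq_right h]
        rcases le_total c d with h' | h'
        · rw [max_eq_right h']; (clear * -; tauto)
        · rw [max_eq_left h']; (clear * -; tauto)
      · rw [max_eq_left h]
        rcases le_total a b with h' | h'
        · rw [max_eq_right h']; (clear * -; tauto)
        · rw [max_eq_left h']; (clear * -; tauto)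
    rcases this with h | h | h | h
    · rw [h]; exact le_self_add.trans le_self_add
    · rw [h]; exact le_self_add.trans le_add_self
    · rw [h]; exact le_add_self.trans le_self_add
    · rw [h]; exact le_add_self.trans le_add_self
  calc (a + b + (c + d)) ^ p ≤ (4 * m) ^ p := ENNReal.rpow_le_rpow h1 hp0
    _ = 4 ^ p * m ^ p := ENNReal.mul_rpow_of_nonneg _ _ hp0
    _ ≤ ENNReal.ofReal (4 ^ p) * (a ^ p + c ^ p + (b ^ p + d ^ p)) := by
        gcongr
        rw [← ENNReal.ofReal_rpow_of_nonneg (by norm_num) hp0]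
        norm_num

/-- Fine smoothing of a continuous function with weak derivative in `L^p_loc`. -/
theorem fine_smoothing {Ω : Set E} (hΩ : IsOpen Ω) {p : ℝ} (hp : 1 ≤ p) {u : E → G}
    (hu : ContinuousOn u Ω) {U : E → (E →L[ℝ] G)} (hU : HasWeakDerivOn μ Ω u U)
    (hUp : ∀ K : Set E, IsCompact K → K ⊆ Ω → MemLp U (ENNReal.ofReal p) (μ.restrict K))
    {A : E → (E →L[ℝ] E)} (hA : ContDiffOn ℝ ∞ A Ω) {c : E → (E →L[ℝ] G)}
    (hc : ContinuousOn c Ω) {δ : E → ℝ} (hδ : ContinuousOn δ Ω) (hδpos : ∀ x ∈ Ω, 0 < δ x) :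
    ∃ v : E → G, ContDiffOn ℝ ∞ v Ω ∧ (∀ x ∈ Ω, ‖v x - u x‖ < δ x) ∧
      (∫⁻ x in Ω, ‖fderiv ℝ v x - U x‖ₑ ^ p / ENNReal.ofReal (δ x) ∂μ ≤ 1) ∧
      (∀ (a : E) (ℓ : G →L[ℝ] ℝ), ‖a‖ ≤ 1 → ‖ℓ‖ ≤ 1 →
        (∀ᵐ x ∂μ.restrict Ω, 0 ≤ ℓ ((U x - c x) (A x a))) →
        ∀ x ∈ Ω, -δ x ≤ ℓ ((fderiv ℝ v x - c x) (A x a))) := by
  have hp0 : 0 < p := by linarith only [hp]
  obtain ⟨X⟩ := exists_exh hΩ
  have hKΩ : ∀ j, X.K j ⊆ Ω := X.K_subset
  -- constants
  have hd : ∀ j, ∃ d > 0, ∀ x ∈ X.K (j + 1), d ≤ δ x := fun j =>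
    exists_pos_lower_bound (X.isCompact_K (j + 1)) (hδ.mono (hKΩ _))
      (fun x hx => hδpos x (hKΩ _ hx))
  choose d hdpos hd using hd
  have hΨ : ∀ j, ∃ C : ℝ, 1 ≤ C ∧ ∀ x ∈ X.K (j + 1), ‖fderiv ℝ (X.φ j) x‖ ≤ C ∧
      ‖fderiv ℝ (X.φ (j - 1)) x‖ ≤ C := by
    intro j
    obtain ⟨C₁, hC₁⟩ := (X.isCompact_K (j + 1)).exists_bound_of_continuousOn
      (((X.contDiff_φ j).continuous_fderiv (by simp)).continuousOn)
    obtain ⟨C₂, hC₂⟩ := (X.isCompact_K (j + 1)).exists_bound_of_continuousOn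
      (((X.contDiff_φ (j - 1)).continuous_fderiv (by simp)).continuousOn)
    exact ⟨max 1 (max C₁ C₂), le_max_left _ _, fun x hx =>
      ⟨(hC₁ x hx).trans ((le_max_left _ _).trans (le_max_right _ _)),
      (hC₂ x hx).trans ((le_max_right _ _).trans (le_max_right _ _))⟩⟩
  choose Ψ hΨ1 hΨ using hΨ
  have hα : ∀ j, ∃ C : ℝ, 1 ≤ C ∧ ∀ x ∈ X.K (j + 1), ‖A x‖ ≤ C := by
    intro j
    obtain ⟨C, hC⟩ := (X.isCompact_K (j + 1)).exists_bound_of_continuousOn
      (hA.continuousOn.mono (hKΩ _))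
    exact ⟨max 1 C, le_max_left _ _, fun x hx => (hC x hx).trans (le_max_right _ _)⟩
  choose α hα1 hα using hα
  set M : ℕ → ℝ := fun j => 4 ^ p * (μ.real (X.K (j + 1)) + 1) / d j with hM
  have hMpos : ∀ j, 0 < M j := fun j => by
    have := hdpos j
    have : 0 ≤ μ.real (X.K (j + 1)) := measureReal_nonneg
    (clear hΩ hp u hu U hU hUp A hA c hc δ hδ hδpos hp0 hKΩ hd Ψ hΨ1 hΨ α hα1 hα hM this; positivity)
  have hΨpos : ∀ j, 0 < Ψ j := fun j => one_pos.trans_le (hΨ1 j)
  have hαpos : ∀ j, 0 < α j := fun j => one_pos.trans_le (hα1 j)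
  set τ : ℕ → ℝ := fun j => min (min ((1 / 2) ^ (j + 3) / (M j * Ψ j)) (1 / Ψ j))
    (d j / (4 * (Ψ j * α j))) with hτdef
  have hτ : ∀ j, 0 < τ j := fun j => by
    have h1 := hMpos j
    have h2 := hΨpos j
    have h3 := hαpos j
    have h4 := hdpos j
    apply lt_min (lt_min (by (clear * - h4 h2; positivity)) (by positivity)) (by (clear * - h4 h2 h3; positivity))
  have hτ1 : ∀ j, M j * (Ψ j * τ j) ≤ (1 / 2) ^ (j + 3) := fun j => by
    have h1 : τ j ≤ (1 / 2) ^ (j + 3) / (M j * Ψ j) :=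
      (min_le_left _ _).trans (min_le_left _ _)
    rw [le_div_iff₀ (mul_pos (hMpos j) (hΨpos j))] at h1
    linarith only [h1]
  have hτ2 : ∀ j, Ψ j * τ j ≤ 1 := fun j => by
    have h1 : τ j ≤ 1 / Ψ j := (min_le_left _ _).trans (min_le_right _ _)
    rw [le_div_iff₀ (hΨpos j)] at h1
    linarith only [h1]
  have hτ3 : ∀ j, Ψ j * τ j * α j ≤ d j / 4 := fun j => by
    have h1 : τ j ≤ d j / (4 * (Ψ j * α j)) := min_le_right _ _
    rw [le_div_iff₀ (by have := hΨpos j; have := hαpos j; (clear Ω hΩ p hp u hu U hU hUp A hA c hc δ hδ hδpos hp0 X hKΩ d hdpos hd hΨ hα M hM hMpos τ hτdef hτ hτ1 hτ2 h1; positivity))] at h1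
    linarith only [h1]
  have hτ4 : ∀ j, τ j ≤ d j / 4 := fun j => by
    refine le_trans ?_ (hτ3 j)
    have h1 : τ j * 1 ≤ τ j * (Ψ j * α j) := by
      apply mul_le_mul_of_nonneg_left _ (hτ j).le
      linarith only [mul_nonneg (sub_nonneg.2 (hΨ1 j)) (sub_nonneg.2 (hα1 j)), hα1 j, hΨ1 j]
    linarith only [h1]
  -- local smoothings
  have hloc : ∀ j, _ := fun j => local_smoothing μ hΩ hp hu hU hA hc
    (X.isCompact_K (j + 1)) (X.isCompact_K (j + 2)) (X.subset_interior (j + 1)) (hKΩ (j + 2))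
    (hUp _ (X.isCompact_K (j + 2)) (hKΩ (j + 2))) (hτ j)
  choose v hv1 hv2 hv3 hv4 using hloc
  refine ⟨X.patch v, X.contDiffOn_patch v hv1, ?_, ?_, ?_⟩
  · -- uniform closeness
    intro x hx
    obtain ⟨m, hm, hm'⟩ := X.exists_shell hx
    rw [X.patch_eq_shell v hm hm']
    have h1 := hv2 m x hm
    have h2 := hv2 (m + 1) x (X.K_succ _ hm)
    obtain ⟨hφ0, hφ1⟩ := X.φ_mem m x
    have h3 : X.φ m x • v m x + (1 - X.φ m x) • v (m + 1) x - u x =
        X.φ m x • (v m x - u x) + (1 - X.φ m x) • (v (m + 1) x - u x) := by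
      module
    rw [h3]
    have h4 : ‖X.φ m x • (v m x - u x) + (1 - X.φ m x) • (v (m + 1) x - u x)‖ ≤
        X.φ m x * τ m + (1 - X.φ m x) * τ (m + 1) := by
      refine (norm_add_le _ _).trans ?_
      rw [norm_smul, norm_smul, Real.norm_of_nonneg hφ0, Real.norm_of_nonneg (by linarith only [hφ1])]
      have : 0 ≤ 1 - X.φ m x := by linarith only [hφ1]
      (clear * - h1 hφ0 h2 hφ1; gcongr)
    have h5 : τ m < δ x := by
      have := hd m x hm
      have := hτ4 m
      have := hdpos m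
      (clear hΩ hp u hu U hU hUp A hA c hc hδ hδpos hp0 hKΩ hΨ hα hM hτdef hτ1 hτ2 v hv1 hv2 hv3 hv4 hx hm' h1 h2 hφ0 hφ1 h3 h4; linarith)
    have h6 : τ (m + 1) < δ x := by
      have := hd (m + 1) x (X.K_succ _ hm)
      have := hτ4 (m + 1)
      have := hdpos (m + 1)
      (clear hΩ hp u hu U hU hUp A hA c hc hδ hδpos hp0 hKΩ hΨ hα hM hτdef hτ1 hτ2 v hv1 hv2 hv3 hv4 hx hm' h1 h2 hφ0 hφ1 h3 h4 h5; linarith)
    rcases eq_or_lt_of_le hφ0 with h7 | h7
    · rw [← h7] at h4 ⊢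
      linarith only [h4, h6]
    · have : X.φ m x * τ m + (1 - X.φ m x) * τ (m + 1) < X.φ m x * δ x + (1 - X.φ m x) * δ x := by
        have e1 : X.φ m x * τ m < X.φ m x * δ x := mul_lt_mul_of_pos_left h5 h7
        have e2 : (1 - X.φ m x) * τ (m + 1) ≤ (1 - X.φ m x) * δ x :=
          mul_le_mul_of_nonneg_left h6.le (by linarith only [hφ1])
        linarith only [e1, e2]
      linarith only [h4, this]
  · -- weighted L^p closeness
    set g : ℕ → E → ℝ≥0∞ := fun j x => ENNReal.ofReal (4 ^ p / d j) *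
      (‖fderiv ℝ (v j) x - U x‖ₑ ^ p + ENNReal.ofReal (Ψ j * τ j) ^ p) with hg
    have hgint : ∀ j, ∫⁻ x in X.K (j + 1), g j x ∂μ ≤ ENNReal.ofReal ((1 / 2) ^ (j + 2)) := by
      intro j
      have hdj := hdpos j
      have hΨj := hΨ1 j
      have hτj := hτ j
      have e0 : ∫⁻ x in X.K (j + 1), g j x ∂μ =
          ENNReal.ofReal (4 ^ p / d j) * (∫⁻ x in X.K (j + 1), ‖fderiv ℝ (v j) x - U x‖ₑ ^ p ∂μ +
          ENNReal.ofReal (Ψ j * τ j) ^ p * μ (X.K (j + 1))) := by
        rw [hg]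
        simp only
        rw [lintegral_const_mul' _ _ ENNReal.ofReal_ne_top]
        rw [lintegral_add_right _ measurable_const]
        rw [lintegral_const, Measure.restrict_apply MeasurableSet.univ, univ_inter]
      rw [e0]
      have e1 : ENNReal.ofReal (Ψ j * τ j) ^ p ≤ ENNReal.ofReal (Ψ j * τ j) := by
        have h1 : ENNReal.ofReal (Ψ j * τ j) ≤ 1 := by
          rw [← ENNReal.ofReal_one]
          exact ENNReal.ofReal_le_ofReal (hτ2 j)
        calc ENNReal.ofReal (Ψ j * τ j) ^ p ≤ ENNReal.ofReal (Ψ j * τ j) ^ (1 : ℝ) :=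
              ENNReal.rpow_le_rpow_of_exponent_ge h1 hp
          _ = _ := ENNReal.rpow_one _
      have e2 : μ (X.K (j + 1)) = ENNReal.ofReal (μ.real (X.K (j + 1))) := by
        rw [ofReal_measureReal (X.isCompact_K (j + 1)).measure_lt_top.ne]
      have hr0 : 0 ≤ μ.real (X.K (j + 1)) := measureReal_nonneg
      have h4p : (0 : ℝ) < 4 ^ p := by positivity
      calc ENNReal.ofReal (4 ^ p / d j) * (∫⁻ x in X.K (j + 1), ‖fderiv ℝ (v j) x - U x‖ₑ ^ p ∂μ +
            ENNReal.ofReal (Ψ j * τ j) ^ p * μ (X.K (j + 1)))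
          ≤ ENNReal.ofReal (4 ^ p / d j) * (ENNReal.ofReal (τ j) +
            ENNReal.ofReal (Ψ j * τ j) * ENNReal.ofReal (μ.real (X.K (j + 1)))) := by
              rw [e2]
              gcongr
              exact hv3 j
        _ = ENNReal.ofReal (4 ^ p / d j * (τ j + Ψ j * τ j * μ.real (X.K (j + 1)))) := by
              rw [← ENNReal.ofReal_mul (by (clear * - hΨj hτj; positivity)), ← ENNReal.ofReal_add (by (clear * - hτj; positivity))
                (by (clear * - hΨj hτj; positivity)), ← ENNReal.ofReal_mul (by positivity)]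
        _ ≤ ENNReal.ofReal ((1 / 2) ^ (j + 2)) := by
              apply ENNReal.ofReal_le_ofReal
              have h5 := hτ1 j
              have h6 : 4 ^ p / d j * (τ j + Ψ j * τ j * μ.real (X.K (j + 1))) ≤
                  M j * (Ψ j * τ j) := by
                rw [hM]
                simp only
                have : 4 ^ p * (μ.real (X.K (j + 1)) + 1) / d j * (Ψ j * τ j) =
                    4 ^ p / d j * (Ψ j * τ j + Ψ j * τ j * μ.real (X.K (j + 1))) := by
                  field_simp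
                  ring
                rw [this]
                gcongr
                linarith only [mul_nonneg (sub_nonneg.2 hΨj) (le_of_lt (sub_pos.2 hτj))]
              have h7 : ((1 : ℝ) / 2) ^ (j + 3) ≤ (1 / 2) ^ (j + 2) := by
                rw [pow_succ ((1 : ℝ) / 2) (j + 2)]
                have : (0 : ℝ) < (1 / 2) ^ (j + 2) := by positivity
                linarith only [this]
              linarith only [h5, h6, h7]
    have hΩsub : Ω ⊆ ⋃ m, (X.K (m + 1) \ X.K m) := by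
      intro x hx
      obtain ⟨m, hm, hm'⟩ := X.exists_shell hx
      exact mem_iUnion.2 ⟨m, hm, hm'⟩
    have hshell : ∀ m, ∫⁻ x in X.K (m + 1) \ X.K m,
        ‖fderiv ℝ (X.patch v) x - U x‖ₑ ^ p / ENNReal.ofReal (δ x) ∂μ ≤
        ENNReal.ofReal ((1 / 2) ^ (m + 1)) := by
      intro m
      have hpt : ∀ x ∈ X.K (m + 1) \ X.K m,
          ‖fderiv ℝ (X.patch v) x - U x‖ₑ ^ p / ENNReal.ofReal (δ x) ≤ g m x + g (m + 1) x := by
        rintro x ⟨hm, hm'⟩
        have hm2 := X.K_succ _ hm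
        rw [X.fderiv_patch v hv1 hm hm']
        obtain ⟨hφ0, hφ1⟩ := X.φ_mem m x
        have hφ1' : 0 ≤ 1 - X.φ m x := by linarith only [hφ1]
        have h1 := hv2 m x hm
        have h2 := hv2 (m + 1) x hm2
        have hdec : X.φ m x • fderiv ℝ (v m) x + (1 - X.φ m x) • fderiv ℝ (v (m + 1)) x +
            (fderiv ℝ (X.φ m) x).smulRight (v m x - v (m + 1) x) - U x =
            (X.φ m x • (fderiv ℝ (v m) x - U x) +
              (1 - X.φ m x) • (fderiv ℝ (v (m + 1)) x - U x)) +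
            ((fderiv ℝ (X.φ m) x).smulRight (v m x - u x) -
              (fderiv ℝ (X.φ m) x).smulRight (v (m + 1) x - u x)) := by
          ext z
          simp only [sub_apply, add_apply, smul_apply, ContinuousLinearMap.smulRight_apply]
          module
        have hb1 : ‖(fderiv ℝ (X.φ m) x).smulRight (v m x - u x)‖ ≤ Ψ m * τ m := by
          rw [ContinuousLinearMap.norm_smulRight_apply]
          exact mul_le_mul (hΨ m x hm).1 h1 (norm_nonneg _) (hΨpos m).le
        have hb2 : ‖(fderiv ℝ (X.φ m) x).smulRight (v (m + 1) x - u x)‖ ≤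
            Ψ (m + 1) * τ (m + 1) := by
          rw [ContinuousLinearMap.norm_smulRight_apply]
          have := (hΨ (m + 1) x hm2).2
          rw [Nat.add_sub_cancel] at this
          exact mul_le_mul this h2 (norm_nonneg _) (hΨpos (m + 1)).le
        have hb3 : ‖X.φ m x • (fderiv ℝ (v m) x - U x)‖ ≤ ‖fderiv ℝ (v m) x - U x‖ := by
          rw [norm_smul, Real.norm_of_nonneg hφ0]
          exact mul_le_of_le_one_left (norm_nonneg _) hφ1
        have hb4 : ‖(1 - X.φ m x) • (fderiv ℝ (v (m + 1)) x - U x)‖ ≤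
            ‖fderiv ℝ (v (m + 1)) x - U x‖ := by
          rw [norm_smul, Real.norm_of_nonneg hφ1']
          exact mul_le_of_le_one_left (norm_nonneg _) (by linarith only [hφ0])
        have hnorm : ‖X.φ m x • fderiv ℝ (v m) x + (1 - X.φ m x) • fderiv ℝ (v (m + 1)) x +
            (fderiv ℝ (X.φ m) x).smulRight (v m x - v (m + 1) x) - U x‖ₑ ≤
            ‖fderiv ℝ (v m) x - U x‖ₑ + ‖fderiv ℝ (v (m + 1)) x - U x‖ₑ +
            (ENNReal.ofReal (Ψ m * τ m) + ENNReal.ofReal (Ψ (m + 1) * τ (m + 1))) := by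
          rw [hdec]
          refine (enorm_add_le _ _).trans ?_
          refine add_le_add ((enorm_add_le _ _).trans (add_le_add ?_ ?_))
            ((enorm_sub_le).trans (add_le_add ?_ ?_))
          · exact enorm_le_iff_norm_le.2 hb3
          · exact enorm_le_iff_norm_le.2 hb4
          · rw [← ofReal_norm]
            exact ENNReal.ofReal_le_ofReal hb1
          · rw [← ofReal_norm]
            exact ENNReal.ofReal_le_ofReal hb2
        have hpow := (ENNReal.rpow_le_rpow hnorm hp0.le).trans (four_pow_aux hp _ _ _ _)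
        have hdm : ENNReal.ofReal (d m) ≤ ENNReal.ofReal (δ x) :=
          ENNReal.ofReal_le_ofReal (hd m x hm)
        have hdm1 : ENNReal.ofReal (d (m + 1)) ≤ ENNReal.ofReal (δ x) :=
          ENNReal.ofReal_le_ofReal (hd (m + 1) x hm2)
        have hconst : ∀ j, ENNReal.ofReal (4 ^ p / d j) =
            ENNReal.ofReal (4 ^ p) / ENNReal.ofReal (d j) := fun j =>
          ENNReal.ofReal_div_of_pos (hdpos j)
        refine (ENNReal.div_le_div_right hpow _).trans ?_
        rw [hg]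
        simp only
        rw [hconst m, hconst (m + 1)]
        rw [ENNReal.div_eq_inv_mul, ENNReal.div_eq_inv_mul, ENNReal.div_eq_inv_mul, mul_add,
          mul_add]
        have hi1 : (ENNReal.ofReal (δ x))⁻¹ ≤ (ENNReal.ofReal (d m))⁻¹ := ENNReal.inv_le_inv' hdm
        have hi2 : (ENNReal.ofReal (δ x))⁻¹ ≤ (ENNReal.ofReal (d (m + 1)))⁻¹ :=
          ENNReal.inv_le_inv' hdm1
        refine add_le_add ?_ ?_
        · rw [← mul_assoc]
          (clear * - hi1; gcongr)
        · rw [← mul_assoc]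
          (clear * - hi2; gcongr)
      have hmeas : MeasurableSet (X.K (m + 1) \ X.K m) :=
        (X.isCompact_K _).measurableSet.diff (X.isCompact_K _).measurableSet
      calc ∫⁻ x in X.K (m + 1) \ X.K m,
            ‖fderiv ℝ (X.patch v) x - U x‖ₑ ^ p / ENNReal.ofReal (δ x) ∂μ
          ≤ ∫⁻ x in X.K (m + 1) \ X.K m, (g m x + g (m + 1) x) ∂μ :=
            setLIntegral_mono' hmeas hpt
        _ ≤ ∫⁻ x in X.K (m + 1), (g m x + g (m + 1) x) ∂μ := lintegral_mono_set sdiff_subset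
        _ ≤ ∫⁻ x in X.K (m + 1), g m x ∂μ + ∫⁻ x in X.K (m + 1), g (m + 1) x ∂μ := by
            rw [lintegral_add_left']
            have hUm : AEStronglyMeasurable U (μ.restrict (X.K (m + 1))) :=
              (hU.integrableOn_right μ (X.isCompact_K (m + 1)) (hKΩ _)).1
            have hvm : AEStronglyMeasurable (fderiv ℝ (v m)) (μ.restrict (X.K (m + 1))) :=
              ((hv1 m).continuous_fderiv (by simp)).aestronglyMeasurable
            exact (((hvm.sub hUm).enorm.pow_const p).add_const _).const_mul _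
        _ ≤ ENNReal.ofReal ((1 / 2) ^ (m + 2)) + ENNReal.ofReal ((1 / 2) ^ (m + 1 + 2)) := by
            gcongr
            · exact hgint m
            · exact (lintegral_mono_set (X.K_succ (m + 1))).trans (hgint (m + 1))
        _ ≤ ENNReal.ofReal ((1 / 2) ^ (m + 1)) := by
            rw [← ENNReal.ofReal_add (by positivity) (by positivity)]
            apply ENNReal.ofReal_le_ofReal
            have : (0 : ℝ) < (1 / 2) ^ (m + 1) := by positivity
            have e1 : ((1 : ℝ) / 2) ^ (m + 2) = (1 / 2) ^ (m + 1) * (1 / 2) := pow_succ _ _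
            have e2 : ((1 : ℝ) / 2) ^ (m + 1 + 2) = (1 / 2) ^ (m + 1) * (1 / 4) := by
              rw [pow_add]; norm_num
            rw [e1, e2]
            linarith only [this]
    calc ∫⁻ x in Ω, ‖fderiv ℝ (X.patch v) x - U x‖ₑ ^ p / ENNReal.ofReal (δ x) ∂μ
        ≤ ∫⁻ x in ⋃ m, (X.K (m + 1) \ X.K m),
          ‖fderiv ℝ (X.patch v) x - U x‖ₑ ^ p / ENNReal.ofReal (δ x) ∂μ :=
          lintegral_mono_set hΩsub
      _ ≤ ∑' m, ∫⁻ x in X.K (m + 1) \ X.K m,
          ‖fderiv ℝ (X.patch v) x - U x‖ₑ ^ p / ENNReal.ofReal (δ x) ∂μ :=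
          lintegral_iUnion_le _ _
      _ ≤ ∑' m : ℕ, ENNReal.ofReal ((1 / 2) ^ (m + 1)) := ENNReal.tsum_le_tsum hshell
      _ = 1 := by
          have hs : HasSum (fun m : ℕ => ((1 : ℝ) / 2) ^ (m + 1)) 1 := by
            have h1 := hasSum_geometric_two' (1 : ℝ)
            have h2 : (fun m : ℕ => ((1 : ℝ) / 2) ^ (m + 1)) = fun n => 1 / 2 / 2 ^ n := by
              ext m
              rw [pow_succ, one_div, inv_pow]
              ring
            rw [h2]
            exact h1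
          rw [← ENNReal.ofReal_tsum_of_nonneg (fun m => by positivity) hs.summable, hs.tsum_eq,
            ENNReal.ofReal_one]
  · -- one-sided bounds
    intro a ℓ ha hℓ hae x hx
    obtain ⟨m, hm, hm'⟩ := X.exists_shell hx
    have hm2 := X.K_succ _ hm
    rw [X.fderiv_patch v hv1 hm hm']
    obtain ⟨hφ0, hφ1⟩ := X.φ_mem m x
    have hφ1' : 0 ≤ 1 - X.φ m x := by linarith only [hφ1]
    have h1 := hv2 m x hm
    have h2 := hv2 (m + 1) x hm2
    have h3 := hv4 m a ℓ ha hℓ hae x hm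
    have h4 := hv4 (m + 1) a ℓ ha hℓ hae x hm2
    have hdec : ℓ ((X.φ m x • fderiv ℝ (v m) x + (1 - X.φ m x) • fderiv ℝ (v (m + 1)) x +
        (fderiv ℝ (X.φ m) x).smulRight (v m x - v (m + 1) x) - c x) (A x a)) =
        X.φ m x * ℓ ((fderiv ℝ (v m) x - c x) (A x a)) +
        (1 - X.φ m x) * ℓ ((fderiv ℝ (v (m + 1)) x - c x) (A x a)) +
        fderiv ℝ (X.φ m) x (A x a) * ℓ (v m x - u x) -
        fderiv ℝ (X.φ m) x (A x a) * ℓ (v (m + 1) x - u x) := by
      simp only [sub_apply, add_apply, smul_apply, ContinuousLinearMap.smulRight_apply, map_sub, map_add, map_smul, smul_eq_mul]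
      ring
    rw [hdec]
    have hb : ∀ (t C : ℝ) (w : G), 0 ≤ t → ‖w‖ ≤ t → 0 ≤ C → ‖fderiv ℝ (X.φ m) x‖ ≤ C →
        ∀ αx, ‖A x‖ ≤ αx → |fderiv ℝ (X.φ m) x (A x a) * ℓ w| ≤ C * t * αx := by
      intro t C w ht hw hC hφC αx hαx
      rw [abs_mul]
      have e1 : |fderiv ℝ (X.φ m) x (A x a)| ≤ C * αx := by
        rw [← Real.norm_eq_abs]
        refine ((fderiv ℝ (X.φ m) x).le_opNorm _).trans ?_
        apply mul_le_mul hφC _ (norm_nonneg _) hC
        calc ‖A x a‖ ≤ ‖A x‖ * ‖a‖ := (A x).le_opNorm a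
          _ ≤ αx * 1 := mul_le_mul hαx ha (norm_nonneg _) ((norm_nonneg _).trans hαx)
          _ = αx := mul_one _
      have e2 : |ℓ w| ≤ t := by
        rw [← Real.norm_eq_abs]
        calc ‖ℓ w‖ ≤ ‖ℓ‖ * ‖w‖ := ℓ.le_opNorm w
          _ ≤ 1 * t := mul_le_mul hℓ hw (norm_nonneg _) zero_le_one
          _ = t := one_mul t
      have hα0 : 0 ≤ αx := (norm_nonneg _).trans hαx
      calc |fderiv ℝ (X.φ m) x (A x a)| * |ℓ w| ≤ (C * αx) * t :=
            mul_le_mul e1 e2 (abs_nonneg _) (by (clear * - hC hα0; positivity))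
        _ = C * t * αx := by ring
    have hb1 := hb (τ m) (Ψ m) (v m x - u x) (hτ m).le h1 (hΨpos m).le (hΨ m x hm).1 (α m)
      (hα m x hm)
    have hΨ' := (hΨ (m + 1) x hm2).2
    rw [Nat.add_sub_cancel] at hΨ'
    have hb2 := hb (τ (m + 1)) (Ψ (m + 1)) (v (m + 1) x - u x) (hτ (m + 1)).le h2
      (hΨpos (m + 1)).le hΨ' (α (m + 1)) (hα (m + 1) x hm2)
    have hb1' := (abs_le.1 hb1).1
    have hb2' := (abs_le.1 hb2).2
    have e3 := hτ3 m
    have e4 := hτ3 (m + 1)
    have e5 := hd m x hm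
    have e6 := hd (m + 1) x hm2
    have e7 := hτ4 m
    have e8 := hτ4 (m + 1)
    have e9 : X.φ m x * -(δ x / 4) ≤ X.φ m x * ℓ ((fderiv ℝ (v m) x - c x) (A x a)) :=
      mul_le_mul_of_nonneg_left (by linarith only [e7, e5, h3]) hφ0
    have e10 : (1 - X.φ m x) * -(δ x / 4) ≤
        (1 - X.φ m x) * ℓ ((fderiv ℝ (v (m + 1)) x - c x) (A x a)) :=
      mul_le_mul_of_nonneg_left (by linarith only [h4, e6, e8]) hφ1'
    have e11 := hδpos x hx
    linarith only [e11, e10, e9, e6, e5, e4, e3, hb2', hb1']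

end

end Vale.Agent.P073
end

section

/-!
# P073: open conditions near a graph, and the chain rule for weak derivatives
-/

set_option linter.unusedSectionVars false
set_option maxSynthPendingDepth 3

namespace Vale.Agent.P073

open MeasureTheory Set Filter Topology Metric Module
open scoped ENNReal ContDiff

section OpenCond

variable {E : Type*} [NormedAddCommGroup E] [NormedSpace ℝ E]
  {E' : Type*} [NormedAddCommGroup E'] [NormedSpace ℝ E']

/-- An open condition which holds on a graph holds on a neighbourhood of continuous width. -/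
theorem exists_delta_of_pos {Ω : Set E} (hΩ : IsOpen Ω) {Λ : Set E'} (hΛ : IsOpen Λ)
    (hne : Λᶜ.Nonempty) {f : E → E'} (hf : ContinuousOn f Ω) (hm : MapsTo f Ω Λ)
    {w : E × E' → ℝ} (hw : ContinuousOn w (Ω ×ˢ Λ)) (hpos : ∀ x ∈ Ω, 0 < w (x, f x)) :
    ∃ δ : E → ℝ, ContinuousOn δ Ω ∧ (∀ x ∈ Ω, 0 < δ x) ∧
      ∀ x ∈ Ω, ∀ y, ‖y - f x‖ < δ x → y ∈ Λ ∧ 0 < w (x, y) := by
  set O : Set (E × E') := (Ω ×ˢ Λ) ∩ w ⁻¹' (Ioi 0) with hO
  have hOo : IsOpen O := hw.isOpen_inter_preimage (hΩ.prod hΛ) isOpen_Ioi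
  obtain ⟨y₀, hy₀⟩ := hne
  have hOne : Oᶜ.Nonempty := by
    refine ⟨((0 : E), y₀), fun h => hy₀ h.1.2⟩
  have hgraph : ∀ x ∈ Ω, (x, f x) ∈ O := fun x hx => ⟨⟨hx, hm hx⟩, hpos x hx⟩
  refine ⟨fun x => infDist (x, f x) Oᶜ, ?_, ?_, ?_⟩
  · exact (continuous_infDist_pt _).comp_continuousOn (continuousOn_id.prodMk hf)
  · intro x hx
    exact (hOo.isClosed_compl.notMem_iff_infDist_pos hOne).1 (by simpa using hgraph x hx)
  · intro x hx y hy
    have h1 : (x, y) ∈ O := by
      by_contra h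
      have h2 : infDist (x, f x) Oᶜ ≤ dist (x, f x) (x, y) := infDist_le_dist_of_mem h
      rw [Prod.dist_eq, dist_self, max_eq_right dist_nonneg, dist_comm, dist_eq_norm] at h2
      exact absurd hy (not_lt.2 h2)
    exact ⟨h1.1.2, h1.2⟩

end OpenCond

section

variable {E : Type*} [NormedAddCommGroup E] [InnerProductSpace ℝ E] [FiniteDimensional ℝ E]
  [MeasurableSpace E] [BorelSpace E] (μ : Measure E) [μ.IsAddHaarMeasure]
  {E' : Type*} [NormedAddCommGroup E'] [NormedSpace ℝ E'] [CompleteSpace E']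
  {G : Type*} [NormedAddCommGroup G] [NormedSpace ℝ G] [CompleteSpace G]

/-- Classical derivatives are weak derivatives. -/
theorem hasWeakDerivOn_of_contDiffOn {Ω : Set E} (hΩ : IsOpen Ω) {g : E → G}
    (hg : ContDiffOn ℝ 1 g Ω) : HasWeakDerivOn μ Ω g (fderiv ℝ g) := by
  have hgc : ContinuousOn g Ω := hg.continuousOn
  have hgd : ContinuousOn (fderiv ℝ g) Ω := hg.continuousOn_fderiv_of_isOpen hΩ le_rfl
  refine ⟨hgc.locallyIntegrableOn hΩ.measurableSet, hgd.locallyIntegrableOn hΩ.measurableSet, ?_⟩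
  intro φ hφ hc hs v
  have hφd : Differentiable ℝ φ := hφ.differentiable (by simp)
  have hL1 : LocallyIntegrableOn g Ω μ := hgc.locallyIntegrableOn hΩ.measurableSet
  have hL2 : LocallyIntegrableOn (fderiv ℝ g) Ω μ := hgd.locallyIntegrableOn hΩ.measurableSet
  have hi1 : Integrable (fun x => fderiv ℝ φ x v • g x) μ := by
    apply integrable_smul_of_locallyIntegrableOn μ hL1
    · exact (hφ.continuous_fderiv (by simp)).clm_apply continuous_const
    · exact hc.fderiv_apply (𝕜 := ℝ) v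
    · refine (closure_mono ?_).trans ((tsupport_fderiv_subset ℝ).trans hs)
      intro y hy h0
      apply hy
      show fderiv ℝ φ y v = 0
      rw [h0]; rfl
  have hi2 : Integrable (fun x => φ x • fderiv ℝ g x v) μ := by
    have := integrable_smul_of_locallyIntegrableOn μ hL2 hφ.continuous hc hs
    exact this.apply_continuousLinearMap v
  have hi3 : Integrable (fun x => φ x • g x) μ :=
    integrable_smul_of_locallyIntegrableOn μ hL1 hφ.continuous hc hs
  have hmain := integral_smul_fderiv_eq_neg_fderiv_smul_of_integrable hi1 hi2 hi3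
    (fun x _ => hφd x)
    (fun x hx => (hg.contDiffAt (hΩ.mem_nhds (hs hx))).differentiableAt (by norm_num))
  rw [setIntegral_eq_integral_of_forall_compl_eq_zero,
    setIntegral_eq_integral_of_forall_compl_eq_zero]
  · exact hmain
  · intro x hx
    rw [fderiv_of_notMem_tsupport ℝ (fun h => hx (hs h))]
    simp
  · intro x hx
    rw [image_eq_zero_of_notMem_tsupport (fun h => hx (hs h)), zero_smul]

/-- The derivative of `x ↦ B (x, w x)`. -/
theorem hasFDerivAt_graph {Ω : Set E} (hΩ : IsOpen Ω) {Λ : Set E'} (hΛ : IsOpen Λ)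
    {B : E × E' → G} (hB : ContDiffOn ℝ ∞ B (Ω ×ˢ Λ)) {w : E → E'} {x : E} (hx : x ∈ Ω)
    (hwx : w x ∈ Λ) (hw : DifferentiableAt ℝ w x) :
    HasFDerivAt (fun x => B (x, w x))
      ((fderiv ℝ B (x, w x)).comp ((ContinuousLinearMap.id ℝ E).prod (fderiv ℝ w x))) x := by
  have h1 : HasFDerivAt B (fderiv ℝ B (x, w x)) (x, w x) :=
    ((hB.contDiffAt ((hΩ.prod hΛ).mem_nhds ⟨hx, hwx⟩)).differentiableAt (by simp)).hasFDerivAt
  have h2 : HasFDerivAt (fun x => (x, w x)) ((ContinuousLinearMap.id ℝ E).prod (fderiv ℝ w x)) x :=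
    (hasFDerivAt_id x).prodMk hw.hasFDerivAt
  exact h1.comp x h2

theorem norm_id_prod_le (T : E →L[ℝ] E') :
    ‖(ContinuousLinearMap.id ℝ E).prod T‖ ≤ 1 + ‖T‖ := by
  rw [ContinuousLinearMap.opNorm_prod, Prod.norm_def]
  apply max_le
  · exact (ContinuousLinearMap.norm_id_le).trans (by linarith [norm_nonneg T])
  · linarith

/-- **Chain rule** for weak derivatives of continuous functions. -/
theorem HasWeakDerivOn.comp_graph {Ω : Set E} (hΩ : IsOpen Ω) {f : E → E'}
    {F : E → (E →L[ℝ] E')} (hf : HasWeakDerivOn μ Ω f F) (hfc : ContinuousOn f Ω)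
    {Λ : Set E'} (hΛ : IsOpen Λ) (hne : Λᶜ.Nonempty) (hm : MapsTo f Ω Λ) {B : E × E' → G}
    (hB : ContDiffOn ℝ ∞ B (Ω ×ˢ Λ)) :
    HasWeakDerivOn μ Ω (fun x => B (x, f x))
      (fun x => (fderiv ℝ B (x, f x)).comp ((ContinuousLinearMap.id ℝ E).prod (F x))) := by
  have hmap : MapsTo (fun x => (x, f x)) Ω (Ω ×ˢ Λ) := fun x hx => ⟨hx, hm hx⟩
  have hgraphc : ContinuousOn (fun x => (x, f x)) Ω := continuousOn_id.prodMk hfc
  have hBc : ContinuousOn B (Ω ×ˢ Λ) := hB.continuousOn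
  have hdB : ContinuousOn (fderiv ℝ B) (Ω ×ˢ Λ) :=
    hB.continuousOn_fderiv_of_isOpen (hΩ.prod hΛ) (by simp only [WithTop.one_le_coe, le_top])
  have hu : ContinuousOn (fun x => B (x, f x)) Ω := hBc.comp hgraphc hmap
  have hdBf : ContinuousOn (fun x => fderiv ℝ B (x, f x)) Ω := hdB.comp hgraphc hmap
  have hL1 : LocallyIntegrableOn (fun x => B (x, f x)) Ω μ :=
    hu.locallyIntegrableOn hΩ.measurableSet
  have hUint : ∀ K : Set E, K ⊆ Ω → IsCompact K → IntegrableOn
      (fun x => (fderiv ℝ B (x, f x)).comp ((ContinuousLinearMap.id ℝ E).prod (F x))) K μ := by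
    intro K hKΩ hK
    have hFK : IntegrableOn F K μ := hf.integrableOn_right μ hK hKΩ
    obtain ⟨C, hC⟩ := hK.exists_bound_of_continuousOn (hdBf.mono hKΩ)
    have hm1 : AEStronglyMeasurable (fun x => fderiv ℝ B (x, f x)) (μ.restrict K) :=
      (hdBf.mono hKΩ).aestronglyMeasurable hK.measurableSet
    have hm2 : AEStronglyMeasurable (fun x => (ContinuousLinearMap.id ℝ E).prod (F x))
        (μ.restrict K) := by
      have hcont : Continuous fun T : E →L[ℝ] E' => (ContinuousLinearMap.id ℝ E).prod T := by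
        have : (fun T : E →L[ℝ] E' => (ContinuousLinearMap.id ℝ E).prod T) = fun T =>
            (ContinuousLinearMap.inl ℝ E E').comp (ContinuousLinearMap.id ℝ E) +
            (ContinuousLinearMap.inr ℝ E E').comp T := by
          ext T x <;> simp only [ContinuousLinearMap.prod_apply, ContinuousLinearMap.id_apply, ContinuousLinearMap.comp_id, add_apply, ContinuousLinearMap.inl_apply, ContinuousLinearMap.comp_apply, ContinuousLinearMap.inr_apply, Prod.mk_add_mk, add_zero, zero_add]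
        rw [this]
        exact continuous_const.add (continuous_const.clm_comp continuous_id)
      exact hcont.comp_aestronglyMeasurable hFK.1
    have hm3 := (ContinuousLinearMap.compL ℝ E (E × E') G).aestronglyMeasurable_comp₂ hm1 hm2
    have hbd : IntegrableOn (fun x => |C| * (1 + ‖F x‖)) K μ := by
      apply Integrable.const_mul
      apply Integrable.add
      · exact integrableOn_const hK.measure_lt_top.ne
      · exact hFK.norm
    refine Integrable.mono' hbd hm3 ?_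
    rw [ae_restrict_iff' hK.measurableSet]
    refine Eventually.of_forall fun x hx => ?_
    refine (ContinuousLinearMap.opNorm_comp_le _ _).trans ?_
    exact mul_le_mul ((hC x hx).trans (le_abs_self C)) (norm_id_prod_le _) (norm_nonneg _)
      (abs_nonneg _)
  have hL2 : LocallyIntegrableOn
      (fun x => (fderiv ℝ B (x, f x)).comp ((ContinuousLinearMap.id ℝ E).prod (F x))) Ω μ := by
    rw [locallyIntegrableOn_iff hΩ.isLocallyClosed]
    exact hUint
  refine ⟨hL1, hL2, ?_⟩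
  intro φ hφ hc hs v
  set U : E → (E →L[ℝ] G) := fun x => (fderiv ℝ B (x, f x)).comp
    ((ContinuousLinearMap.id ℝ E).prod (F x)) with hUdef
  set u : E → G := fun x => B (x, f x) with hudef
  set K : Set E := tsupport φ with hKdef
  have hK : IsCompact K := hc
  have hKΩ : K ⊆ Ω := hs
  -- integrability
  have hiφU : Integrable (fun x => φ x • U x v) μ :=
    (integrable_smul_of_locallyIntegrableOn μ hL2 hφ.continuous hc hs).apply_continuousLinearMap v
  have hφdc : Continuous fun x => fderiv ℝ φ x v :=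
    (hφ.continuous_fderiv (by simp)).clm_apply continuous_const
  have hφdcs : HasCompactSupport fun x => fderiv ℝ φ x v := hc.fderiv_apply (𝕜 := ℝ) v
  have hφds : tsupport (fun x => fderiv ℝ φ x v) ⊆ K := by
    refine (closure_mono ?_).trans (tsupport_fderiv_subset ℝ)
    intro y hy h0
    apply hy
    show fderiv ℝ φ y v = 0
    rw [h0]; rfl
  have hiφu : Integrable (fun x => fderiv ℝ φ x v • u x) μ :=
    integrable_smul_of_locallyIntegrableOn μ hL1 hφdc hφdcs (hφds.trans hs)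
  -- bounds for φ
  obtain ⟨C₀, hC₀⟩ := hc.exists_bound_of_continuous hφ.continuous
  obtain ⟨C₁, hC₁⟩ := hφdcs.exists_bound_of_continuous hφdc
  have hC₀0 : 0 ≤ C₀ := (norm_nonneg _).trans (hC₀ 0)
  have hC₁0 : 0 ≤ C₁ := (norm_nonneg _).trans (hC₁ 0)
  have hFK : IntegrableOn (fun x => 1 + ‖F x‖) K μ :=
    (integrableOn_const hK.measure_lt_top.ne).add
      (hf.integrableOn_right μ hK hKΩ).norm
  set I : ℝ := ∫ x in K, (1 + ‖F x‖) ∂μ with hI
  have hI0 : 0 ≤ I := integral_nonneg fun x => by (clear * -; positivity)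
  set m : ℝ := μ.real K with hmdef
  have hm0 : 0 ≤ m := measureReal_nonneg
  -- the key estimate
  have hkey : ∀ η : ℝ, 0 < η →
      ‖∫ x, φ x • U x v ∂μ + ∫ x, fderiv ℝ φ x v • u x ∂μ‖ ≤
        η * (C₀ * ‖v‖ * (I + 1) + C₁ * m) := by
    intro η hη
    -- choose the closeness function
    have hw1 : ContinuousOn (fun q : E × E' => η - ‖B q - B (q.1, f q.1)‖) (Ω ×ˢ Λ) := by
      apply continuousOn_const.sub
      apply ContinuousOn.norm
      apply hBc.sub
      exact hu.comp continuousOn_fst (fun q hq => hq.1)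
    have hw2 : ContinuousOn (fun q : E × E' => η - ‖fderiv ℝ B q - fderiv ℝ B (q.1, f q.1)‖)
        (Ω ×ˢ Λ) := by
      apply continuousOn_const.sub
      apply ContinuousOn.norm
      apply hdB.sub
      exact hdBf.comp continuousOn_fst (fun q hq => hq.1)
    obtain ⟨δ₁, hδ₁c, hδ₁p, hδ₁⟩ := exists_delta_of_pos hΩ hΛ hne hfc hm hw1
      (fun x _ => by simpa only [sub_self, norm_zero, sub_zero] using hη)
    obtain ⟨δ₂, hδ₂c, hδ₂p, hδ₂⟩ := exists_delta_of_pos hΩ hΛ hne hfc hm hw2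
      (fun x _ => by simpa only [sub_self, norm_zero, sub_zero] using hη)
    set δ₃ : E → ℝ := fun x => η / (‖fderiv ℝ B (x, f x)‖ + η) with hδ₃
    have hδ₃c : ContinuousOn δ₃ Ω := by
      apply continuousOn_const.div (hdBf.norm.add continuousOn_const)
      intro x _
      have : 0 < ‖fderiv ℝ B (x, f x)‖ + η := by (clear * - hη; positivity)
      exact this.ne'
    have hδ₃p : ∀ x ∈ Ω, 0 < δ₃ x := fun x _ => by
      rw [hδ₃]; (clear * - hη; positivity)
    obtain ⟨w, hw1, hw2, hw3, -⟩ := fine_smoothing μ hΩ (le_refl (1 : ℝ)) hfc hf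
      (fun K' hK' hK'Ω => by
        rw [ENNReal.ofReal_one, memLp_one_iff_integrable]
        exact hf.integrableOn_right μ hK' hK'Ω)
      (A := fun _ => ContinuousLinearMap.id ℝ E) contDiffOn_const
      (c := fun _ => (0 : E →L[ℝ] E')) continuousOn_const
      (δ := fun x => min (min (δ₁ x) (δ₂ x)) (δ₃ x)) ((hδ₁c.inf hδ₂c).inf hδ₃c)
      (fun x hx => lt_min (lt_min (hδ₁p x hx) (hδ₂p x hx)) (hδ₃p x hx))
    have hwΛ : ∀ x ∈ Ω, w x ∈ Λ := fun x hx =>
      (hδ₁ x hx (w x) ((hw2 x hx).trans_le ((min_le_left _ _).trans (min_le_left _ _)))).1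
    have hwB : ∀ x ∈ Ω, ‖B (x, w x) - B (x, f x)‖ < η := fun x hx => by
      have := (hδ₁ x hx (w x) ((hw2 x hx).trans_le
        ((min_le_left _ _).trans (min_le_left _ _)))).2
      simpa using this
    have hwdB : ∀ x ∈ Ω, ‖fderiv ℝ B (x, w x) - fderiv ℝ B (x, f x)‖ < η := fun x hx => by
      have := (hδ₂ x hx (w x) ((hw2 x hx).trans_le
        ((min_le_left _ _).trans (min_le_right _ _)))).2
      simpa only [gt_iff_lt, sub_pos] using this
    -- the smooth comparison map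
    have hBw : ContDiffOn ℝ 1 (fun x => B (x, w x)) Ω :=
      (hB.of_le (by simp only [WithTop.one_le_coe, le_top])).comp (contDiffOn_id.prodMk (hw1.of_le (by simp only [WithTop.one_le_coe, le_top])))
        (fun x hx => ⟨hx, hwΛ x hx⟩)
    have hwk := hasWeakDerivOn_of_contDiffOn μ hΩ hBw
    have hint := hwk.integral_eq μ hφ hc hs v
    have hfdw : ∀ x ∈ Ω, fderiv ℝ (fun x => B (x, w x)) x =
        (fderiv ℝ B (x, w x)).comp ((ContinuousLinearMap.id ℝ E).prod (fderiv ℝ w x)) :=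
      fun x hx => (hasFDerivAt_graph hΩ hΛ hB hx (hwΛ x hx)
        ((hw1.contDiffAt (hΩ.mem_nhds hx)).differentiableAt (by simp))).fderiv
    have hi4 : Integrable (fun x => φ x • fderiv ℝ (fun x => B (x, w x)) x v) μ :=
      (integrable_smul_of_locallyIntegrableOn μ hwk.2.1 hφ.continuous hc
        hs).apply_continuousLinearMap v
    have hi5 : Integrable (fun x => fderiv ℝ φ x v • B (x, w x)) μ :=
      integrable_smul_of_locallyIntegrableOn μ hwk.1 hφdc hφdcs (hφds.trans hs)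
    have hsplit : ∫ x, φ x • U x v ∂μ + ∫ x, fderiv ℝ φ x v • u x ∂μ =
        ∫ x, (φ x • U x v - φ x • fderiv ℝ (fun x => B (x, w x)) x v) ∂μ +
        ∫ x, (fderiv ℝ φ x v • u x - fderiv ℝ φ x v • B (x, w x)) ∂μ := by
      rw [integral_sub hiφU hi4, integral_sub hiφu hi5, hint]
      abel
    -- weighted L^1 bound
    have hwL : ∫⁻ x in K, ENNReal.ofReal ((‖fderiv ℝ B (x, f x)‖ + η)) * ‖fderiv ℝ w x - F x‖ₑ ∂μ
        ≤ ENNReal.ofReal η := by
      have h1 : ∀ x ∈ Ω, ENNReal.ofReal ((‖fderiv ℝ B (x, f x)‖ + η)) * ‖fderiv ℝ w x - F x‖ₑ ≤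
          ENNReal.ofReal η * (‖fderiv ℝ w x - F x‖ₑ ^ (1 : ℝ) /
            ENNReal.ofReal (min (min (δ₁ x) (δ₂ x)) (δ₃ x))) := by
        intro x hx
        rw [ENNReal.rpow_one]
        have hpos : 0 < ‖fderiv ℝ B (x, f x)‖ + η := by (clear * - hη; positivity)
        have h2 : (ENNReal.ofReal (δ₃ x))⁻¹ ≤
            (ENNReal.ofReal (min (min (δ₁ x) (δ₂ x)) (δ₃ x)))⁻¹ :=
          ENNReal.inv_le_inv' (ENNReal.ofReal_le_ofReal (min_le_right _ _))
        have h3 : ENNReal.ofReal (‖fderiv ℝ B (x, f x)‖ + η) =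
            ENNReal.ofReal η * (ENNReal.ofReal (δ₃ x))⁻¹ := by
          rw [← ENNReal.ofReal_inv_of_pos (hδ₃p x hx), ← ENNReal.ofReal_mul hη.le]
          congr 1
          rw [hδ₃]
          (clear * - hη; field_simp)
        rw [h3, ENNReal.div_eq_inv_mul, mul_assoc]
        (clear * - h2; gcongr)
      calc ∫⁻ x in K, ENNReal.ofReal ((‖fderiv ℝ B (x, f x)‖ + η)) * ‖fderiv ℝ w x - F x‖ₑ ∂μ
          ≤ ∫⁻ x in Ω, ENNReal.ofReal ((‖fderiv ℝ B (x, f x)‖ + η)) * ‖fderiv ℝ w x - F x‖ₑ ∂μ :=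
            lintegral_mono_set hKΩ
        _ ≤ ∫⁻ x in Ω, ENNReal.ofReal η * (‖fderiv ℝ w x - F x‖ₑ ^ (1 : ℝ) /
            ENNReal.ofReal (min (min (δ₁ x) (δ₂ x)) (δ₃ x))) ∂μ :=
            setLIntegral_mono' hΩ.measurableSet h1
        _ = ENNReal.ofReal η * ∫⁻ x in Ω, ‖fderiv ℝ w x - F x‖ₑ ^ (1 : ℝ) /
            ENNReal.ofReal (min (min (δ₁ x) (δ₂ x)) (δ₃ x)) ∂μ :=
            lintegral_const_mul' _ _ ENNReal.ofReal_ne_top
        _ ≤ ENNReal.ofReal η * 1 := by (clear * - hw3; gcongr)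
        _ = ENNReal.ofReal η := mul_one _
    have hcdw : ContinuousOn (fderiv ℝ w) Ω := hw1.continuousOn_fderiv_of_isOpen hΩ (by simp only [WithTop.one_le_coe, le_top])
    have hmeasK : AEStronglyMeasurable (fun x => fderiv ℝ w x - F x) (μ.restrict K) :=
      ((hcdw.mono hKΩ).aestronglyMeasurable hK.measurableSet).sub
        (hf.integrableOn_right μ hK hKΩ).1
    have hmeasK2 : AEStronglyMeasurable (fun x => (‖fderiv ℝ B (x, f x)‖ + η) *
        ‖fderiv ℝ w x - F x‖) (μ.restrict K) :=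
      (((hdBf.mono hKΩ).norm.add continuousOn_const).aestronglyMeasurable
        hK.measurableSet).mul hmeasK.norm
    have henorm : ∀ x, ‖(‖fderiv ℝ B (x, f x)‖ + η) * ‖fderiv ℝ w x - F x‖‖ₑ =
        ENNReal.ofReal ((‖fderiv ℝ B (x, f x)‖ + η)) * ‖fderiv ℝ w x - F x‖ₑ := by
      intro x
      rw [enorm_mul, enorm_norm, Real.enorm_of_nonneg (by (clear * - hη; positivity))]
    have hIw : IntegrableOn (fun x => (‖fderiv ℝ B (x, f x)‖ + η) * ‖fderiv ℝ w x - F x‖) K μ := by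
      refine ⟨hmeasK2, ?_⟩
      rw [hasFiniteIntegral_iff_enorm]
      simp_rw [henorm]
      exact hwL.trans_lt ENNReal.ofReal_lt_top
    have hIwle : ∫ x in K, (‖fderiv ℝ B (x, f x)‖ + η) * ‖fderiv ℝ w x - F x‖ ∂μ ≤ η := by
      have h1 := ofReal_integral_eq_lintegral_ofReal hIw
        (Eventually.of_forall fun x => by (clear * - hη; positivity))
      have h2 : ENNReal.ofReal (∫ x in K, (‖fderiv ℝ B (x, f x)‖ + η) *
          ‖fderiv ℝ w x - F x‖ ∂μ) ≤ ENNReal.ofReal η := by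
        rw [h1]
        refine le_trans (le_of_eq ?_) hwL
        congr 1
        ext x
        rw [← henorm x, Real.enorm_of_nonneg (by (clear * - hη; positivity))]
      exact (ENNReal.ofReal_le_ofReal_iff hη.le).1 h2
    have hbound1 : ‖∫ x, (φ x • U x v - φ x • fderiv ℝ (fun x => B (x, w x)) x v) ∂μ‖ ≤
        η * (C₀ * ‖v‖ * (I + 1)) := by
      have h0 : ∫ x, (φ x • U x v - φ x • fderiv ℝ (fun x => B (x, w x)) x v) ∂μ =
          ∫ x in K, (φ x • U x v - φ x • fderiv ℝ (fun x => B (x, w x)) x v) ∂μ := by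
        rw [setIntegral_eq_integral_of_forall_compl_eq_zero]
        intro x hx
        rw [image_eq_zero_of_notMem_tsupport hx]
        simp only [zero_smul, sub_self]
      rw [h0]
      have h1 : ∀ x ∈ K, ‖φ x • U x v - φ x • fderiv ℝ (fun x => B (x, w x)) x v‖ ≤
          C₀ * ‖v‖ * (η * (1 + ‖F x‖) + (‖fderiv ℝ B (x, f x)‖ + η) * ‖fderiv ℝ w x - F x‖) := by
        intro x hx
        have hxΩ := hKΩ hx
        rw [← smul_sub, norm_smul]
        have h2 : ‖U x v - fderiv ℝ (fun x => B (x, w x)) x v‖ ≤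
            (η * (1 + ‖F x‖) + (‖fderiv ℝ B (x, f x)‖ + η) * ‖fderiv ℝ w x - F x‖) * ‖v‖ := by
          rw [hfdw x hxΩ]
          have h3 : U x v - ((fderiv ℝ B (x, w x)).comp
              ((ContinuousLinearMap.id ℝ E).prod (fderiv ℝ w x))) v =
              -((fderiv ℝ B (x, w x) - fderiv ℝ B (x, f x))
                (((ContinuousLinearMap.id ℝ E).prod (F x)) v)) -
              fderiv ℝ B (x, w x) (0, (fderiv ℝ w x - F x) v) := by
            have h4 : ((ContinuousLinearMap.id ℝ E).prod (fderiv ℝ w x)) v =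
                ((ContinuousLinearMap.id ℝ E).prod (F x)) v + (0, (fderiv ℝ w x - F x) v) := by
              ext <;> simp only [ContinuousLinearMap.prod_apply, ContinuousLinearMap.id_apply, sub_apply, Prod.mk_add_mk, add_zero, add_sub_cancel]
            have h4' : ((fderiv ℝ B (x, w x)).comp
                ((ContinuousLinearMap.id ℝ E).prod (fderiv ℝ w x))) v = fderiv ℝ B (x, w x)
                (((ContinuousLinearMap.id ℝ E).prod (fderiv ℝ w x)) v) := rfl
            have h4'' : U x v = fderiv ℝ B (x, f x)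
                (((ContinuousLinearMap.id ℝ E).prod (F x)) v) := rfl
            rw [h4', h4, map_add, h4'']
            simp only [ContinuousLinearMap.sub_apply]
            abel
          rw [h3]
          refine (norm_sub_le _ _).trans ?_
          rw [norm_neg]
          have h5 : ‖(fderiv ℝ B (x, w x) - fderiv ℝ B (x, f x))
              (((ContinuousLinearMap.id ℝ E).prod (F x)) v)‖ ≤ η * (1 + ‖F x‖) * ‖v‖ := by
            refine ((fderiv ℝ B (x, w x) - fderiv ℝ B (x, f x)).le_opNorm _).trans ?_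
            rw [mul_assoc]
            apply mul_le_mul (hwdB x hxΩ).le _ (norm_nonneg _) hη.le
            refine (((ContinuousLinearMap.id ℝ E).prod (F x)).le_opNorm v).trans ?_
            exact mul_le_mul_of_nonneg_right (norm_id_prod_le _) (norm_nonneg _)
          have h6 : ‖fderiv ℝ B (x, w x) (0, (fderiv ℝ w x - F x) v)‖ ≤
              (‖fderiv ℝ B (x, f x)‖ + η) * ‖fderiv ℝ w x - F x‖ * ‖v‖ := by
            refine ((fderiv ℝ B (x, w x)).le_opNorm _).trans ?_
            rw [mul_assoc]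
            apply mul_le_mul _ _ (norm_nonneg _) (by (clear * - hη; positivity))
            · have := norm_le_norm_add_norm_sub' (fderiv ℝ B (x, w x)) (fderiv ℝ B (x, f x))
              have h7 := (hwdB x hxΩ).le
              linarith only [this, h7]
            · rw [Prod.norm_def]
              apply max_le
              · simp only [norm_zero]; (clear * -; positivity)
              · exact (fderiv ℝ w x - F x).le_opNorm v
          calc _ ≤ η * (1 + ‖F x‖) * ‖v‖ +
                (‖fderiv ℝ B (x, f x)‖ + η) * ‖fderiv ℝ w x - F x‖ * ‖v‖ := add_le_add h5 h6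
            _ = _ := by ring
        calc ‖φ x‖ * ‖U x v - fderiv ℝ (fun x => B (x, w x)) x v‖
            ≤ C₀ * ((η * (1 + ‖F x‖) + (‖fderiv ℝ B (x, f x)‖ + η) *
              ‖fderiv ℝ w x - F x‖) * ‖v‖) :=
              mul_le_mul (hC₀ x) h2 (norm_nonneg _) hC₀0
          _ = _ := by ring
      have hi6 : IntegrableOn (fun x => C₀ * ‖v‖ * (η * (1 + ‖F x‖) +
          (‖fderiv ℝ B (x, f x)‖ + η) * ‖fderiv ℝ w x - F x‖)) K μ :=
        ((hFK.const_mul η).add hIw).const_mul _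
      refine (norm_integral_le_of_norm_le hi6 ?_).trans ?_
      · rw [ae_restrict_iff' hK.measurableSet]
        exact Eventually.of_forall h1
      · rw [integral_const_mul, integral_add (hFK.const_mul η) hIw, integral_const_mul]
        have : C₀ * ‖v‖ * (η * ∫ x in K, (1 + ‖F x‖) ∂μ +
            ∫ x in K, (‖fderiv ℝ B (x, f x)‖ + η) * ‖fderiv ℝ w x - F x‖ ∂μ) ≤
            C₀ * ‖v‖ * (η * I + η) := by
          apply mul_le_mul_of_nonneg_left _ (by (clear * - hC₀0; positivity))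
          exact add_le_add le_rfl hIwle
        refine this.trans (le_of_eq ?_)
        ring
    have hbound2 : ‖∫ x, (fderiv ℝ φ x v • u x - fderiv ℝ φ x v • B (x, w x)) ∂μ‖ ≤
        η * (C₁ * m) := by
      have h0 : ∫ x, (fderiv ℝ φ x v • u x - fderiv ℝ φ x v • B (x, w x)) ∂μ =
          ∫ x in K, (fderiv ℝ φ x v • u x - fderiv ℝ φ x v • B (x, w x)) ∂μ := by
        rw [setIntegral_eq_integral_of_forall_compl_eq_zero]
        intro x hx
        rw [fderiv_of_notMem_tsupport ℝ hx]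
        simp only [zero_apply, zero_smul, sub_self]
      rw [h0]
      have h1 : ∀ x ∈ K, ‖fderiv ℝ φ x v • u x - fderiv ℝ φ x v • B (x, w x)‖ ≤ C₁ * η := by
        intro x hx
        rw [← smul_sub, norm_smul]
        apply mul_le_mul (hC₁ x) _ (norm_nonneg _) hC₁0
        rw [norm_sub_rev]
        exact (hwB x (hKΩ hx)).le
      refine (norm_setIntegral_le_of_norm_le_const hK.measure_lt_top h1).trans (le_of_eq ?_)
      rw [hmdef]; ring
    rw [hsplit]
    refine (norm_add_le _ _).trans ?_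
    refine (add_le_add hbound1 hbound2).trans (le_of_eq ?_)
    ring
  -- conclude
  have hzero : ‖∫ x, φ x • U x v ∂μ + ∫ x, fderiv ℝ φ x v • u x ∂μ‖ ≤ 0 := by
    apply le_of_forall_pos_le_add
    intro η hη
    rw [zero_add]
    set D : ℝ := C₀ * ‖v‖ * (I + 1) + C₁ * m with hD
    have hD0 : 0 ≤ D := by (clear * - hC₀0 hC₁0; positivity)
    refine (hkey (η / (D + 1)) (by (clear * - hη hC₀0 hC₁0; positivity))).trans ?_
    rw [div_mul_eq_mul_div, div_le_iff₀ (by (clear * - hC₀0 hC₁0; positivity))]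
    nlinarith only [hη]
  have hz : ∫ x, φ x • U x v ∂μ + ∫ x, fderiv ℝ φ x v • u x ∂μ = 0 :=
    norm_le_zero_iff.1 hzero
  rw [setIntegral_eq_integral_of_forall_compl_eq_zero,
    setIntegral_eq_integral_of_forall_compl_eq_zero]
  · exact eq_neg_of_add_eq_zero_left hz
  · intro x hx
    rw [fderiv_of_notMem_tsupport ℝ (fun h => hx (hs h))]
    simp only [zero_apply, zero_smul]
  · intro x hx
    rw [image_eq_zero_of_notMem_tsupport (fun h => hx (hs h)), zero_smul]

end

end Vale.Agent.P073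
end

section

/-!
# P073: auxiliary results for the main construction
-/

set_option linter.unusedSectionVars false
set_option maxSynthPendingDepth 3

namespace Vale.Agent.P073

open MeasureTheory Set Filter Topology Metric Module
open scoped ENNReal ContDiff RealInnerProductSpace

section Approx

variable {E : Type*} [NormedAddCommGroup E] [InnerProductSpace ℝ E] [FiniteDimensional ℝ E]
  [MeasurableSpace E] [BorelSpace E] (μ : Measure E) [μ.IsAddHaarMeasure]
  {G : Type*} [NormedAddCommGroup G] [NormedSpace ℝ G] [CompleteSpace G]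

include μ in
/-- Fine smooth approximation of continuous functions on an open set. -/
theorem fine_approx_continuous {Ω : Set E} (hΩ : IsOpen Ω) {w : E → G} (hw : ContinuousOn w Ω)
    {δ : E → ℝ} (hδ : ContinuousOn δ Ω) (hδpos : ∀ x ∈ Ω, 0 < δ x) :
    ∃ v : E → G, ContDiffOn ℝ ∞ v Ω ∧ ∀ x ∈ Ω, ‖v x - w x‖ < δ x := by
  obtain ⟨X⟩ := exists_exh hΩ
  have hKΩ : ∀ j, X.K j ⊆ Ω := X.K_subset
  have hd : ∀ j, ∃ d > 0, ∀ x ∈ X.K (j + 1), d ≤ δ x := fun j =>
    exists_pos_lower_bound (X.isCompact_K (j + 1)) (hδ.mono (hKΩ _))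
      (fun x hx => hδpos x (hKΩ _ hx))
  choose d hdpos hd using hd
  have hv : ∀ j, ∃ v : E → G, ContDiff ℝ ∞ v ∧ ∀ x ∈ X.K (j + 1), ‖v x - w x‖ ≤ d j / 2 := by
    intro j
    have hK₂ := X.isCompact_K (j + 2)
    have h12 := X.subset_interior (j + 1)
    have hwK : ContinuousOn w (X.K (j + 2)) := hw.mono (hKΩ _)
    obtain ⟨r₀, hr₀, hsub⟩ := exists_closedBall_subset (X.isCompact_K (j + 1)) h12
    obtain ⟨r₁, hr₁, hosc⟩ := exists_osc_le (X.isCompact_K (j + 1)) hK₂ h12 hwK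
      (half_pos (hdpos j))
    have hint : Integrable ((X.K (j + 2)).indicator w) μ :=
      (hwK.integrableOn_compact hK₂).integrable_indicator hK₂.measurableSet
    refine ⟨moll μ (min r₀ r₁) ((X.K (j + 2)).indicator w),
      contDiff_moll μ (lt_min hr₀ hr₁) hint.locallyIntegrable, ?_⟩
    intro x hx
    apply norm_moll_sub_le μ (lt_min hr₀ hr₁) hint.integrableOn
    intro y hy
    have hy' := ball_subset_closedBall hy
    rw [indicator_of_mem (hsub x hx (closedBall_subset_closedBall (min_le_left _ _) hy'))]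
    exact hosc x hx y (closedBall_subset_closedBall (min_le_right _ _) hy')
  choose v hv1 hv2 using hv
  refine ⟨X.patch v, X.contDiffOn_patch v hv1, ?_⟩
  intro x hx
  obtain ⟨m, hm, hm'⟩ := X.exists_shell hx
  rw [X.patch_eq_shell v hm hm']
  have h1 := hv2 m x hm
  have h2 := hv2 (m + 1) x (X.K_succ _ hm)
  obtain ⟨hφ0, hφ1⟩ := X.φ_mem m x
  have hφ1' : 0 ≤ 1 - X.φ m x := by linarith only [hφ1]
  have h3 : X.φ m x • v m x + (1 - X.φ m x) • v (m + 1) x - w x =
      X.φ m x • (v m x - w x) + (1 - X.φ m x) • (v (m + 1) x - w x) := by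
    module
  rw [h3]
  have e1 := hd m x hm
  have e2 := hd (m + 1) x (X.K_succ _ hm)
  have e3 := hδpos x hx
  have e4 := hdpos m
  have e5 := hdpos (m + 1)
  calc ‖X.φ m x • (v m x - w x) + (1 - X.φ m x) • (v (m + 1) x - w x)‖
      ≤ X.φ m x * (d m / 2) + (1 - X.φ m x) * (d (m + 1) / 2) := by
        refine (norm_add_le _ _).trans ?_
        rw [norm_smul, norm_smul, Real.norm_of_nonneg hφ0, Real.norm_of_nonneg hφ1']
        (clear * - h1 hφ0 h2 hφ1; gcongr)
    _ ≤ X.φ m x * (δ x / 2) + (1 - X.φ m x) * (δ x / 2) := by (clear * - e1 hφ0 e2 hφ1; gcongr)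
    _ = δ x / 2 := by ring
    _ < δ x := by linarith only [e3]

end Approx

section Implicit

variable {E : Type*} [NormedAddCommGroup E] [NormedSpace ℝ E] [FiniteDimensional ℝ E]

/-- The implicit function attached to `B (x, ·)`. -/
theorem exists_implicit {Ω Λ : Set E} (hΩ : IsOpen Ω) (hΛ : IsOpen Λ) {B : E × E → E}
    (hB : ContDiffOn ℝ ∞ B (Ω ×ˢ Λ)) (hinj : ∀ x ∈ Ω, InjOn (fun y => B (x, y)) Λ)
    (hder : ∀ q ∈ Ω ×ˢ Λ, ∀ w : E, fderiv ℝ B q (0, w) = 0 → w = 0) :
    ∃ (W : Set (E × E)) (Y : E × E → E), IsOpen W ∧ ContDiffOn ℝ ∞ Y W ∧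
      (∀ q ∈ Ω ×ˢ Λ, (q.1, B q) ∈ W ∧ Y (q.1, B q) = q.2) ∧
      (∀ z ∈ W, (z.1, Y z) ∈ Ω ×ˢ Λ ∧ B (z.1, Y z) = z.2) := by
  classical
  have hO : IsOpen (Ω ×ˢ Λ) := hΩ.prod hΛ
  set Γ : E × E → E × E := fun q => (q.1, B q) with hΓ
  have hΓs : ContDiffOn ℝ ∞ Γ (Ω ×ˢ Λ) := contDiffOn_fst.prodMk hB
  have hΓinj : InjOn Γ (Ω ×ˢ Λ) := by
    rintro ⟨x, y⟩ hq ⟨x', y'⟩ hq' h
    simp only [hΓ, Prod.mk.injEq] at h
    obtain ⟨h1, h2⟩ := h
    subst h1
    exact Prod.ext rfl (hinj x hq.1 hq.2 hq'.2 h2)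
  have hΓd : ∀ q ∈ Ω ×ˢ Λ, ∀ v, fderiv ℝ Γ q v = 0 → v = 0 := by
    intro q hq v hv
    have hBd : HasFDerivAt B (fderiv ℝ B q) q :=
      ((hB.contDiffAt (hO.mem_nhds hq)).differentiableAt (by simp)).hasFDerivAt
    have h1 : HasFDerivAt Γ ((ContinuousLinearMap.fst ℝ E E).prod (fderiv ℝ B q)) q :=
      hasFDerivAt_fst.prodMk hBd
    rw [h1.fderiv] at hv
    have h2 : v.1 = 0 := congrArg Prod.fst hv
    have h3 : fderiv ℝ B q v = 0 := congrArg Prod.snd hv
    have h4 : v = (0, v.2) := by rw [← h2]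
    rw [h4] at h3
    have h5 := hder q hq v.2 h3
    rw [h4, h5]
    rfl
  have hloc : ∀ q ∈ Ω ×ˢ Λ, ∃ e : OpenPartialHomeomorph (E × E) (E × E), q ∈ e.source ∧
      (∀ z, e z = Γ z) ∧ e.source ⊆ Ω ×ˢ Λ ∧ ContDiffAt ℝ ∞ e.symm (Γ q) := fun q hq =>
    exists_openPartialHomeomorph_of_injective hO hΓs hq (hΓd q hq)
  set W : Set (E × E) := Γ '' (Ω ×ˢ Λ) with hW
  have hWo : IsOpen W := by
    rw [isOpen_iff_mem_nhds]
    rintro _ ⟨q, hq, rfl⟩
    obtain ⟨e, he1, he2, he3, -⟩ := hloc q hq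
    have h1 : e.target ∈ 𝓝 (Γ q) := by
      rw [← he2 q]
      exact e.open_target.mem_nhds (e.map_source he1)
    refine mem_of_superset h1 ?_
    intro z hz
    refine ⟨e.symm z, he3 (e.map_target hz), ?_⟩
    rw [← he2, e.right_inv hz]
  set I : E × E → E × E := Function.invFunOn Γ (Ω ×ˢ Λ) with hI
  have hI1 : ∀ q ∈ Ω ×ˢ Λ, I (Γ q) = q := fun q hq => hΓinj.leftInvOn_invFunOn hq
  have hI2 : ∀ z ∈ W, I z ∈ Ω ×ˢ Λ ∧ Γ (I z) = z := by
    rintro _ ⟨q, hq, rfl⟩
    rw [hI1 q hq]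
    exact ⟨hq, rfl⟩
  have hIs : ContDiffOn ℝ ∞ I W := by
    rintro _ ⟨q, hq, rfl⟩
    obtain ⟨e, he1, he2, he3, he4⟩ := hloc q hq
    apply ContDiffAt.contDiffWithinAt
    apply he4.congr_of_eventuallyEq
    have h1 : e.target ∈ 𝓝 (Γ q) := by
      rw [← he2 q]
      exact e.open_target.mem_nhds (e.map_source he1)
    filter_upwards [h1] with z hz
    have h2 : e.symm z ∈ Ω ×ˢ Λ := he3 (e.map_target hz)
    have h3 : Γ (e.symm z) = z := by rw [← he2, e.right_inv hz]
    rw [← h3, hI1 _ h2, h3]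
  refine ⟨W, fun z => (I z).2, hWo, contDiff_snd.comp_contDiffOn hIs, ?_, ?_⟩
  · intro q hq
    refine ⟨⟨q, hq, rfl⟩, ?_⟩
    show (I (Γ q)).2 = q.2
    rw [hI1 q hq]
  · intro z hz
    obtain ⟨h1, h2⟩ := hI2 z hz
    have h3 : (I z).1 = z.1 := (congrArg Prod.fst h2 : (Γ (I z)).1 = z.1)
    have h4 : B (I z) = z.2 := (congrArg Prod.snd h2 : (Γ (I z)).2 = z.2)
    have h5 : (z.1, (I z).2) = I z := by rw [← h3]
    constructor
    · show (z.1, (I z).2) ∈ Ω ×ˢ Λ
      rw [h5]; exact h1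
    · show B (z.1, (I z).2) = z.2
      rw [h5]; exact h4

end Implicit

section Cone

variable {E : Type*} [NormedAddCommGroup E] [InnerProductSpace ℝ E] [FiniteDimensional ℝ E]

/-- Separation of a cone of matrices from `-a`. -/
theorem exists_separating (C : ConvexCone ℝ (E →L[ℝ] E)) {K : ℝ} (hK1 : 1 ≤ K)
    (hC : ∀ M ∈ C, ∀ v, ‖v‖ ≤ K * ‖v + M v‖) {a : E} (ha : ‖a‖ = 1) :
    ∃ w : E, ‖w‖ ≤ 1 ∧ (∀ M ∈ C, 0 ≤ ⟪M a, w⟫) ∧ 1 / K ^ 2 ≤ ⟪a, w⟫ := by
  have hK0 : 0 < K := by linarith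
  set D : Set E := insert 0 {z | ∃ M ∈ C, M a = z} with hD
  have hDsmul : ∀ t : ℝ, 0 ≤ t → ∀ z ∈ D, t • z ∈ D := by
    intro t ht z hz
    rcases hz with rfl | ⟨M, hM, rfl⟩
    · rw [smul_zero]; exact mem_insert _ _
    · rcases eq_or_lt_of_le ht with h | h
      · rw [← h, zero_smul]; exact mem_insert _ _
      · right
        exact ⟨t • M, C.smul_mem h hM, rfl⟩
  have hDadd : ∀ z ∈ D, ∀ z' ∈ D, z + z' ∈ D := by
    intro z hz z' hz'
    rcases hz with rfl | ⟨M, hM, rfl⟩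
    · rw [zero_add]; exact hz'
    · rcases hz' with rfl | ⟨M', hM', rfl⟩
      · rw [add_zero]; right; exact ⟨M, hM, rfl⟩
      · right; exact ⟨M + M', C.add_mem hM hM', rfl⟩
  have hDconv : Convex ℝ D := by
    intro z hz z' hz' s t hs ht _
    exact hDadd _ (hDsmul s hs z hz) _ (hDsmul t ht z' hz')
  have hcl : IsComplete (closure D) := isClosed_closure.isComplete
  have hconv : Convex ℝ (closure D) := hDconv.closure
  have h0 : (0 : E) ∈ closure D := subset_closure (mem_insert _ _)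
  obtain ⟨P, hP, hPmin⟩ := exists_norm_eq_iInf_of_complete_convex ⟨0, h0⟩ hcl hconv (-a)
  have hvar := (norm_eq_iInf_iff_real_inner_le_zero hconv hP).1 hPmin
  set w : E := P + a with hw
  have hw1 : -a - P = -w := by rw [hw]; abel
  have hvar' : ∀ q ∈ closure D, 0 ≤ ⟪w, q - P⟫ := by
    intro q hq
    have := hvar q hq
    rw [hw1, inner_neg_left] at this
    linarith only [this]
  have h2P : (2 : ℝ) • P ∈ closure D := by
    have hc : Continuous fun z : E => (2 : ℝ) • z := continuous_const_smul _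
    exact map_mem_closure hc hP (fun z hz => hDsmul 2 (by norm_num) z hz)
  have e1 := hvar' 0 h0
  have e2 := hvar' _ h2P
  have e3 : (2 : ℝ) • P - P = P := by rw [two_smul]; abel
  rw [zero_sub, inner_neg_right] at e1
  rw [e3] at e2
  have e4 : ⟪w, P⟫ = 0 := by linarith only [e2, e1]
  have e5 : ∀ q ∈ closure D, 0 ≤ ⟪w, q⟫ := by
    intro q hq
    have := hvar' q hq
    rw [inner_sub_right, e4] at this
    linarith only [this]
  have e6 : ⟪w, a⟫ = ‖w‖ ^ 2 := by
    have : a = w - P := by rw [hw]; abel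
    rw [this, inner_sub_right, e4, sub_zero, real_inner_self_eq_norm_sq]
  have e7 : 1 / K ≤ ‖w‖ := by
    have hcl2 : ∀ q ∈ closure D, 1 ≤ K * ‖q + a‖ := by
      intro q hq
      have hclosed : IsClosed {q : E | 1 ≤ K * ‖q + a‖} :=
        isClosed_le continuous_const (continuous_const.mul (continuous_id.add continuous_const).norm)
      apply closure_minimal _ hclosed hq
      intro z hz
      rcases hz with rfl | ⟨M, hM, rfl⟩
      · show 1 ≤ K * ‖0 + a‖
        rw [zero_add, ha, mul_one]; exact hK1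
      · show 1 ≤ K * ‖M a + a‖
        have := hC M hM a
        rw [ha] at this
        rwa [add_comm]
    have := hcl2 P hP
    rw [div_le_iff₀ hK0]
    linarith only [this]
  have e8 : ‖w‖ ≤ 1 := by
    have h9 : ‖-a - P‖ ≤ ‖-a - 0‖ := by
      rw [hPmin]
      have hbdd : BddBelow (range fun w : closure D => ‖-a - (w : E)‖) :=
        ⟨0, by rintro _ ⟨z, rfl⟩; exact norm_nonneg _⟩
      exact ciInf_le hbdd ⟨0, h0⟩
    rw [hw1, norm_neg, sub_zero, norm_neg, ha] at h9
    exact h9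
  refine ⟨w, e8, ?_, ?_⟩
  · intro M hM
    rw [real_inner_comm]
    exact e5 _ (subset_closure (Or.inr ⟨M, hM, rfl⟩))
  · rw [real_inner_comm, e6]
    have : 0 ≤ 1 / K := by positivity
    calc 1 / K ^ 2 = (1 / K) ^ 2 := by rw [div_pow, one_pow]
      _ ≤ ‖w‖ ^ 2 := by (clear * - hK1 e7; gcongr)

end Cone

end Vale.Agent.P073
end

section

/-!
# P073: pointwise estimates for the main construction
-/

set_option linter.unusedSectionVars false
set_option maxSynthPendingDepth 3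

namespace Vale.Agent.P073

open MeasureTheory Set Filter Topology Metric Module
open scoped ENNReal ContDiff RealInnerProductSpace

section Pointwise

variable {E : Type*} [NormedAddCommGroup E] [InnerProductSpace ℝ E] [FiniteDimensional ℝ E]

/-- The kernel of the derivative of the corrected map is trivial (linear algebra at a point). -/
theorem kernel_trivial {Dt N S P c c' Du A Ai : E →L[ℝ] E} {κ m δ : ℝ} (hκ : 0 < κ) (hm : 0 < m)
    (hA : A.comp Ai = ContinuousLinearMap.id ℝ E)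
    (hP : ∀ v, Du v = c' v + P (Dt v))
    (hsep : ∀ a : E, ‖a‖ = 1 → ∃ w : E, ‖w‖ ≤ 1 ∧ m ≤ ⟪a, w⟫ ∧ -δ ≤ ⟪(Du - c) (A a), w⟫)
    (hPNA : ‖(P.comp N).comp A - ContinuousLinearMap.id ℝ E‖ ≤ m / 4)
    (hS : ‖S‖ ≤ 1 / 2) (hS' : ‖S‖ * (‖P‖ * ‖N‖ * ‖A‖) ≤ m / 8)
    (hδ : δ + ‖c - c'‖ * ‖A‖ < κ * m / 2)
    {ξ : E} (hξ : Dt ξ + κ • N ξ + S (Dt ξ) = 0) : ξ = 0 := by
  by_contra hne
  set a₀ : E := Ai ξ with ha₀
  have hAa₀ : A a₀ = ξ := by
    have := congrArg (fun L : E →L[ℝ] E => L ξ) hA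
    simpa using this
  have ha₀ne : a₀ ≠ 0 := by
    intro h
    apply hne
    rw [← hAa₀, h, map_zero]
  have hpos : 0 < ‖a₀‖ := norm_pos_iff.2 ha₀ne
  set t : ℝ := ‖a₀‖⁻¹ with ht
  set a : E := t • a₀ with ha
  have hanorm : ‖a‖ = 1 := by
    rw [ha, norm_smul, ht, norm_inv, norm_norm, inv_mul_cancel₀ hpos.ne']
  set η : E := t • ξ with hη
  have hAa : A a = η := by rw [ha, map_smul, hAa₀]
  have hη0 : Dt η + κ • N η + S (Dt η) = 0 := by
    have : Dt η + κ • N η + S (Dt η) = t • (Dt ξ + κ • N ξ + S (Dt ξ)) := by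
      rw [hη]
      simp only [map_smul, smul_add]
      rw [smul_comm κ t]
    rw [this, hξ, smul_zero]
  set ζ : E := Dt η with hζ
  have hζ1 : ζ = -(κ • N η) - S ζ := by
    have : ζ + κ • N η + S ζ = 0 := hη0
    calc ζ = (ζ + κ • N η + S ζ) - κ • N η - S ζ := by abel
      _ = -(κ • N η) - S ζ := by rw [this, zero_sub]
  have hηn : ‖η‖ ≤ ‖A‖ := by
    rw [← hAa]
    exact (A.le_opNorm a).trans (by rw [hanorm, mul_one])
  have hζn : ‖ζ‖ ≤ 2 * κ * (‖N‖ * ‖A‖) := by
    have h1 : ‖ζ‖ ≤ κ * (‖N‖ * ‖A‖) + 1 / 2 * ‖ζ‖ := by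
      calc ‖ζ‖ = ‖-(κ • N η) - S ζ‖ := by rw [← hζ1]
        _ ≤ ‖-(κ • N η)‖ + ‖S ζ‖ := norm_sub_le _ _
        _ = κ * ‖N η‖ + ‖S ζ‖ := by rw [norm_neg, norm_smul, Real.norm_of_nonneg hκ.le]
        _ ≤ κ * (‖N‖ * ‖A‖) + 1 / 2 * ‖ζ‖ := by
            have h2 : ‖N η‖ ≤ ‖N‖ * ‖A‖ := (N.le_opNorm η).trans (by (clear * - hηn; gcongr))
            have h3 : ‖S ζ‖ ≤ 1 / 2 * ‖ζ‖ := (S.le_opNorm ζ).trans (by (clear * - hS; gcongr))
            (clear * - h2 hκ h3; gcongr)
    linarith only [h1]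
  obtain ⟨w, hw1, hw2, hw3⟩ := hsep a hanorm
  -- lower bound
  have hlow : -δ - ‖c - c'‖ * ‖A‖ ≤ ⟪P ζ, w⟫ := by
    have h1 : P ζ = (Du - c) (A a) + (c - c') (A a) := by
      rw [hAa, _root_.sub_apply, _root_.sub_apply, hP η]
      abel
    rw [h1, inner_add_left]
    have h2 : |⟪(c - c') (A a), w⟫| ≤ ‖c - c'‖ * ‖A‖ := by
      refine (abs_real_inner_le_norm _ _).trans ?_
      calc ‖(c - c') (A a)‖ * ‖w‖ ≤ (‖c - c'‖ * ‖A‖) * 1 := by
            gcongr
            refine ((c - c').le_opNorm _).trans ?_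
            rw [hAa]
            (clear * - hηn; gcongr)
        _ = _ := mul_one _
    have h3 := (abs_le.1 h2).1
    linarith only [hw3, h3]
  -- upper bound
  have hup : ⟪P ζ, w⟫ ≤ -(κ * m / 2) := by
    have h1 : P ζ = -(κ • P (N (A a))) - P (S ζ) := by
      rw [hAa]
      calc P ζ = P (-(κ • N η) - S ζ) := by rw [← hζ1]
        _ = _ := by rw [map_sub, map_neg, map_smul]
    have h2 : ⟪P (N (A a)), w⟫ ≥ m - m / 4 := by
      have h3 : P (N (A a)) = a + ((P.comp N).comp A - ContinuousLinearMap.id ℝ E) a := by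
        simp
      rw [h3, inner_add_left]
      have h4 : |⟪((P.comp N).comp A - ContinuousLinearMap.id ℝ E) a, w⟫| ≤ m / 4 := by
        refine (abs_real_inner_le_norm _ _).trans ?_
        calc ‖((P.comp N).comp A - ContinuousLinearMap.id ℝ E) a‖ * ‖w‖
            ≤ (m / 4) * 1 := by
              gcongr
              refine (((P.comp N).comp A - ContinuousLinearMap.id ℝ E).le_opNorm a).trans ?_
              rw [hanorm, mul_one]
              exact hPNA
          _ = _ := mul_one _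
      have h5 := (abs_le.1 h4).1
      linarith only [h5, hw2]
    have h6 : |⟪P (S ζ), w⟫| ≤ κ * m / 4 := by
      refine (abs_real_inner_le_norm _ _).trans ?_
      calc ‖P (S ζ)‖ * ‖w‖ ≤ (‖P‖ * (‖S‖ * (2 * κ * (‖N‖ * ‖A‖)))) * 1 := by
            gcongr
            refine (P.le_opNorm _).trans ?_
            gcongr
            refine (S.le_opNorm _).trans ?_
            (clear * - hζn; gcongr)
        _ = 2 * κ * (‖S‖ * (‖P‖ * ‖N‖ * ‖A‖)) := by ring
        _ ≤ 2 * κ * (m / 8) := by (clear * - hS' hκ; gcongr)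
        _ = κ * m / 4 := by ring
    have h7 := (abs_le.1 h6).1
    rw [h1, inner_sub_left, inner_neg_left, real_inner_smul_left]
    have h8 : κ * (m - m / 4) ≤ κ * ⟪P (N (A a)), w⟫ := by
      (clear * - h2 hκ; gcongr)
    linarith only [h8, h7]
  linarith only [hδ, hlow, hup]

/-- The estimate for the derivative of the corrected map. -/
theorem norm_deriv_sub_le {Dt T S P P' Pi c c' Du U F : E →L[ℝ] E} {ε β : ℝ}
    (hε1 : ε ≤ 1)
    (hP : ∀ v, Du v = c' v + P' (Dt v)) (hU : ∀ v, U v = c v + P (F v))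
    (hPi : Pi.comp P' = ContinuousLinearMap.id ℝ E) (hPin : ‖Pi‖ ≤ β)
    (hc : β * ‖c - c'‖ ≤ ε) (hPP : β * ‖P - P'‖ ≤ ε) (hT : ‖T‖ ≤ ε) (hS : ‖S‖ ≤ ε) :
    ‖Dt + T + S.comp Dt - F‖ ≤ 2 * (β * ‖Du - U‖) + 3 * ε * (1 + ‖F‖) := by
  have hβ : 0 ≤ β := (norm_nonneg _).trans hPin
  have hε : 0 ≤ ε := (norm_nonneg _).trans hT
  have h1 : Dt - F = Pi.comp ((Du - U) + (c - c') + (P - P').comp F) := by
    ext1 v
    have h2 : Pi (P' (Dt v - F v)) = Dt v - F v := by
      have := congrArg (fun L : E →L[ℝ] E => L (Dt v - F v)) hPi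
      simpa using this
    have h3 : P' (Dt v - F v) = ((Du - U) + (c - c') + (P - P').comp F) v := by
      simp only [_root_.add_apply, _root_.sub_apply,
        ContinuousLinearMap.comp_apply, hP v, hU v, map_sub]
      abel
    rw [ContinuousLinearMap.comp_apply, ← h3, h2, _root_.sub_apply]
  have h4 : ‖Dt - F‖ ≤ β * ‖Du - U‖ + ε * (1 + ‖F‖) := by
    rw [h1]
    calc ‖Pi.comp ((Du - U) + (c - c') + (P - P').comp F)‖
        ≤ ‖Pi‖ * ‖(Du - U) + (c - c') + (P - P').comp F‖ :=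
          ContinuousLinearMap.opNorm_comp_le _ _
      _ ≤ β * (‖Du - U‖ + ‖c - c'‖ + ‖P - P'‖ * ‖F‖) := by
          gcongr
          refine (norm_add_le _ _).trans ?_
          gcongr
          · exact norm_add_le _ _
          · exact ContinuousLinearMap.opNorm_comp_le _ _
      _ = β * ‖Du - U‖ + β * ‖c - c'‖ + (β * ‖P - P'‖) * ‖F‖ := by ring
      _ ≤ β * ‖Du - U‖ + ε + ε * ‖F‖ := by (clear * - hc hPP; gcongr)
      _ = _ := by ring
  have h5 : Dt + T + S.comp Dt - F = (Dt - F) + T + S.comp (Dt - F) + S.comp F := by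
    ext1 v
    simp only [sub_apply, add_apply, ContinuousLinearMap.comp_apply, map_sub]
    abel
  rw [h5]
  calc ‖(Dt - F) + T + S.comp (Dt - F) + S.comp F‖
      ≤ ‖Dt - F‖ + ‖T‖ + ‖S.comp (Dt - F)‖ + ‖S.comp F‖ :=
        (norm_add_le _ _).trans (by gcongr; exact (norm_add_le _ _).trans (by gcongr; exact norm_add_le _ _))
    _ ≤ ‖Dt - F‖ + ε + ε * ‖Dt - F‖ + ε * ‖F‖ := by
        gcongr
        · exact (ContinuousLinearMap.opNorm_comp_le _ _).trans (by (clear * - hS; gcongr))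
        · exact (ContinuousLinearMap.opNorm_comp_le _ _).trans (by (clear * - hS; gcongr))
    _ ≤ ‖Dt - F‖ + ε + 1 * ‖Dt - F‖ + ε * ‖F‖ := by (clear * - hε1; gcongr)
    _ ≤ 2 * (β * ‖Du - U‖ + ε * (1 + ‖F‖)) + ε * (1 + ‖F‖) := by linarith only [h4]
    _ = _ := by ring

end Pointwise

section Choices

variable {E : Type*} [NormedAddCommGroup E] [NormedSpace ℝ E]
  {E' : Type*} [NormedAddCommGroup E'] [NormedSpace ℝ E']

/-- A continuous gauge for staying inside an open neighbourhood of a graph. -/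
theorem exists_delta_of_isOpen {Ω : Set E} {O : Set (E × E')} (hO : IsOpen O) {u : E → E'}
    (hu : ContinuousOn u Ω) (hmem : ∀ x ∈ Ω, (x, u x) ∈ O) :
    ∃ δ : E → ℝ, ContinuousOn δ Ω ∧ (∀ x ∈ Ω, 0 < δ x) ∧
      ∀ x ∈ Ω, ∀ v : E', ‖v - u x‖ < δ x → (x, v) ∈ O := by
  rcases (Oᶜ).eq_empty_or_nonempty with h | h
  · refine ⟨fun _ => 1, continuousOn_const, fun _ _ => one_pos, ?_⟩
    intro x _ v _
    rw [compl_empty_iff.1 h]
    exact mem_univ _
  · refine ⟨fun x => infDist (x, u x) Oᶜ, ?_, ?_, ?_⟩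
    · exact (continuous_infDist_pt _).comp_continuousOn (continuousOn_id.prodMk hu)
    · intro x hx
      refine (hO.isClosed_compl.notMem_iff_infDist_pos h).1 ?_
      exact fun hc => hc (hmem x hx)
    · intro x hx v hv
      by_contra hc
      have h1 : infDist (x, u x) Oᶜ ≤ dist (x, u x) (x, v) := infDist_le_dist_of_mem hc
      have h2 : dist (x, u x) (x, v) = ‖v - u x‖ := by
        rw [Prod.dist_eq, dist_self, dist_comm, dist_eq_norm]
        exact max_eq_right (norm_nonneg _)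
      rw [h2] at h1
      exact absurd hv (not_lt.2 h1)

variable [FiniteDimensional ℝ E]

/-- The correction field `κ N` can be made as small as we please in the fine `C¹` topology. -/
theorem exists_small_multiple {Λ : Set E} (hΛ : IsOpen Λ) {N : E → E'}
    (hN : ContDiffOn ℝ ∞ N Λ) {θ : E → ℝ} (hθ : ContinuousOn θ Λ) (hθpos : ∀ y ∈ Λ, 0 < θ y)
    {R : ℝ} (hR : 0 ≤ R) :
    ∃ κ : E → ℝ, ContDiff ℝ ∞ κ ∧ ∀ y ∈ Λ, 0 < κ y ∧ ‖κ y • N y‖ * (R + 1) < θ y ∧
      ‖fderiv ℝ (fun y => κ y • N y) y‖ * (R + 1) < θ y := by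
  have hNc : ContinuousOn N Λ := hN.continuousOn
  have hDN : ContinuousOn (fderiv ℝ N) Λ := hN.continuousOn_fderiv_of_isOpen hΛ (by simp only [WithTop.one_le_coe, le_top])
  set δ : E → ℝ := fun y => θ y / ((R + 1) * (‖N y‖ + ‖fderiv ℝ N y‖ + 1)) with hδ
  have hden : ∀ y, 0 < (R + 1) * (‖N y‖ + ‖fderiv ℝ N y‖ + 1) := fun y => by (clear * - hR; positivity)
  have hδc : ContinuousOn δ Λ := by
    apply hθ.div
    · exact continuousOn_const.mul ((hNc.norm.add hDN.norm).add continuousOn_const)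
    · exact fun y _ => (hden y).ne'
  have hδpos : ∀ y ∈ Λ, 0 < δ y := fun y hy => div_pos (hθpos y hy) (hden y)
  obtain ⟨κ, hκ1, hκ2, -⟩ := exists_kappa hΛ hδc hδpos
  refine ⟨κ, hκ1, ?_⟩
  intro y hy
  obtain ⟨h1, h2, h3⟩ := hκ2 y hy
  have hδy : δ y * (‖N y‖ + ‖fderiv ℝ N y‖ + 1) * (R + 1) = θ y := by
    rw [hδ]
    (clear * - hR; field_simp)
  have hn1 := norm_nonneg (N y)
  have hn2 := norm_nonneg (fderiv ℝ N y)
  have hR1 : 0 < R + 1 := by linarith only [hR]
  refine ⟨h1, ?_, ?_⟩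
  · rw [norm_smul, Real.norm_of_nonneg h1.le, ← hδy]
    have : κ y * ‖N y‖ < δ y * (‖N y‖ + ‖fderiv ℝ N y‖ + 1) := by
      calc κ y * ‖N y‖ ≤ δ y * ‖N y‖ := by (clear * - h2; gcongr)
        _ < δ y * (‖N y‖ + ‖fderiv ℝ N y‖ + 1) := by
            have := hδpos y hy
            gcongr
            linarith only [hn2]
    (clear * - this hR; gcongr)
  · have hκd : HasFDerivAt κ (fderiv ℝ κ y) y :=
      ((hκ1.differentiable (by simp)) y).hasFDerivAt
    have hNd : HasFDerivAt N (fderiv ℝ N y) y :=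
      ((hN.contDiffAt (hΛ.mem_nhds hy)).differentiableAt (by simp)).hasFDerivAt
    have hd : fderiv ℝ (fun y => κ y • N y) y =
        κ y • fderiv ℝ N y + (fderiv ℝ κ y).smulRight (N y) := (hκd.smul hNd).fderiv
    rw [hd, ← hδy]
    have : ‖κ y • fderiv ℝ N y + (fderiv ℝ κ y).smulRight (N y)‖ <
        δ y * (‖N y‖ + ‖fderiv ℝ N y‖ + 1) := by
      calc ‖κ y • fderiv ℝ N y + (fderiv ℝ κ y).smulRight (N y)‖
          ≤ κ y * ‖fderiv ℝ N y‖ + ‖fderiv ℝ κ y‖ * ‖N y‖ := by
            refine (norm_add_le _ _).trans ?_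
            rw [norm_smul, Real.norm_of_nonneg h1.le, ContinuousLinearMap.norm_smulRight_apply]
        _ ≤ δ y * ‖fderiv ℝ N y‖ + δ y * ‖N y‖ := by (clear * - h2 h3; gcongr)
        _ < δ y * (‖N y‖ + ‖fderiv ℝ N y‖ + 1) := by
            have := hδpos y hy
            linarith only [h2, h1]
    (clear * - this hR; gcongr)

end Choices

end Vale.Agent.P073
end

section

/-!
# P073: the main construction
-/

set_option linter.unusedSectionVars false
set_option maxSynthPendingDepth 3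

namespace Vale.Agent.P073

open MeasureTheory Set Filter Topology Metric Module
open scoped ENNReal ContDiff RealInnerProductSpace

section Inverse

variable {E : Type*} [NormedAddCommGroup E] [NormedSpace ℝ E] [FiniteDimensional ℝ E]

theorem exists_equiv_of_injective {M : E →L[ℝ] E} (hM : ∀ v, M v = 0 → v = 0) :
    ∃ e : E ≃L[ℝ] E, (e : E →L[ℝ] E) = M := by
  have hinj : Function.Injective (M : E →ₗ[ℝ] E) := by
    rw [injective_iff_map_eq_zero]
    exact hM
  refine ⟨(LinearEquiv.ofInjectiveEndo (M : E →ₗ[ℝ] E) hinj).toContinuousLinearEquiv, ?_⟩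
  ext v
  rfl

theorem comp_inverse_of_injective {M : E →L[ℝ] E} (hM : ∀ v, M v = 0 → v = 0) :
    M.comp M.inverse = ContinuousLinearMap.id ℝ E := by
  obtain ⟨e, rfl⟩ := exists_equiv_of_injective hM
  rw [ContinuousLinearMap.inverse_equiv]
  ext v
  simp

theorem inverse_comp_of_injective {M : E →L[ℝ] E} (hM : ∀ v, M v = 0 → v = 0) :
    M.inverse.comp M = ContinuousLinearMap.id ℝ E := by
  obtain ⟨e, rfl⟩ := exists_equiv_of_injective hM
  rw [ContinuousLinearMap.inverse_equiv]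
  ext v
  simp

theorem continuousAt_inverse_of_injective {M : E →L[ℝ] E} (hM : ∀ v, M v = 0 → v = 0) :
    ContinuousAt ContinuousLinearMap.inverse M := by
  obtain ⟨e, rfl⟩ := exists_equiv_of_injective hM
  have : CompleteSpace E := FiniteDimensional.complete ℝ E
  exact (contDiffAt_map_inverse (𝕜 := ℝ) (n := 0) e).continuousAt

theorem continuousOn_inverse {X : Type*} [TopologicalSpace X] {s : Set X} {M : X → E →L[ℝ] E}
    (hM : ContinuousOn M s) (hinj : ∀ x ∈ s, ∀ v, M x v = 0 → v = 0) :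
    ContinuousOn (fun x => (M x).inverse) s := by
  intro x hx
  exact (continuousAt_inverse_of_injective (hinj x hx)).comp_continuousWithinAt (hM x hx)

end Inverse

section N

variable {E : Type*} [NormedAddCommGroup E] [InnerProductSpace ℝ E] [FiniteDimensional ℝ E]
  [MeasurableSpace E] [BorelSpace E] (μ : Measure E) [μ.IsAddHaarMeasure]

include μ in
/-- A smooth field `N` with `P N A` close to the identity. -/
theorem exists_N {Λ : Set E} (hΛ : IsOpen Λ) {P A : E → E →L[ℝ] E} (hP : ContinuousOn P Λ)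
    (hA : ContinuousOn A Λ) (hPinj : ∀ y ∈ Λ, ∀ v, P y v = 0 → v = 0)
    (hAinj : ∀ y ∈ Λ, ∀ v, A y v = 0 → v = 0) {m : ℝ} (hm : 0 < m) :
    ∃ N : E → E →L[ℝ] E, ContDiffOn ℝ ∞ N Λ ∧
      ∀ y ∈ Λ, ‖((P y).comp (N y)).comp (A y) - ContinuousLinearMap.id ℝ E‖ < m := by
  set N₀ : E → E →L[ℝ] E := fun y => (P y).inverse.comp (A y).inverse with hN₀
  have hN₀c : ContinuousOn N₀ Λ :=
    (continuousOn_inverse hP hPinj).clm_comp (continuousOn_inverse hA hAinj)
  set δ : E → ℝ := fun y => m / (‖P y‖ * ‖A y‖ + 1) with hδ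
  have hden : ∀ y, 0 < ‖P y‖ * ‖A y‖ + 1 := fun y => by (clear * -; positivity)
  have hδc : ContinuousOn δ Λ :=
    continuousOn_const.div ((hP.norm.mul hA.norm).add continuousOn_const) fun y _ => (hden y).ne'
  have hδpos : ∀ y ∈ Λ, 0 < δ y := fun y _ => div_pos hm (hden y)
  obtain ⟨N, hN1, hN2⟩ := fine_approx_continuous μ hΛ hN₀c hδc hδpos
  refine ⟨N, hN1, ?_⟩
  intro y hy
  have h1 : ((P y).comp (N₀ y)).comp (A y) = ContinuousLinearMap.id ℝ E := by
    ext v
    have h2 : (P y) ((P y).inverse ((A y).inverse (A y v))) = (A y).inverse (A y v) := by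
      have := congrArg (fun L : E →L[ℝ] E => L ((A y).inverse (A y v)))
        (comp_inverse_of_injective (hPinj y hy))
      simpa only [ContinuousLinearMap.comp_apply, ContinuousLinearMap.id_apply] using this
    have h3 : (A y).inverse (A y v) = v := by
      have := congrArg (fun L : E →L[ℝ] E => L v) (inverse_comp_of_injective (hAinj y hy))
      simpa only [ContinuousLinearMap.comp_apply, ContinuousLinearMap.id_apply] using this
    show (P y) ((P y).inverse ((A y).inverse (A y v))) = v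
    rw [h2, h3]
  have h4 : ((P y).comp (N y)).comp (A y) - ContinuousLinearMap.id ℝ E =
      ((P y).comp (N y - N₀ y)).comp (A y) := by
    rw [← h1]
    ext v
    simp
  rw [h4]
  calc ‖((P y).comp (N y - N₀ y)).comp (A y)‖ ≤ ‖P y‖ * ‖N y - N₀ y‖ * ‖A y‖ := by
        refine (ContinuousLinearMap.opNorm_comp_le _ _).trans ?_
        gcongr
        exact ContinuousLinearMap.opNorm_comp_le _ _
    _ = (‖P y‖ * ‖A y‖) * ‖N y - N₀ y‖ := by ring
    _ ≤ (‖P y‖ * ‖A y‖) * δ y := by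
        gcongr
        exact (hN2 y hy).le
    _ < (‖P y‖ * ‖A y‖ + 1) * δ y := by
        have := hδpos y hy
        gcongr
        linarith only []
    _ = m := by
        rw [hδ]
        (clear * - hm; field_simp)

end N

section Main

variable {E : Type*} [NormedAddCommGroup E] [InnerProductSpace ℝ E] [FiniteDimensional ℝ E]
  [MeasurableSpace E] [BorelSpace E] (μ : Measure E) [μ.IsAddHaarMeasure]

/-- The smooth approximation obtained by smoothing `x ↦ B (x, f x)`. -/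
theorem exists_ft {Ω Λ : Set E} (hΩ : IsOpen Ω) (hΛ : IsOpen Λ) (hΛne : Λᶜ.Nonempty)
    {f : E → E} (hf : ContinuousOn f Ω) (hmaps : MapsTo f Ω Λ) {p : ℝ} (hp : 1 ≤ p)
    {F : E → E →L[ℝ] E} (hF : HasWeakDerivOn μ Ω f F)
    (hFp : ∀ K, IsCompact K → K ⊆ Ω → MemLp F (ENNReal.ofReal p) (μ.restrict K))
    {A : E → E →L[ℝ] E} (hA : ContDiffOn ℝ ∞ A Ω)
    {B : E × E → E} (hB : ContDiffOn ℝ ∞ B (Ω ×ˢ Λ))
    (hBinj : ∀ x ∈ Ω, InjOn (fun y => B (x, y)) Λ)
    (hBder : ∀ q ∈ Ω ×ˢ Λ, ∀ w : E, fderiv ℝ B q (0, w) = 0 → w = 0)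
    {w : E × E → ℝ} (hw : ContinuousOn w (Ω ×ˢ Λ)) (hwpos : ∀ x ∈ Ω, 0 < w (x, f x))
    {δ₁ δ₂ : E → ℝ} (hδ₁c : ContinuousOn δ₁ Ω) (hδ₁pos : ∀ x ∈ Ω, 0 < δ₁ x)
    (hδ₂c : ContinuousOn δ₂ Ω) (hδ₂pos : ∀ x ∈ Ω, 0 < δ₂ x) :
    ∃ v ft : E → E, ContDiffOn ℝ ∞ ft Ω ∧ (∀ x ∈ Ω, ft x ∈ Λ) ∧
      (∀ x ∈ Ω, 0 < w (x, ft x)) ∧ (∀ x ∈ Ω, ‖ft x - f x‖ < δ₂ x) ∧
      (∀ x ∈ Ω, ∀ ξ, fderiv ℝ v x ξ = fderiv ℝ B (x, ft x) (ξ, fderiv ℝ ft x ξ)) ∧
      (∫⁻ x in Ω, ‖fderiv ℝ v x - (fderiv ℝ B (x, f x)).comp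
        ((ContinuousLinearMap.id ℝ E).prod (F x))‖ₑ ^ p / ENNReal.ofReal (δ₁ x) ∂μ ≤ 1) ∧
      ∀ (a : E) (ℓ : E →L[ℝ] ℝ), ‖a‖ ≤ 1 → ‖ℓ‖ ≤ 1 →
        (∀ᵐ x ∂μ.restrict Ω, 0 ≤ ℓ (fderiv ℝ B (x, f x) (0, F x (A x a)))) →
        ∀ x ∈ Ω, -δ₁ x ≤ ℓ ((fderiv ℝ v x -
          (fderiv ℝ B (x, f x)).comp (ContinuousLinearMap.inl ℝ E E)) (A x a)) := by
  classical
  have hO : IsOpen (Ω ×ˢ Λ) := hΩ.prod hΛ
  have hgraph : ∀ x ∈ Ω, (x, f x) ∈ Ω ×ˢ Λ := fun x hx => ⟨hx, hmaps hx⟩
  have hDB : ContinuousOn (fderiv ℝ B) (Ω ×ˢ Λ) := hB.continuousOn_fderiv_of_isOpen hO (by simp only [WithTop.one_le_coe, le_top])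
  have hgr : ContinuousOn (fun x => (x, f x)) Ω := continuousOn_id.prodMk hf
  have hgrm : MapsTo (fun x => (x, f x)) Ω (Ω ×ˢ Λ) := fun x hx => hgraph x hx
  obtain ⟨δf, hδfc, hδfpos, hδf⟩ := exists_delta_of_pos hΩ hΛ hΛne hf hmaps hw hwpos
  set δ₃ : E → ℝ := fun x => min (δf x) (δ₂ x) with hδ₃
  have hδ₃c : ContinuousOn δ₃ Ω := hδfc.inf hδ₂c
  have hδ₃pos : ∀ x ∈ Ω, 0 < δ₃ x := fun x hx => lt_min (hδfpos x hx) (hδ₂pos x hx)
  -- the implicit function
  obtain ⟨W, Y, hWo, hYs, hW1, hW2⟩ := exists_implicit hΩ hΛ hB hBinj hBder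
  have hWΩ : ∀ z ∈ W, z.1 ∈ Ω := fun z hz => (hW2 z hz).1.1
  set u : E → E := fun x => B (x, f x) with hu
  have huc : ContinuousOn u Ω := hB.continuousOn.comp hgr hgrm
  set O : Set (E × E) := {z | z ∈ W ∧ 0 < δ₃ z.1 - ‖Y z - f z.1‖} with hOdef
  have hOo : IsOpen O := by
    have h1 : ContinuousOn (fun z : E × E => δ₃ z.1 - ‖Y z - f z.1‖) W :=
      (hδ₃c.comp continuousOn_fst hWΩ).sub
        (hYs.continuousOn.sub (hf.comp continuousOn_fst hWΩ)).norm
    exact h1.isOpen_inter_preimage hWo isOpen_Ioi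
  have hmemO : ∀ x ∈ Ω, (x, u x) ∈ O := by
    intro x hx
    obtain ⟨h1, h2⟩ := hW1 (x, f x) (hgraph x hx)
    refine ⟨h1, ?_⟩
    have h3 : Y (x, u x) = f x := h2
    show 0 < δ₃ x - ‖Y (x, u x) - f x‖
    rw [h3, sub_self, norm_zero, sub_zero]
    exact hδ₃pos x hx
  obtain ⟨δu, hδuc, hδupos, hδu⟩ := exists_delta_of_isOpen hOo huc hmemO
  -- the weak derivative of u
  set U : E → E →L[ℝ] E := fun x =>
    (fderiv ℝ B (x, f x)).comp ((ContinuousLinearMap.id ℝ E).prod (F x)) with hUdef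
  have hUw : HasWeakDerivOn μ Ω u U := hF.comp_graph μ hΩ hf hΛ hΛne hmaps hB
  have hDBg : ContinuousOn (fun x => fderiv ℝ B (x, f x)) Ω := hDB.comp hgr hgrm
  have hUp : ∀ K, IsCompact K → K ⊆ Ω → MemLp U (ENNReal.ofReal p) (μ.restrict K) := by
    intro K₁ hK₁ hK₁Ω
    obtain ⟨M, hM⟩ := hK₁.exists_bound_of_continuousOn (hDBg.mono hK₁Ω)
    have hfin : IsFiniteMeasure (μ.restrict K₁) :=
      isFiniteMeasure_restrict.2 hK₁.measure_lt_top.ne
    have h1 : MemLp (fun x => M * (1 + ‖F x‖)) (ENNReal.ofReal p) (μ.restrict K₁) :=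
      ((memLp_const (1 : ℝ)).add (hFp K₁ hK₁ hK₁Ω).norm).const_mul M
    refine h1.mono' (hUw.integrableOn_right μ hK₁ hK₁Ω).aestronglyMeasurable ?_
    filter_upwards [ae_restrict_mem hK₁.measurableSet] with x hx
    have h2 := hM x hx
    calc ‖U x‖ ≤ ‖fderiv ℝ B (x, f x)‖ * ‖(ContinuousLinearMap.id ℝ E).prod (F x)‖ :=
          ContinuousLinearMap.opNorm_comp_le _ _
      _ ≤ M * (1 + ‖F x‖) := by
          gcongr
          · exact (norm_nonneg _).trans h2
          · exact norm_id_prod_le _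
  set c₀ : E → E →L[ℝ] E := fun x =>
    (fderiv ℝ B (x, f x)).comp (ContinuousLinearMap.inl ℝ E E) with hc₀
  have hc₀c : ContinuousOn c₀ Ω := hDBg.clm_comp continuousOn_const
  set δ : E → ℝ := fun x => min (δu x) (δ₁ x) with hδdef
  have hδc : ContinuousOn δ Ω := hδuc.inf hδ₁c
  have hδpos : ∀ x ∈ Ω, 0 < δ x := fun x hx => lt_min (hδupos x hx) (hδ₁pos x hx)
  obtain ⟨v, hvs, hv1, hv2, hv3⟩ := fine_smoothing μ hΩ hp huc hUw hUp hA hc₀c hδc hδpos
  -- the map f̃
  have hvO : ∀ x ∈ Ω, (x, v x) ∈ O := fun x hx =>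
    hδu x hx _ ((hv1 x hx).trans_le (min_le_left _ _))
  set ft : E → E := fun x => Y (x, v x) with hft
  have hfts : ContDiffOn ℝ ∞ ft Ω :=
    hYs.comp (contDiffOn_id.prodMk hvs) (fun x hx => (hvO x hx).1)
  have hftΛ : ∀ x ∈ Ω, ft x ∈ Λ := fun x hx => (hW2 _ (hvO x hx).1).1.2
  have hBft : ∀ x ∈ Ω, B (x, ft x) = v x := fun x hx => (hW2 _ (hvO x hx).1).2
  have hftδ : ∀ x ∈ Ω, ‖ft x - f x‖ < δ₃ x := fun x hx => by
    have := (hvO x hx).2
    simp only at this
    linarith only [this]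
  have hftd : ∀ x ∈ Ω, HasFDerivAt ft (fderiv ℝ ft x) x := fun x hx =>
    ((hfts.contDiffAt (hΩ.mem_nhds hx)).differentiableAt (by simp)).hasFDerivAt
  refine ⟨v, ft, hfts, hftΛ, ?_, ?_, ?_, ?_, ?_⟩
  · intro x hx
    exact (hδf x hx _ ((hftδ x hx).trans_le (min_le_left _ _))).2
  · intro x hx
    exact (hftδ x hx).trans_le (min_le_right _ _)
  · intro x hx ξ
    have h1 := hasFDerivAt_graph hΩ hΛ hB hx (hftΛ x hx) (hftd x hx).differentiableAt
    have h2 : (fun x => B (x, ft x)) =ᶠ[𝓝 x] v := by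
      filter_upwards [hΩ.mem_nhds hx] with z hz
      exact hBft z hz
    have h3 := (h1.congr_of_eventuallyEq h2.symm).fderiv
    rw [h3]
    rfl
  · refine le_trans (setLIntegral_mono' hΩ.measurableSet ?_) hv2
    intro x hx
    gcongr
    exact min_le_right _ _
  · intro a ℓ ha hℓ hae x hx
    have h1 := hv3 a ℓ ha hℓ ?_ x hx
    · have h2 : δ x ≤ δ₁ x := min_le_right _ _
      linarith only [h1, h2]
    · filter_upwards [hae] with x hx'
      have h3 : (U x - c₀ x) ((A x) a) = fderiv ℝ B (x, f x) (0, F x (A x a)) := by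
        show fderiv ℝ B (x, f x) (A x a, F x (A x a)) - fderiv ℝ B (x, f x) (A x a, 0) = _
        rw [← map_sub]
        simp
      rw [h3]
      exact hx'

end Main

end Vale.Agent.P073
end
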