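import Vale.Agent.P073.Bdl.B4
import Vale.Agent.P073.Bdl.B3

set_option linter.all false

section

/-!
# P073: the main construction, second part
-/

set_option linter.unusedSectionVars false
set_option maxSynthPendingDepth 3

namespace Vale.Agent.P073

open MeasureTheory Set Filter Topology Metric Module
open scoped ENNReal ContDiff RealInnerProductSpace

section Main

variable {E : Type*} [NormedAddCommGroup E] [InnerProductSpace ℝ E] [FiniteDimensional ℝ E]
  [MeasurableSpace E] [BorelSpace E] (μ : Measure E) [μ.IsAddHaarMeasure]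

/-- The main construction: a smooth diffeomorphism close to `f`, with a continuous gauge. -/
theorem exists_fine_diffeo {Ω Λ : Set E} (hΩ : IsOpen Ω) (hΛ : IsOpen Λ)
    (hΛc : IsPreconnected Λ) (hΛne : Λᶜ.Nonempty) {R : ℝ} (hR0 : 0 ≤ R) (hR : ∀ x ∈ Ω, ‖x‖ ≤ R)
    {f h : E → E} (hf : ContinuousOn f Ω) (hh : ContinuousOn h Λ) (hbij : BijOn f Ω Λ)
    (hinv : InvOn h f Ω Λ) {p : ℝ} (hp : 1 ≤ p) {F : E → E →L[ℝ] E}
    (hF : HasWeakDerivOn μ Ω f F)
    (hFp : ∀ K, IsCompact K → K ⊆ Ω → MemLp F (ENNReal.ofReal p) (μ.restrict K))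
    (C : ConvexCone ℝ (E →L[ℝ] E)) {K : ℝ} (hC : ∀ M ∈ C, ∀ v, ‖v‖ ≤ K * ‖v + M v‖)
    {A : E → E →L[ℝ] E} (hA : ContDiffOn ℝ ∞ A Ω) (hAinj : ∀ x ∈ Ω, ∀ v, A x v = 0 → v = 0)
    {B : E × E → E} (hB : ContDiffOn ℝ ∞ B (Ω ×ˢ Λ))
    (hBinj : ∀ x ∈ Ω, InjOn (fun y => B (x, y)) Λ)
    (hBder : ∀ q ∈ Ω ×ˢ Λ, ∀ w : E, fderiv ℝ B q (0, w) = 0 → w = 0)
    (hcone : ∀ᵐ x ∂μ.restrict Ω,
      (((fderiv ℝ B (x, f x)).comp (ContinuousLinearMap.inr ℝ E E)).comp (F x)).comp (A x) ∈ C)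
    {ε : E → ℝ} (hεc : ContinuousOn ε Ω) (hε : ∀ x ∈ Ω, 0 < ε x) (hε1 : ∀ x ∈ Ω, ε x ≤ 1) :
    ∃ g : E → E, ContDiffOn ℝ ∞ g Ω ∧ BijOn g Ω Λ ∧
      (∃ k, ContDiffOn ℝ ∞ k Λ ∧ InvOn k g Ω Λ) ∧ (∀ x ∈ Ω, ‖g x - f x‖ ≤ 2 * ε x) ∧
      ∃ e : E → ℝ, (∀ x ∈ Ω, 0 ≤ e x) ∧
        (∀ x ∈ Ω, ‖fderiv ℝ g x - F x‖ ≤ 2 * e x + 3 * ε x * (1 + ‖F x‖)) ∧
        ∫⁻ x in Ω, ENNReal.ofReal (e x) ^ p / ENNReal.ofReal (ε x) ∂μ ≤ 1 := by
  classical
  have hO : IsOpen (Ω ×ˢ Λ) := hΩ.prod hΛ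
  have hmaps : MapsTo f Ω Λ := hbij.mapsTo
  have hmaps' : MapsTo h Λ Ω := hinv.1.mapsTo hbij.surjOn
  have hfh : ∀ y ∈ Λ, f (h y) = y := fun y hy => hinv.2 hy
  have hhf : ∀ x ∈ Ω, h (f x) = x := fun x hx => hinv.1 hx
  have hgraph : ∀ x ∈ Ω, (x, f x) ∈ Ω ×ˢ Λ := fun x hx => ⟨hx, hmaps hx⟩
  -- the partial derivatives
  set P : E × E → E →L[ℝ] E := fun q => (fderiv ℝ B q).comp (ContinuousLinearMap.inr ℝ E E)
    with hPdef
  set c : E × E → E →L[ℝ] E := fun q => (fderiv ℝ B q).comp (ContinuousLinearMap.inl ℝ E E)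
    with hcdef
  have hDB : ContinuousOn (fderiv ℝ B) (Ω ×ˢ Λ) := hB.continuousOn_fderiv_of_isOpen hO (by simp only [WithTop.one_le_coe, le_top])
  have hPc : ContinuousOn P (Ω ×ˢ Λ) := hDB.clm_comp continuousOn_const
  have hcc : ContinuousOn c (Ω ×ˢ Λ) := hDB.clm_comp continuousOn_const
  have hsplit : ∀ q v w, fderiv ℝ B q (v, w) = c q v + P q w := by
    intro q v w
    show fderiv ℝ B q (v, w) = fderiv ℝ B q (v, 0) + fderiv ℝ B q (0, w)
    rw [← map_add]
    simp only [Prod.mk_add_mk, add_zero, zero_add]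
  have hPinj : ∀ q ∈ Ω ×ˢ Λ, ∀ v, P q v = 0 → v = 0 := fun q hq v hv => hBder q hq v hv
  -- the constant
  set K' : ℝ := max K 1 with hK'
  have hK'1 : 1 ≤ K' := le_max_right _ _
  have hC' : ∀ M ∈ C, ∀ v, ‖v‖ ≤ K' * ‖v + M v‖ := fun M hM v =>
    (hC M hM v).trans (by gcongr; exact le_max_left _ _)
  set m : ℝ := 1 / K' ^ 2 with hm
  have hm0 : 0 < m := by (clear * -; positivity)
  -- the field N
  have hgr' : ContinuousOn (fun y => (h y, y)) Λ := hh.prodMk continuousOn_id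
  have hgr'm : MapsTo (fun y => (h y, y)) Λ (Ω ×ˢ Λ) := fun y hy => ⟨hmaps' hy, hy⟩
  have hP₁ : ContinuousOn (fun y => P (h y, y)) Λ := hPc.comp hgr' hgr'm
  have hA₁ : ContinuousOn (fun y => A (h y)) Λ := hA.continuousOn.comp hh hmaps'
  obtain ⟨N, hNs, hN⟩ := exists_N μ hΛ hP₁ hA₁ (fun y hy => hPinj _ (hgr'm hy))
    (fun y hy => hAinj _ (hmaps' hy)) (m := m / 4) (by positivity)
  have hNc : ContinuousOn N Λ := hNs.continuousOn
  -- the diffeomorphism gauge
  obtain ⟨δd, hδdc, hδdpos, hδd⟩ := exists_delta_diffeo hΩ hΛ hΛc hΛne hf hh hbij hinv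
  -- the field κ
  set θ : E → ℝ := fun y => min (min (ε (h y)) (δd (h y) / 2))
    (min (1 / 2) (m / (8 * (‖P (h y, y)‖ * ‖N y‖ * ‖A (h y)‖ + 1)))) with hθ
  have hθc : ContinuousOn θ Λ := by
    refine ((hεc.comp hh hmaps').inf ((hδdc.comp hh hmaps').div_const 2)).inf
      (continuousOn_const.inf (continuousOn_const.div (continuousOn_const.mul
        (((hP₁.norm.mul hNc.norm).mul hA₁.norm).add continuousOn_const)) ?_))
    intro y _
    (clear * -; positivity)
  have hθpos : ∀ y ∈ Λ, 0 < θ y := by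
    intro y hy
    have := hδdpos _ (hmaps' hy)
    refine lt_min (lt_min (hε _ (hmaps' hy)) (half_pos this)) (lt_min (by norm_num) (by (clear * -; (clear * -; positivity))))
  obtain ⟨κ, hκs, hκ⟩ := exists_small_multiple hΛ hNs hθc hθpos hR0
  set T : E → E →L[ℝ] E := fun y => κ y • N y with hT
  have hTs : ContDiffOn ℝ ∞ T Λ := hκs.contDiffOn.smul hNs
  have hTc : ContinuousOn T Λ := hTs.continuousOn
  have hDTc : ContinuousOn (fderiv ℝ T) Λ := hTs.continuousOn_fderiv_of_isOpen hΛ (by simp only [WithTop.one_le_coe, le_top])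
  -- the open conditions
  set β : E → ℝ := fun x => ‖(P (x, f x)).inverse‖ + 1 with hβ
  have hβ1 : ∀ x, 1 ≤ β x := fun x => by
    have := norm_nonneg (P (x, f x)).inverse
    simp only [hβ]; linarith only [this]
  have hgr : ContinuousOn (fun x => (x, f x)) Ω := continuousOn_id.prodMk hf
  have hgrm : MapsTo (fun x => (x, f x)) Ω (Ω ×ˢ Λ) := fun x hx => hgraph x hx
  have hβc : ContinuousOn β Ω := by
    refine ContinuousOn.add ?_ continuousOn_const
    exact (continuousOn_inverse (hPc.comp hgr hgrm) (fun x hx => hPinj _ (hgrm hx))).norm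
  have hfst : MapsTo (Prod.fst : E × E → E) (Ω ×ˢ Λ) Ω := fun q hq => hq.1
  have hsnd : MapsTo (Prod.snd : E × E → E) (Ω ×ˢ Λ) Λ := fun q hq => hq.2
  have c1 : ContinuousOn (fun q : E × E => A q.1) (Ω ×ˢ Λ) :=
    hA.continuousOn.comp continuousOn_fst hfst
  have c2 : ContinuousOn (fun q : E × E => N q.2) (Ω ×ˢ Λ) := hNc.comp continuousOn_snd hsnd
  have c3 : ContinuousOn (fun q : E × E => T q.2) (Ω ×ˢ Λ) := hTc.comp continuousOn_snd hsnd
  have c4 : ContinuousOn (fun q : E × E => fderiv ℝ T q.2) (Ω ×ˢ Λ) :=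
    hDTc.comp continuousOn_snd hsnd
  have c5 : ContinuousOn (fun q : E × E => c (q.1, f q.1)) (Ω ×ˢ Λ) :=
    (hcc.comp hgr hgrm).comp continuousOn_fst hfst
  have c6 : ContinuousOn (fun q : E × E => P (q.1, f q.1)) (Ω ×ˢ Λ) :=
    (hPc.comp hgr hgrm).comp continuousOn_fst hfst
  have c7 : ContinuousOn (fun q : E × E => β q.1) (Ω ×ˢ Λ) := hβc.comp continuousOn_fst hfst
  have c8 : ContinuousOn (fun q : E × E => δd q.1) (Ω ×ˢ Λ) := hδdc.comp continuousOn_fst hfst
  have cε : ContinuousOn (fun q : E × E => ε q.1) (Ω ×ˢ Λ) := hεc.comp continuousOn_fst hfst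
  have c9 : ContinuousOn (fun q : E × E => κ q.2) (Ω ×ˢ Λ) :=
    (hκs.continuous.comp continuous_snd).continuousOn
  have c10 : ContinuousOn (fun q : E × E => κ (f q.1)) (Ω ×ˢ Λ) :=
    hκs.continuous.comp_continuousOn (hf.comp continuousOn_fst hfst)
  have c11 : ContinuousOn (fun q : E × E => (P q).inverse) (Ω ×ˢ Λ) :=
    continuousOn_inverse hPc hPinj
  set wa : E × E → ℝ := fun q =>
    m / 4 - ‖((P q).comp (N q.2)).comp (A q.1) - ContinuousLinearMap.id ℝ E‖ with hwa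
  set wb : E × E → ℝ := fun q =>
    min (min (1 / 2) (ε q.1)) (m / (8 * (‖P q‖ * ‖N q.2‖ * ‖A q.1‖ + 1)))
      - ‖fderiv ℝ T q.2‖ * (R + 1) with hwb
  set wc : E × E → ℝ := fun q => min (ε q.1) (δd q.1 / 2) - ‖T q.2‖ * (R + 1) with hwc
  set wd : E × E → ℝ := fun q => κ q.2 * m / 4 - ‖c (q.1, f q.1) - c q‖ * ‖A q.1‖ with hwd
  set we : E × E → ℝ := fun q => κ q.2 - κ (f q.1) / 2 with hwe
  set wf : E × E → ℝ := fun q => β q.1 - ‖(P q).inverse‖ with hwf
  set wg : E × E → ℝ := fun q => ε q.1 - β q.1 * ‖c (q.1, f q.1) - c q‖ with hwg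
  set wh : E × E → ℝ := fun q => ε q.1 - β q.1 * ‖P (q.1, f q.1) - P q‖ with hwh
  have hwac : ContinuousOn wa (Ω ×ˢ Λ) :=
    continuousOn_const.sub (((hPc.clm_comp c2).clm_comp c1).sub continuousOn_const).norm
  have hwbc : ContinuousOn wb (Ω ×ˢ Λ) := by
    refine ((continuousOn_const.inf cε).inf (continuousOn_const.div (continuousOn_const.mul
        (((hPc.norm.mul c2.norm).mul c1.norm).add continuousOn_const)) ?_)).sub
        (c4.norm.mul continuousOn_const)
    intro q _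
    have : 0 < 8 * (‖P q‖ * ‖N q.2‖ * ‖A q.1‖ + 1) := by (clear * -; positivity)
    exact this.ne'
  have hwcc : ContinuousOn wc (Ω ×ˢ Λ) :=
    (cε.inf (c8.div_const 2)).sub (c3.norm.mul continuousOn_const)
  have hwdc : ContinuousOn wd (Ω ×ˢ Λ) :=
    ((c9.mul continuousOn_const).div_const 4).sub ((c5.sub hcc).norm.mul c1.norm)
  have hwec : ContinuousOn we (Ω ×ˢ Λ) := c9.sub (c10.div_const 2)
  have hwfc : ContinuousOn wf (Ω ×ˢ Λ) := c7.sub c11.norm
  have hwgc : ContinuousOn wg (Ω ×ˢ Λ) := cε.sub (c7.mul (c5.sub hcc).norm)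
  have hwhc : ContinuousOn wh (Ω ×ˢ Λ) := cε.sub (c7.mul (c6.sub hPc).norm)
  -- positivity on the graph
  have hNf : ∀ x ∈ Ω, ‖((P (x, f x)).comp (N (f x))).comp (A x) -
      ContinuousLinearMap.id ℝ E‖ < m / 4 := by
    intro x hx
    have := hN (f x) (hmaps hx)
    rwa [hhf x hx] at this
  have hθf : ∀ x ∈ Ω, θ (f x) = min (min (ε x) (δd x / 2))
      (min (1 / 2) (m / (8 * (‖P (x, f x)‖ * ‖N (f x)‖ * ‖A x‖ + 1)))) := by
    intro x hx
    simp only [hθ]
    rw [hhf x hx]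
  have hpos : ∀ x ∈ Ω, 0 < min (min (min (wa (x, f x)) (wb (x, f x)))
      (min (wc (x, f x)) (wd (x, f x)))) (min (min (we (x, f x)) (wf (x, f x)))
      (min (wg (x, f x)) (wh (x, f x)))) := by
    intro x hx
    obtain ⟨hκ1, hκ2, hκ3⟩ := hκ (f x) (hmaps hx)
    rw [hθf x hx] at hκ2 hκ3
    obtain ⟨h21, h22⟩ := lt_min_iff.1 hκ2
    obtain ⟨h31, h32⟩ := lt_min_iff.1 hκ3
    obtain ⟨h33, h34⟩ := lt_min_iff.1 h31
    obtain ⟨h35, h36⟩ := lt_min_iff.1 h32
    refine lt_min (lt_min (lt_min ?_ ?_) (lt_min ?_ ?_)) (lt_min (lt_min ?_ ?_) (lt_min ?_ ?_))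
    · simp only [hwa]
      linarith only [hNf x hx]
    · simp only [hwb]
      rw [sub_pos]
      exact lt_min (lt_min h35 h33) h36
    · simp only [hwc]
      rw [sub_pos]
      exact h21
    · simp only [hwd, sub_self, norm_zero, zero_mul, sub_zero]
      (clear * - hκ1; positivity)
    · simp only [hwe]
      linarith only [hκ1]
    · simp only [hwf, hβ]
      linarith only []
    · simp only [hwg, sub_self, norm_zero, mul_zero, sub_zero]
      exact hε x hx
    · simp only [hwh, sub_self, norm_zero, mul_zero, sub_zero]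
      exact hε x hx
  have hwall : ContinuousOn (fun q : E × E => min (min (min (wa q) (wb q)) (min (wc q) (wd q)))
      (min (min (we q) (wf q)) (min (wg q) (wh q)))) (Ω ×ˢ Λ) :=
    ((hwac.inf hwbc).inf (hwcc.inf hwdc)).inf ((hwec.inf hwfc).inf (hwgc.inf hwhc))
  set δ₂ : E → ℝ := fun x => min (δd x / 2) (ε x) with hδ₂
  have hδ₂c : ContinuousOn δ₂ Ω := (hδdc.div_const 2).inf hεc
  have hδ₂pos : ∀ x ∈ Ω, 0 < δ₂ x := fun x hx => lt_min (half_pos (hδdpos x hx)) (hε x hx)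
  set δ : E → ℝ := fun x => min (κ (f x) * m / 8) (ε x / (β x) ^ p) with hδdef
  have hδc : ContinuousOn δ Ω := by
    refine (((hκs.continuous.comp_continuousOn hf).mul continuousOn_const).div_const
      8).inf (hεc.div (hβc.rpow_const ?_) ?_)
    · intro x _
      left
      have := hβ1 x
      (clear * -; positivity)
    · intro x _
      have : 0 < β x := by linarith only [hβ1 x]
      (clear * -; positivity)
  have hδpos : ∀ x ∈ Ω, 0 < δ x := by
    intro x hx
    have h1 := (hκ (f x) (hmaps hx)).1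
    have h2 : 0 < β x := by linarith only [hβ1 x]
    have h3 := hε x hx
    exact lt_min (by (clear * - h1; positivity)) (by (clear * - h3; positivity))
  obtain ⟨v, ft, hfts, hftΛ, hconds, hftδ, hDv', hv2, hv3⟩ := exists_ft μ hΩ hΛ hΛne hf hmaps hp
    hF hFp hA hB hBinj hBder hwall hpos hδc hδpos hδ₂c hδ₂pos
  have hftmem : ∀ x ∈ Ω, (x, ft x) ∈ Ω ×ˢ Λ := fun x hx => ⟨hx, hftΛ x hx⟩
  have hftd : ∀ x ∈ Ω, HasFDerivAt ft (fderiv ℝ ft x) x := fun x hx =>
    ((hfts.contDiffAt (hΩ.mem_nhds hx)).differentiableAt (by simp)).hasFDerivAt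
  have hDv : ∀ x ∈ Ω, ∀ ξ, fderiv ℝ v x ξ = c (x, ft x) ξ + P (x, ft x) (fderiv ℝ ft x ξ) := by
    intro x hx ξ
    rw [hDv' x hx]
    exact hsplit (x, ft x) ξ (fderiv ℝ ft x ξ)
  set U : E → E →L[ℝ] E := fun x =>
    (fderiv ℝ B (x, f x)).comp ((ContinuousLinearMap.id ℝ E).prod (F x)) with hUdef
  have hUsplit : ∀ x v, U x v = c (x, f x) v + P (x, f x) (F x v) := fun x v =>
    hsplit (x, f x) v (F x v)
  set c₀ : E → E →L[ℝ] E := fun x => c (x, f x) with hc₀
  -- the final map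
  set g : E → E := fun x => ft x + T (ft x) x with hg
  have hgs : ContDiffOn ℝ ∞ g Ω :=
    hfts.add ((hTs.comp hfts hftΛ).clm_apply contDiffOn_id)
  set S : E → E →L[ℝ] E := fun x => (fderiv ℝ T (ft x)).flip x with hS
  have hSn : ∀ x ∈ Ω, ‖S x‖ ≤ ‖fderiv ℝ T (ft x)‖ * (R + 1) := by
    intro x hx
    calc ‖S x‖ ≤ ‖(fderiv ℝ T (ft x)).flip‖ * ‖x‖ := ContinuousLinearMap.le_opNorm _ _
      _ ≤ ‖fderiv ℝ T (ft x)‖ * (R + 1) := by
          rw [ContinuousLinearMap.opNorm_flip]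
          gcongr
          linarith only [hR x hx]
  have hgd : ∀ x ∈ Ω, fderiv ℝ g x = fderiv ℝ ft x + T (ft x) + (S x).comp (fderiv ℝ ft x) := by
    intro x hx
    have h1 : HasFDerivAt T (fderiv ℝ T (ft x)) (ft x) :=
      ((hTs.contDiffAt (hΛ.mem_nhds (hftΛ x hx))).differentiableAt (by simp)).hasFDerivAt
    have h2 := (h1.comp x (hftd x hx)).clm_apply (hasFDerivAt_id x)
    have h3 := ((hftd x hx).add h2).fderiv
    have h4 : fderiv ℝ g x = _ := h3
    rw [h4]
    ext1 ξ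
    simp only [hS, _root_.add_apply, ContinuousLinearMap.comp_apply,
      ContinuousLinearMap.flip_apply, ContinuousLinearMap.id_apply, id_eq, Function.comp_apply]
    abel
  have hker : ∀ x ∈ Ω, ∀ ξ, fderiv ℝ g x ξ = 0 → ξ = 0 := by
    intro x hx ξ hξ
    have hy := hftΛ x hx
    obtain ⟨hκ1, -, -⟩ := hκ (ft x) hy
    have hcond := hconds x hx
    rw [lt_min_iff, lt_min_iff, lt_min_iff, lt_min_iff, lt_min_iff, lt_min_iff, lt_min_iff]
      at hcond
    obtain ⟨⟨⟨ha, hb⟩, ⟨-, hd⟩⟩, ⟨he, -⟩, -⟩ := hcond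
    simp only [hwa] at ha
    simp only [hwb, sub_pos, lt_min_iff] at hb
    simp only [hwd] at hd
    simp only [hwe] at he
    obtain ⟨⟨hb1, hb2⟩, hb3⟩ := hb
    have hδx : δ x ≤ κ (f x) * m / 8 := min_le_left _ _
    rw [hgd x hx] at hξ
    refine kernel_trivial (Dt := fderiv ℝ ft x) (N := N (ft x)) (S := S x) (P := P (x, ft x))
      (c := c₀ x) (c' := c (x, ft x)) (Du := fderiv ℝ v x) (A := A x) (Ai := (A x).inverse)
      (κ := κ (ft x)) (m := m) (δ := δ x) hκ1 hm0 (comp_inverse_of_injective (hAinj x hx))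
      (hDv x hx) ?_ (by linarith only [ha]) ((hSn x hx).trans hb1.le) ?_ ?_ hξ
    · intro a ha1
      obtain ⟨w, hw1, hw2, hw3⟩ := exists_separating C hK'1 hC' ha1
      refine ⟨w, hw1, hw3, ?_⟩
      have h1 := hv3 a (innerSL ℝ w) ha1.le (by rw [innerSL_apply_norm]; exact hw1) ?_ x hx
      · rw [innerSL_apply_apply, real_inner_comm] at h1
        exact h1
      · filter_upwards [hcone] with x hxC
        rw [innerSL_apply_apply, real_inner_comm]
        have h2 := hw2 _ hxC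
        exact h2
    · have h1 : 0 < 8 * (‖P (x, ft x)‖ * ‖N (ft x)‖ * ‖A x‖ + 1) := by (clear * -; positivity)
      rw [lt_div_iff₀ h1] at hb3
      have h2 := hSn x hx
      have h3 : 0 ≤ ‖P (x, ft x)‖ * ‖N (ft x)‖ * ‖A x‖ := by (clear * -; positivity)
      have h4 : ‖S x‖ * (8 * (‖P (x, ft x)‖ * ‖N (ft x)‖ * ‖A x‖ + 1)) ≤ m :=
        (mul_le_mul_of_nonneg_right h2 h1.le).trans hb3.le
      have h5 := norm_nonneg (S x)
      linarith only [h5, h4]
    · have h1 : δ x < κ (ft x) * m / 4 := by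
        have : κ (f x) * m / 8 < κ (ft x) * m / 4 := by nlinarith only [hm0, he]
        linarith only [hδx, this]
      linarith only [h1, hd]
  have hgf : ∀ x ∈ Ω, ‖g x - ft x‖ ≤ ‖T (ft x)‖ * (R + 1) := by
    intro x hx
    have h1 : g x - ft x = T (ft x) x := add_sub_cancel_left _ _
    rw [h1]
    calc ‖T (ft x) x‖ ≤ ‖T (ft x)‖ * ‖x‖ := ContinuousLinearMap.le_opNorm _ _
      _ ≤ ‖T (ft x)‖ * (R + 1) := by
          gcongr
          linarith only [hR x hx]
  have hwc' : ∀ x ∈ Ω, ‖T (ft x)‖ * (R + 1) < min (ε x) (δd x / 2) := by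
    intro x hx
    have hcond := hconds x hx
    rw [lt_min_iff, lt_min_iff, lt_min_iff, lt_min_iff, lt_min_iff, lt_min_iff, lt_min_iff]
      at hcond
    obtain ⟨⟨-, ⟨hc, -⟩⟩, -⟩ := hcond
    simp only [hwc, sub_pos] at hc
    exact hc
  have hclose : ∀ x ∈ Ω, ‖g x - f x‖ ≤ δd x ∧ ‖g x - f x‖ ≤ 2 * ε x := by
    intro x hx
    have h1 : ‖g x - f x‖ ≤ ‖g x - ft x‖ + ‖ft x - f x‖ := norm_sub_le_norm_sub_add_norm_sub _ _ _
    have h2 := hgf x hx
    obtain ⟨h3, h4⟩ := lt_min_iff.1 (hwc' x hx)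
    have h5 := hftδ x hx
    simp only [hδ₂, lt_min_iff] at h5
    obtain ⟨h6, h7⟩ := h5
    constructor <;> linarith only [h1, h2, h3, h7, h4, h6]
  obtain ⟨hbij', k, hks, hkinv⟩ := hδd g hgs hker (fun x hx => (hclose x hx).1)
  refine ⟨g, hgs, hbij', ⟨k, hks, hkinv⟩, fun x hx => (hclose x hx).2,
    fun x => β x * ‖fderiv ℝ v x - U x‖, ?_, ?_, ?_⟩
  · intro x _
    have := hβ1 x
    (clear * -; positivity)
  · intro x hx
    have hcond := hconds x hx
    rw [lt_min_iff, lt_min_iff, lt_min_iff, lt_min_iff, lt_min_iff, lt_min_iff, lt_min_iff]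
      at hcond
    obtain ⟨⟨⟨-, hb⟩, ⟨hc, -⟩⟩, ⟨-, hf'⟩, hg', hh'⟩ := hcond
    simp only [hwb, sub_pos, lt_min_iff] at hb
    simp only [hwf, sub_pos] at hf'
    simp only [hwg, sub_pos] at hg'
    simp only [hwh, sub_pos] at hh'
    obtain ⟨⟨hb1, hb2⟩, hb3⟩ := hb
    rw [hgd x hx]
    refine norm_deriv_sub_le (P := P (x, f x)) (P' := P (x, ft x)) (c := c₀ x)
      (c' := c (x, ft x)) (hε1 x hx) (hDv x hx) (hUsplit x)
      (inverse_comp_of_injective (hPinj _ (hftmem x hx))) hf'.le hg'.le hh'.le ?_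
      ((hSn x hx).trans hb2.le)
    have h1 := hwc' x hx
    rw [lt_min_iff] at h1
    have h2 : ‖T (ft x)‖ * 1 ≤ ‖T (ft x)‖ * (R + 1) := by
      gcongr
      linarith only [hR0]
    linarith only [h1, h2]
  · refine le_trans (setLIntegral_mono' hΩ.measurableSet fun x hx => ?_) hv2
    have hβ0 : 0 < β x := by linarith only [hβ1 x]
    have h2 : δ x ≤ ε x / (β x) ^ p := min_le_right _ _
    have h3 : 0 < (β x) ^ p := by (clear * -; positivity)
    have h5 := hε x hx
    have h4 : (β x) ^ p / ε x ≤ 1 / δ x := by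
      rw [div_le_div_iff₀ h5 (hδpos x hx)]
      rw [le_div_iff₀ h3] at h2
      linarith only [h2]
    rw [ENNReal.ofReal_mul hβ0.le, ENNReal.mul_rpow_of_nonneg _ _ (by linarith only [hp]),
      ofReal_norm, ENNReal.ofReal_rpow_of_pos hβ0]
    calc ENNReal.ofReal (β x ^ p) * ‖fderiv ℝ v x - U x‖ₑ ^ p / ENNReal.ofReal (ε x)
        = ENNReal.ofReal (β x ^ p / ε x) * ‖fderiv ℝ v x - U x‖ₑ ^ p := by
          rw [ENNReal.ofReal_div_of_pos h5, div_eq_mul_inv, div_eq_mul_inv]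
          ring
      _ ≤ ENNReal.ofReal (1 / δ x) * ‖fderiv ℝ v x - U x‖ₑ ^ p := by (clear * - h4; gcongr)
      _ = ‖fderiv ℝ v x - U x‖ₑ ^ p / ENNReal.ofReal (δ x) := by
          rw [ENNReal.ofReal_div_of_pos (hδpos x hx), ENNReal.ofReal_one, one_div, div_eq_mul_inv,
            mul_comm]

end Main

end Vale.Agent.P073
end

section

/-!
# P073: homeomorphisms satisfying the cone condition are finely approximable
-/

set_option linter.unusedSectionVars false
set_option maxSynthPendingDepth 3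

namespace Vale.Agent.P073

open MeasureTheory Set Filter Topology Metric Module
open scoped ENNReal ContDiff RealInnerProductSpace

/-- A continuous weight making the integral of a locally integrable function finite. -/
theorem exists_int_weight {Ω : Set E3} (hΩ : IsOpen Ω) {G : E3 → ℝ≥0∞}
    (hGm : AEMeasurable G (volume.restrict Ω))
    (hG : ∀ K : Set E3, IsCompact K → K ⊆ Ω → ∫⁻ x in K, G x < ⊤) :
    ∃ ε : E3 → ℝ, ContinuousOn ε Ω ∧ (∀ x ∈ Ω, 0 < ε x) ∧ (∀ x ∈ Ω, ε x ≤ 1) ∧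
      ∫⁻ x in Ω, ENNReal.ofReal (ε x) * G x ≤ 1 := by
  classical
  obtain ⟨X⟩ := exists_exh hΩ
  have hKΩ : ∀ j, X.K j ⊆ Ω := X.K_subset
  set I : ℕ → ℝ := fun n => (∫⁻ x in X.K n, G x).toReal with hI
  have hI0 : ∀ n, 0 ≤ I n := fun n => ENNReal.toReal_nonneg
  have hIr : ∀ n, ∫⁻ x in X.K n, G x = ENNReal.ofReal (I n) := fun n =>
    (ENNReal.ofReal_toReal (hG _ (X.isCompact_K n) (hKΩ n)).ne).symm
  set c : ℕ → ℝ := fun n => (1 / 2) ^ (n + 1) / (1 + I n) with hc
  have hc0 : ∀ n, 0 < c n := fun n => by have := hI0 n; (clear * -; positivity)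
  have hc1 : ∀ n, c n ≤ 1 := by
    intro n
    simp only [hc]
    rw [div_le_one₀ (by have := hI0 n; positivity)]
    have : ((1 : ℝ) / 2) ^ (n + 1) ≤ 1 := pow_le_one₀ (by norm_num) (by (clear * -; norm_num))
    have := hI0 n
    linarith
  have hcI : ∀ n, c n * I n ≤ (1 / 2) ^ (n + 1) := by
    intro n
    have := hI0 n
    simp only [hc]
    rw [div_mul_eq_mul_div, div_le_iff₀ (by (clear * -; positivity))]
    gcongr
    linarith only []
  have hex : ∀ x ∈ Ω, ∃ n, x ∈ X.K n := fun x hx => by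
    rw [← X.iUnion_K] at hx; exact mem_iUnion.1 hx
  obtain ⟨ε, hεs, hε⟩ := exists_smooth_selection hΩ
    (t := fun x => {s : ℝ | 0 < s ∧ ∃ n, x ∈ X.K n ∧ s ≤ c n}) (by
      intro x hx
      refine convex_of_down (fun s hs => hs.1) fun s hs s' hs' hss => ⟨hs', ?_⟩
      obtain ⟨-, n, h1, h2⟩ := hs
      exact ⟨n, h1, hss.trans h2⟩) (by
      intro x hx
      obtain ⟨n, hn⟩ := hex x hx
      refine ⟨c (n + 1), ?_⟩
      filter_upwards [isOpen_interior.mem_nhds (X.subset_interior n hn)] with y hy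
      exact ⟨hc0 _, n + 1, interior_subset hy, le_rfl⟩)
  refine ⟨ε, hεs.continuousOn, fun x hx => (hε x hx).1, fun x hx => ?_, ?_⟩
  · obtain ⟨-, n, -, h2⟩ := hε x hx
    exact h2.trans (hc1 n)
  · have hKm : ∀ n, MeasurableSet (X.K n) := fun n => (X.isCompact_K n).measurableSet
    calc ∫⁻ x in Ω, ENNReal.ofReal (ε x) * G x
        ≤ ∫⁻ x in Ω, ∑' n, (X.K n).indicator (fun x => ENNReal.ofReal (c n) * G x) x := by
          refine setLIntegral_mono' hΩ.measurableSet fun x hx => ?_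
          obtain ⟨-, n, h1, h2⟩ := hε x hx
          refine le_trans ?_ (ENNReal.le_tsum n)
          rw [indicator_of_mem h1]
          (clear * - h2; gcongr)
      _ = ∑' n, ∫⁻ x in Ω, (X.K n).indicator (fun x => ENNReal.ofReal (c n) * G x) x :=
          lintegral_tsum fun n => (hGm.const_mul _).indicator (hKm n)
      _ ≤ ∑' n : ℕ, (2⁻¹ : ℝ≥0∞) ^ (n + 1) := by
          refine ENNReal.tsum_le_tsum fun n => ?_
          rw [lintegral_indicator (hKm n), Measure.restrict_restrict (hKm n),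
            inter_eq_self_of_subset_left (hKΩ n), lintegral_const_mul' _ _ ENNReal.ofReal_ne_top,
            hIr, ← ENNReal.ofReal_mul (hc0 n).le]
          refine (ENNReal.ofReal_le_ofReal (hcI n)).trans (le_of_eq ?_)
          rw [ENNReal.ofReal_pow (by norm_num), one_div, ENNReal.ofReal_inv_of_pos (by norm_num)]
          norm_num
      _ = 1 := by
          simp_rw [pow_succ]
          rw [ENNReal.tsum_mul_right, ENNReal.tsum_geometric, ENNReal.one_sub_inv_two, inv_inv]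
          exact ENNReal.mul_inv_cancel (by norm_num) (by norm_num)

/-- Homeomorphisms with weak derivative in `L^p_loc` which satisfy the cone condition are finely
approximable. -/
theorem cone_fineP {p : ℝ} (hp : 1 ≤ p) {Ω Λ : Set E3} (hΩ : IsBoundedDomain Ω)
    (hΛ : IsBoundedDomain Λ) {f : E3 → E3} {F : E3 → E3 →L[ℝ] E3} (hf : IsHomeo Ω Λ f)
    (hw : IsWeakDeriv Ω f F)
    (hFp : ∀ K, IsCompact K → K ⊆ Ω → MemLp F (ENNReal.ofReal p) (volume.restrict K))
    (hcone : ConeCondition Ω Λ f F) : ∃ F', FineP p Ω Λ f F' := by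
  have hp0 : 0 < p := by linarith only [hp]
  have hpne : ENNReal.ofReal p ≠ 0 := by rw [Ne, ENNReal.ofReal_eq_zero, not_le]; exact hp0
  have hptr : (ENNReal.ofReal p).toReal = p := ENNReal.toReal_ofReal hp0.le
  have hFm : AEStronglyMeasurable F (volume.restrict Ω) := hw.2.1.aestronglyMeasurable
  refine ⟨hFm.mk F, hf, hFm.stronglyMeasurable_mk.measurable, fun w hwc => ?_⟩
  obtain ⟨C, K, A, b, hC, hA, hAinj, hb, hbinj, hbder, hae⟩ := hcone
  obtain ⟨hbij, hfc, h, hh, hinv⟩ := hf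
  obtain ⟨R, hR⟩ := hΩ.2.2.exists_norm_le
  have hR0 : 0 ≤ R := by
    obtain ⟨x, hx⟩ := hΩ.2.1.nonempty
    exact (norm_nonneg x).trans (hR x hx)
  have hΛne : Λᶜ.Nonempty := by
    rw [nonempty_compl]
    rintro rfl
    exact NormedSpace.unbounded_univ ℝ E3 hΛ.2.2
  have hpart : ∀ x ∈ Ω, ∀ y ∈ Λ, fderiv ℝ (b x) y = (fderiv ℝ (Function.uncurry b) (x, y)).comp
      (ContinuousLinearMap.inr ℝ E3 E3) := by
    intro x hx y hy
    have h1 : HasFDerivAt (Function.uncurry b) (fderiv ℝ (Function.uncurry b) (x, y)) (x, y) :=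
      ((hb.contDiffAt ((hΩ.1.prod hΛ.1).mem_nhds ⟨hx, hy⟩)).differentiableAt
        (by simp)).hasFDerivAt
    have h2 : HasFDerivAt (fun z : E3 => (x, z)) (ContinuousLinearMap.inr ℝ E3 E3) y :=
      hasFDerivAt_prodMk_right x y
    exact (h1.comp y h2).fderiv
  obtain ⟨ε₁, hε₁c, hε₁0, hε₁1, hε₁i⟩ := exists_int_weight hΩ.1
    (G := fun x => ENNReal.ofReal (1 + ‖F x‖) ^ p) (by
      exact ((hFm.norm.aemeasurable.const_add 1).ennreal_ofReal).pow_const p) (by
      intro K hK hKΩ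
      have hfin : IsFiniteMeasure (volume.restrict K) :=
        isFiniteMeasure_restrict.2 hK.measure_lt_top.ne
      have h1 : MemLp (fun x => 1 + ‖F x‖) (ENNReal.ofReal p) (volume.restrict K) :=
        (memLp_const (1 : ℝ)).add (hFp K hK hKΩ).norm
      have h2 := lintegral_rpow_enorm_lt_top_of_eLpNorm_lt_top hpne ENNReal.ofReal_ne_top
        h1.eLpNorm_lt_top
      rw [hptr] at h2
      refine lt_of_eq_of_lt ?_ h2
      congr 1
      ext x
      rw [Real.enorm_eq_ofReal (by positivity)])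
  set W : E3 → ℝ := fun x => |w x| + 1 with hW
  have hW1 : ∀ x, 1 ≤ W x := fun x => by
    have := abs_nonneg (w x)
    simp only [hW]; linarith only [this]
  have hwW : ∀ x, w x ≤ W x := fun x => by
    have := le_abs_self (w x)
    simp only [hW]; linarith
  have h6p : (1 : ℝ) ≤ 6 ^ p := Real.one_le_rpow (by norm_num) hp0.le
  set ε : E3 → ℝ := fun x => ε₁ x / (2 * 6 ^ p * W x) with hε
  have hεc : ContinuousOn ε Ω := by
    refine hε₁c.div (continuousOn_const.mul (hwc.abs.add continuousOn_const)) fun x _ => ?_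
    have := hW1 x
    (clear * -; positivity)
  have hden : ∀ x, 1 ≤ 2 * 6 ^ p * W x := fun x => by
    have := hW1 x
    linarith only [mul_nonneg (sub_nonneg.2 h6p) (sub_nonneg.2 this), this, h6p]
  have hε0 : ∀ x ∈ Ω, 0 < ε x := fun x hx => div_pos (hε₁0 x hx) (by linarith only [hden x])
  have hε1 : ∀ x ∈ Ω, ε x ≤ 1 := fun x hx => by
    simp only [hε]
    rw [div_le_one₀ (by linarith only [hden x])]
    linarith only [hε₁1 x hx, hden x]
  obtain ⟨g, hg1, hg2, hg3, hg4, e, he1, he2, he3⟩ := exists_fine_diffeo volume hΩ.1 hΛ.1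
    hΛ.2.1.isPreconnected hΛne hR0 hR hfc hh hbij hinv hp (F := F) hw hFp C hC hA
    (fun x hx v hv => hAinj x hx (by rw [hv, map_zero])) hb hbinj (by
      rintro ⟨x, y⟩ ⟨hx, hy⟩ w hw
      apply hbder x hx y hy
      rw [hpart x hx y hy, map_zero]
      exact hw) (by
      filter_upwards [hae, ae_restrict_mem hΩ.1.measurableSet] with x hx hxΩ
      rwa [hpart x hxΩ _ (hbij.mapsTo hxΩ)] at hx) hεc hε0 hε1
  refine ⟨g, ⟨hg2, hg1, hg3⟩, fun x hx => ?_, ?_⟩
  · have h1 := hε₁1 x hx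
    have h2 := hW1 x
    calc ‖g x - f x‖ * w x ≤ ‖g x - f x‖ * W x := by
          gcongr
          exact hwW x
      _ ≤ (2 * ε x) * W x := by
          gcongr
          exact hg4 x hx
      _ = ε₁ x / 6 ^ p := by
          simp only [hε]
          (clear * - h2; field_simp)
      _ ≤ 1 := by
          rw [div_le_one₀ (by linarith only [h6p])]
          linarith only [h6p, h1]
  · have hGm : AEMeasurable (fun x => ENNReal.ofReal (ε₁ x) * ENNReal.ofReal (1 + ‖F x‖) ^ p)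
        (volume.restrict Ω) := by
      have h1 : AEMeasurable ε₁ (volume.restrict Ω) := hε₁c.aemeasurable hΩ.1.measurableSet
      exact h1.ennreal_ofReal.mul
        (((hFm.norm.aemeasurable.const_add 1).ennreal_ofReal).pow_const p)
    calc ∫⁻ x in Ω, ENNReal.ofReal (w x * ‖fderiv ℝ g x - hFm.mk F x‖ ^ p)
        = ∫⁻ x in Ω, ENNReal.ofReal (w x * ‖fderiv ℝ g x - F x‖ ^ p) := by
          refine lintegral_congr_ae ?_
          filter_upwards [hFm.ae_eq_mk] with x hx
          rw [hx]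
      _ ≤ ∫⁻ x in Ω, (2⁻¹ * (ENNReal.ofReal (e x) ^ p / ENNReal.ofReal (ε x)) +
            2⁻¹ * (ENNReal.ofReal (ε₁ x) * ENNReal.ofReal (1 + ‖F x‖) ^ p)) := by
          refine setLIntegral_mono' hΩ.1.measurableSet fun x hx => ?_
          have hεx := hε0 x hx
          have hex := he1 x hx
          have hε₁x := hε₁0 x hx
          have hWx : 0 < W x := by linarith only [hW1 x]
          have hFx : 0 < 1 + ‖F x‖ := by (clear * -; positivity)
          have hpt : w x * ‖fderiv ℝ g x - F x‖ ^ p ≤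
              2⁻¹ * (e x ^ p / ε x) + 2⁻¹ * (ε₁ x * (1 + ‖F x‖) ^ p) := by
            have i1 : ‖fderiv ℝ g x - F x‖ ^ p ≤
                4 ^ p * e x ^ p + 6 ^ p * (ε x * (1 + ‖F x‖) ^ p) := by
              calc ‖fderiv ℝ g x - F x‖ ^ p ≤ (2 * max (2 * e x) (3 * ε x * (1 + ‖F x‖))) ^ p := by
                    gcongr
                    refine (he2 x hx).trans ?_
                    linarith only [le_max_right (2 * e x) (3 * ε x * (1 + ‖F x‖)), le_max_left (2 * e x) (3 * ε x * (1 + ‖F x‖))]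
                _ ≤ (2 * (2 * e x)) ^ p + (2 * (3 * ε x * (1 + ‖F x‖))) ^ p := by
                    rcases max_cases (2 * e x) (3 * ε x * (1 + ‖F x‖)) with ⟨h1, -⟩ | ⟨h1, -⟩
                    · rw [h1]
                      have : 0 ≤ (2 * (3 * ε x * (1 + ‖F x‖))) ^ p := by (clear * - hε₁x; positivity)
                      linarith only [this]
                    · rw [h1]
                      have : 0 ≤ (2 * (2 * e x)) ^ p := by (clear * - hex; positivity)
                      linarith only [this]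
                _ = 4 ^ p * e x ^ p + 6 ^ p * (ε x ^ p * (1 + ‖F x‖) ^ p) := by
                    rw [show 2 * (2 * e x) = 4 * e x by ring,
                      show 2 * (3 * ε x * (1 + ‖F x‖)) = 6 * (ε x * (1 + ‖F x‖)) by ring,
                      Real.mul_rpow (by norm_num) hex, Real.mul_rpow (by norm_num) (by (clear * - hε₁x; positivity)),
                      Real.mul_rpow hεx.le hFx.le]
                _ ≤ _ := by
                    have : ε x ^ p ≤ ε x := by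
                      calc ε x ^ p ≤ ε x ^ (1 : ℝ) :=
                            Real.rpow_le_rpow_of_exponent_ge' hεx.le (hε1 x hx) zero_le_one hp
                        _ = ε x := Real.rpow_one _
                    (clear * - this; gcongr)
            have i2 : W x * (4 ^ p * e x ^ p) ≤ 2⁻¹ * (e x ^ p / ε x) := by
              have j1 : (4 : ℝ) ^ p ≤ 6 ^ p := Real.rpow_le_rpow (by norm_num) (by norm_num) hp0.le
              have j2 : ε x * (2 * 6 ^ p * W x) ≤ 1 := by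
                simp only [hε]
                rw [div_mul_cancel₀ _ (by have := hden x; (clear * -; positivity))]
                exact hε₁1 x hx
              have j3 : 0 ≤ e x ^ p := by (clear * - hex; positivity)
              rw [← mul_div_assoc, le_div_iff₀ hεx]
              calc W x * (4 ^ p * e x ^ p) * ε x ≤ W x * (6 ^ p * e x ^ p) * ε x := by (clear * - j1 hex hε₁x; gcongr)
                _ = (ε x * (2 * 6 ^ p * W x)) * (2⁻¹ * e x ^ p) := by ring
                _ ≤ 1 * (2⁻¹ * e x ^ p) := by (clear * - j2 hex; gcongr)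
                _ = _ := one_mul _
            have i3 : W x * (6 ^ p * (ε x * (1 + ‖F x‖) ^ p)) = 2⁻¹ * (ε₁ x * (1 + ‖F x‖) ^ p) := by
              simp only [hε]
              (clear * - hWx hε₁x; field_simp)
            calc w x * ‖fderiv ℝ g x - F x‖ ^ p ≤ W x * ‖fderiv ℝ g x - F x‖ ^ p := by
                  gcongr
                  exact hwW x
              _ ≤ W x * (4 ^ p * e x ^ p + 6 ^ p * (ε x * (1 + ‖F x‖) ^ p)) := by (clear * - i1; gcongr)
              _ = W x * (4 ^ p * e x ^ p) + W x * (6 ^ p * (ε x * (1 + ‖F x‖) ^ p)) := by ring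
              _ ≤ _ := by rw [i3]; (clear * - i2; gcongr)
          refine (ENNReal.ofReal_le_ofReal hpt).trans (le_of_eq ?_)
          rw [ENNReal.ofReal_add (by (clear * - hex hε₁x; positivity)) (by (clear * - hε₁x; positivity)),
            ENNReal.ofReal_mul (by norm_num), ENNReal.ofReal_mul (by norm_num),
            ENNReal.ofReal_mul hε₁x.le, ENNReal.ofReal_div_of_pos hεx,
            ENNReal.ofReal_rpow_of_nonneg hex hp0.le, ENNReal.ofReal_rpow_of_nonneg hFx.le hp0.le,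
            ENNReal.ofReal_inv_of_pos (by norm_num)]
          norm_num
      _ = 2⁻¹ * (∫⁻ x in Ω, ENNReal.ofReal (e x) ^ p / ENNReal.ofReal (ε x)) +
            2⁻¹ * (∫⁻ x in Ω, ENNReal.ofReal (ε₁ x) * ENNReal.ofReal (1 + ‖F x‖) ^ p) := by
          rw [lintegral_add_right' _ (hGm.const_mul _), lintegral_const_mul' _ _ (by norm_num),
            lintegral_const_mul' _ _ (by norm_num)]
      _ ≤ 2⁻¹ * 1 + 2⁻¹ * 1 := by (clear * - he3 hε₁i; gcongr)
      _ = 1 := by rw [mul_one, ENNReal.inv_two_add_inv_two]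

end Vale.Agent.P073
end
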