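import Vale.Agent.P073.Bdl.B3
import Vale.Agent.P073.St
import Vale.Agent.P073.Bdl.B5
attribute [-instance] ProperSMul.toContinuousSMul IsTopologicalTorsor.toContinuousSMul IdemSemiring.toCanonicallyOrderedAdd IdemSemiring.toMulLeftMono IdemSemiring.toMulRightMono AddQuantale.instAddLeftMono AddQuantale.instAddRightMono Quantale.instMulLeftMono Quantale.instMulRightMono FiniteDimensional.rclike_to_real IsScalarTower.complexToReal FiniteDimensional.complexToReal

set_option linter.all false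

section

/-!
# P073: passing between `EuclideanSpace ℝ (Fin 3)` and `Fin 3 → ℝ`
-/

set_option linter.unusedSectionVars false
set_option maxSynthPendingDepth 3

namespace Vale.Agent.P073

open MeasureTheory Set Filter Topology Metric Module
open scoped ENNReal ContDiff RealInnerProductSpace
open St (V Mat euc frob ap mm)

/-- The identity map, from Euclidean space to plain vectors. -/
noncomputable def ce : E3 ≃L[ℝ] V := PiLp.continuousLinearEquiv 2 ℝ (fun _ : Fin 3 => ℝ)

theorem mp_ce : MeasurePreserving (⇑ce) (volume : Measure E3) (volume : Measure V) :=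
  PiLp.volume_preserving_ofLp (Fin 3)

theorem me_ce : MeasurableEmbedding (⇑ce) := ce.toHomeomorph.measurableEmbedding

theorem me_ce_symm : MeasurableEmbedding (⇑ce.symm) := ce.symm.toHomeomorph.measurableEmbedding

theorem mp_ce_symm : MeasurePreserving (⇑ce.symm) (volume : Measure V) (volume : Measure E3) :=
  PiLp.volume_preserving_toLp (Fin 3)

theorem euc_ce (x : E3) : euc (ce x) = ‖x‖ := by
  rw [EuclideanSpace.norm_eq]
  unfold euc
  congr 1
  refine Finset.sum_congr rfl fun i _ => ?_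
  rw [Real.norm_eq_abs, sq_abs]
  rfl

theorem norm_ce_symm (v : V) : ‖ce.symm v‖ = euc v := by
  rw [← euc_ce, ContinuousLinearEquiv.apply_symm_apply]

/-- A matrix as a continuous linear map on plain vectors. -/
noncomputable def apL (M : Mat) : V →L[ℝ] V :=
  LinearMap.toContinuousLinearMap
    { toFun := ap M
      map_add' := fun v w => by
        funext i
        simp only [ap, Pi.add_apply, mul_add, Finset.sum_add_distrib]
      map_smul' := fun c v => by
        funext i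
        simp only [ap, Pi.smul_apply, smul_eq_mul, RingHom.id_apply, Finset.mul_sum]
        refine Finset.sum_congr rfl fun j _ => by ring }

theorem apL_apply (M : Mat) (v : V) : apL M v = ap M v := rfl

/-- A matrix as a continuous linear map of Euclidean space. -/
noncomputable def liftMat : Mat →ₗ[ℝ] (E3 →L[ℝ] E3) where
  toFun M := (ce.symm : V →L[ℝ] E3) ∘L (apL M ∘L (ce : E3 →L[ℝ] V))
  map_add' M N := by
    ext1 x
    apply ce.injective
    funext i
    simp [apL_apply, ap, add_mul, Finset.sum_add_distrib]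
  map_smul' c M := by
    ext1 x
    apply ce.injective
    funext i
    simp [apL_apply, ap, Finset.mul_sum, mul_assoc]

theorem ce_liftMat (M : Mat) (x : E3) : ce (liftMat M x) = ap M (ce x) := by
  show ce (ce.symm (apL M (ce x))) = _
  rw [ContinuousLinearEquiv.apply_symm_apply, apL_apply]

/-- The matrix of a continuous linear map of Euclidean space. -/
noncomputable def matOf (T : E3 →L[ℝ] E3) : Mat := fun i j => ce (T (ce.symm (Pi.single j 1))) i

theorem ap_single (M : Mat) (j : Fin 3) (i : Fin 3) : ap M (Pi.single j 1) i = M i j := by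
  simp [ap, Pi.single_apply]

theorem matOf_liftMat (M : Mat) : matOf (liftMat M) = M := by
  funext i j
  rw [matOf, ce_liftMat, ContinuousLinearEquiv.apply_symm_apply, ap_single]

theorem eq_sum_single (v : V) : v = ∑ j, v j • (Pi.single j (1 : ℝ) : V) := by
  funext i
  simp [Finset.sum_apply, Pi.single_apply]

theorem liftMat_matOf (T : E3 →L[ℝ] E3) : liftMat (matOf T) = T := by
  ext1 x
  apply ce.injective
  rw [ce_liftMat]
  have h1 : x = ∑ j, (ce x) j • ce.symm (Pi.single j (1 : ℝ)) := by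
    apply ce.injective
    rw [map_sum]
    conv_lhs => rw [eq_sum_single (ce x)]
    refine Finset.sum_congr rfl fun j _ => ?_
    rw [map_smul, ContinuousLinearEquiv.apply_symm_apply]
  conv_rhs => rw [h1, map_sum, map_sum]
  funext i
  rw [Finset.sum_apply]
  simp only [ap, matOf, map_smul, Pi.smul_apply, smul_eq_mul]
  refine Finset.sum_congr rfl fun j _ => by ring

theorem liftMat_mm (M N : Mat) : liftMat (mm M N) = (liftMat M).comp (liftMat N) := by
  ext1 x
  apply ce.injective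
  rw [ContinuousLinearMap.comp_apply, ce_liftMat, ce_liftMat, ce_liftMat]
  funext i
  simp only [ap, mm, Finset.sum_mul, Finset.mul_sum]
  rw [Finset.sum_comm]
  refine Finset.sum_congr rfl fun j _ => Finset.sum_congr rfl fun k _ => by ring

theorem frobNorm_liftMat (M : Mat) : frobNorm (liftMat M) = frob M := by
  unfold frobNorm frob
  congr 1
  rw [Finset.sum_comm]
  refine Finset.sum_congr rfl fun j _ => ?_
  rw [← euc_ce, ce_liftMat, euc, Real.sq_sqrt (Finset.sum_nonneg fun i _ => sq_nonneg _)]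
  refine Finset.sum_congr rfl fun i _ => ?_
  have : ce (EuclideanSpace.single j (1 : ℝ)) = Pi.single j 1 := by
    funext k
    simp [ce, Pi.single_apply]
  rw [this, ap_single]

/-- The continuous linear version of `liftMat`. -/
noncomputable def liftMatL : Mat →L[ℝ] (E3 →L[ℝ] E3) := LinearMap.toContinuousLinearMap liftMat

theorem liftMatL_apply (M : Mat) : liftMatL M = liftMat M := rfl

/-- The lift of a map. -/
noncomputable def liftMap (f : V → V) : E3 → E3 := fun x => ce.symm (f (ce x))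

/-- The lift of a set. -/
def liftSet (Ω : Set V) : Set E3 := ⇑ce ⁻¹' Ω

theorem mem_liftSet {Ω : Set V} {x : E3} : x ∈ liftSet Ω ↔ ce x ∈ Ω := Iff.rfl

theorem symm_mem_liftSet {Ω : Set V} {x : V} : ce.symm x ∈ liftSet Ω ↔ x ∈ Ω := by
  rw [mem_liftSet, ContinuousLinearEquiv.apply_symm_apply]

theorem preimage_symm_liftSet (Ω : Set V) : ⇑ce.symm ⁻¹' (liftSet Ω) = Ω := by
  ext x
  exact symm_mem_liftSet

theorem isOpen_liftSet {Ω : Set V} (h : IsOpen Ω) : IsOpen (liftSet Ω) :=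
  h.preimage ce.continuous

theorem isBoundedDomain_lift {Ω : Set V} (h : St.IsBoundedDomain Ω) :
    IsBoundedDomain (liftSet Ω) := by
  obtain ⟨h1, h2, R, hR⟩ := h
  refine ⟨isOpen_liftSet h1, (ce.toHomeomorph.isConnected_preimage).2 h2, ?_⟩
  rw [isBounded_iff_forall_norm_le]
  refine ⟨R, fun x hx => ?_⟩
  rw [← euc_ce]
  exact hR _ hx

theorem isHomeo_lift {Ω Λ : Set V} {f : V → V} (h : St.IsHomeo Ω Λ f) :
    IsHomeo (liftSet Ω) (liftSet Λ) (liftMap f) := by
  obtain ⟨k, ⟨h1, h2⟩, h3, h4⟩ := h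
  have hL : LeftInvOn (liftMap k) (liftMap f) (liftSet Ω) := by
    intro x hx
    show ce.symm (k (ce (ce.symm (f (ce x))))) = x
    rw [ContinuousLinearEquiv.apply_symm_apply, (h1 _ hx).2, ContinuousLinearEquiv.symm_apply_apply]
  have hR : RightInvOn (liftMap k) (liftMap f) (liftSet Λ) := by
    intro x hx
    show ce.symm (f (ce (ce.symm (k (ce x))))) = x
    rw [ContinuousLinearEquiv.apply_symm_apply, (h2 _ hx).2, ContinuousLinearEquiv.symm_apply_apply]
  have hm1 : MapsTo (liftMap f) (liftSet Ω) (liftSet Λ) := fun x hx =>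
    symm_mem_liftSet.2 (h1 _ hx).1
  have hm2 : MapsTo (liftMap k) (liftSet Λ) (liftSet Ω) := fun x hx =>
    symm_mem_liftSet.2 (h2 _ hx).1
  refine ⟨InvOn.bijOn ⟨hL, hR⟩ hm1 hm2, ?_, liftMap k, ?_, ⟨hL, hR⟩⟩
  · exact ce.symm.continuous.comp_continuousOn (h3.comp ce.continuous.continuousOn fun x hx => hx)
  · exact ce.symm.continuous.comp_continuousOn (h4.comp ce.continuous.continuousOn fun x hx => hx)

theorem mp_ce_restrict {Ω : Set V} (hΩ : IsOpen Ω) :
    MeasurePreserving (⇑ce) (volume.restrict (liftSet Ω)) (volume.restrict Ω) :=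
  mp_ce.restrict_preimage hΩ.measurableSet

theorem mp_ce_symm_restrict {Ω : Set V} (hΩ : IsOpen Ω) :
    MeasurePreserving (⇑ce.symm) (volume.restrict Ω) (volume.restrict (liftSet Ω)) := by
  have := mp_ce_symm.restrict_preimage (isOpen_liftSet hΩ).measurableSet
  rwa [preimage_symm_liftSet] at this

/-! ### Derivatives -/

theorem pd_eq {u : V → ℝ} {x : V} (h : DifferentiableAt ℝ u x) (j : Fin 3) :
    St.pd u x j = fderiv ℝ u x (Pi.single j 1) := by
  have h1 : HasDerivAt (Function.update x j) (Pi.single j 1) (x j) := hasDerivAt_update x j (x j)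
  have h2 : HasFDerivAt u (fderiv ℝ u x) (Function.update x j (x j)) := by
    rw [Function.update_eq_self]
    exact h.hasFDerivAt
  exact (h2.comp_hasDerivAt (x j) h1).deriv

theorem fderiv_liftMap {g : V → V} {x : E3} (h : DifferentiableAt ℝ g (ce x)) :
    fderiv ℝ (liftMap g) x = liftMat (St.jac g (ce x)) := by
  have h1 : HasFDerivAt (liftMap g)
      ((ce.symm : V →L[ℝ] E3).comp ((fderiv ℝ g (ce x)).comp (ce : E3 →L[ℝ] V))) x :=
    (ce.symm : V →L[ℝ] E3).hasFDerivAt.comp x (h.hasFDerivAt.comp x ce.hasFDerivAt)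
  rw [h1.fderiv, ← liftMat_matOf ((ce.symm : V →L[ℝ] E3).comp _)]
  congr 1
  funext i j
  have h2 : DifferentiableAt ℝ (fun z => g z i) (ce x) := (differentiableAt_pi.1 h) i
  show ce (ce.symm (fderiv ℝ g (ce x) (ce (ce.symm (Pi.single j 1))))) i =
    St.pd (fun z => g z i) (ce x) j
  rw [ContinuousLinearEquiv.apply_symm_apply, ContinuousLinearEquiv.apply_symm_apply, pd_eq h2]
  have h3 : HasFDerivAt (fun z => g z i)
      ((ContinuousLinearMap.proj i : (Fin 3 → ℝ) →L[ℝ] ℝ).comp (fderiv ℝ g (ce x))) (ce x) :=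
    (ContinuousLinearMap.proj i : (Fin 3 → ℝ) →L[ℝ] ℝ).hasFDerivAt.comp (ce x) h.hasFDerivAt
  rw [h3.fderiv]
  rfl

/-! ### Smoothness -/

theorem contDiffOn_of_comps {Ω : Set V} {g : V → V} (h : ∀ i, St.Sm Ω (fun x => g x i)) :
    ContDiffOn ℝ ∞ g Ω := contDiffOn_pi.2 h

theorem contDiffOn_liftMap {Ω : Set V} {g : V → V} (h : ContDiffOn ℝ ∞ g Ω) :
    ContDiffOn ℝ ∞ (liftMap g) (liftSet Ω) :=
  ce.symm.contDiff.comp_contDiffOn (h.comp ce.contDiff.contDiffOn fun _ hx => hx)

/-! ### Sobolev maps -/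

theorem memLp_lift {p : ℝ} {Ω : Set V} (hΩ : IsOpen Ω) {G : Type*} [NormedAddCommGroup G]
    {u : V → G} (h : MemLp u (ENNReal.ofReal p) (volume.restrict Ω)) :
    MemLp (fun x => u (ce x)) (ENNReal.ofReal p) (volume.restrict (liftSet Ω)) :=
  h.comp_measurePreserving (mp_ce_restrict hΩ)

theorem memLp_map_lift {p : ℝ} {Ω : Set V} (hΩ : IsOpen Ω) {f : V → V}
    (h : ∀ i, St.InLp p Ω (fun x => f x i)) :
    MemLp (liftMap f) (ENNReal.ofReal p) (volume.restrict (liftSet Ω)) :=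
  (ce.symm : V →L[ℝ] E3).comp_memLp' (memLp_lift hΩ (memLp_pi_iff.2 h))

theorem memLp_mat_lift {p : ℝ} {Ω : Set V} (hΩ : IsOpen Ω) {F : V → Mat}
    (h : ∀ i j, St.InLp p Ω (fun x => F x i j)) :
    MemLp (fun x => liftMat (F (ce x))) (ENNReal.ofReal p) (volume.restrict (liftSet Ω)) :=
  liftMatL.comp_memLp' (memLp_lift hΩ (memLp_pi_iff.2 fun i => memLp_pi_iff.2 fun j => h i j))

theorem int_eq {Ω : Set V} (u : V → ℝ) :
    St.int Ω u = ∫ x in liftSet Ω, u (ce x) :=
  (mp_ce.setIntegral_preimage_emb me_ce u Ω).symm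

/-- The `i`-th coordinate functional. -/
noncomputable def coordL (i : Fin 3) : E3 →L[ℝ] ℝ :=
  (ContinuousLinearMap.proj i : (Fin 3 → ℝ) →L[ℝ] ℝ).comp (ce : E3 →L[ℝ] V)

theorem coordL_apply (i : Fin 3) (x : E3) : coordL i x = ce x i := rfl

theorem fderiv_eq_sum_pd {ψ : V → ℝ} {y : V} (h : DifferentiableAt ℝ ψ y) (w : V) :
    fderiv ℝ ψ y w = ∑ j, w j * St.pd ψ y j := by
  conv_lhs => rw [eq_sum_single w, map_sum]
  refine Finset.sum_congr rfl fun j _ => ?_
  rw [map_smul, smul_eq_mul, pd_eq h]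

theorem isTest_unlift {Ω : Set V} {φ : E3 → ℝ} (h1 : ContDiff ℝ ∞ φ) (h2 : HasCompactSupport φ)
    (h3 : tsupport φ ⊆ liftSet Ω) : St.IsTest Ω (φ ∘ ⇑ce.symm) := by
  refine ⟨(h1.comp ce.symm.contDiff).contDiffOn, h2.comp_homeomorph ce.symm.toHomeomorph, ?_⟩
  have h4 : tsupport (φ ∘ ⇑ce.symm) = ⇑ce.symm ⁻¹' tsupport φ :=
    tsupport_comp_eq_preimage φ ce.symm.toHomeomorph
  rw [h4]
  intro x hx
  exact symm_mem_liftSet.1 (h3 hx)

theorem isTest_lift {Ω : Set V} {φ : V → ℝ} (h : St.IsTest Ω φ) :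
    ContDiff ℝ ∞ (φ ∘ ⇑ce) ∧ HasCompactSupport (φ ∘ ⇑ce) ∧ tsupport (φ ∘ ⇑ce) ⊆ liftSet Ω := by
  obtain ⟨h1, h2, h3⟩ := h
  refine ⟨(contDiffOn_univ.1 h1).comp ce.contDiff, h2.comp_homeomorph ce.toHomeomorph, ?_⟩
  have h4 : tsupport (φ ∘ ⇑ce) = ⇑ce ⁻¹' tsupport φ :=
    tsupport_comp_eq_preimage φ ce.toHomeomorph
  rw [h4]
  intro x hx
  exact h3 hx

theorem pd_unlift {φ : E3 → ℝ} (h1 : ContDiff ℝ ∞ φ) (x : E3) (j : Fin 3) :
    St.pd (φ ∘ ⇑ce.symm) (ce x) j = fderiv ℝ φ x (ce.symm (Pi.single j 1)) := by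
  have hψ : ContDiff ℝ ∞ (φ ∘ ⇑ce.symm) := h1.comp ce.symm.contDiff
  rw [pd_eq ((hψ.differentiable (by simp)) _)]
  have h2 : HasFDerivAt φ (fderiv ℝ φ x) (ce.symm (ce x)) := by
    rw [ContinuousLinearEquiv.symm_apply_apply]
    exact ((h1.differentiable (by simp)) x).hasFDerivAt
  have h3 : HasFDerivAt (φ ∘ ⇑ce.symm) ((fderiv ℝ φ x).comp (ce.symm : V →L[ℝ] E3)) (ce x) :=
    h2.comp (ce x) ce.symm.hasFDerivAt
  rw [h3.fderiv]
  rfl

theorem fderiv_eq_sum {φ : E3 → ℝ} (h1 : ContDiff ℝ ∞ φ) (x v : E3) :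
    fderiv ℝ φ x v = ∑ j, ce v j * St.pd (φ ∘ ⇑ce.symm) (ce x) j := by
  have hv : v = ∑ j, ce v j • ce.symm (Pi.single j (1 : ℝ)) := by
    apply ce.injective
    rw [map_sum]
    conv_lhs => rw [eq_sum_single (ce v)]
    refine Finset.sum_congr rfl fun j _ => ?_
    rw [map_smul, ContinuousLinearEquiv.apply_symm_apply]
  conv_lhs => rw [hv, map_sum]
  refine Finset.sum_congr rfl fun j _ => ?_
  rw [map_smul, smul_eq_mul, pd_unlift h1]

theorem isBounded_liftSet {Ω : Set V} (h : ∃ R : ℝ, ∀ x ∈ Ω, euc x ≤ R) :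
    Bornology.IsBounded (liftSet Ω) := by
  obtain ⟨R, hR⟩ := h
  rw [isBounded_iff_forall_norm_le]
  exact ⟨R, fun x hx => by rw [← euc_ce]; exact hR _ hx⟩

theorem isSobolev_lift_open {p : ℝ} (hp : 1 ≤ p) {Ω : Set V} (hΩo : IsOpen Ω)
    (hΩb : ∃ R : ℝ, ∀ x ∈ Ω, euc x ≤ R) {f : V → V}
    {F : V → Mat} (h : St.IsSobolev p Ω f F) :
    IsSobolev p (liftSet Ω) (liftMap f) (fun x => liftMat (F (ce x))) := by
  obtain ⟨hf, hF, hw⟩ := h
  have hΩ : IsOpen Ω ∧ True := ⟨hΩo, trivial⟩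
  have hfin : IsFiniteMeasure (volume.restrict (liftSet Ω)) :=
    isFiniteMeasure_restrict.2 (isBounded_liftSet hΩb).measure_lt_top.ne
  have hp1 : (1 : ℝ≥0∞) ≤ ENNReal.ofReal p := by
    rw [← ENNReal.ofReal_one]
    exact ENNReal.ofReal_le_ofReal hp
  have hfL := memLp_map_lift hΩ.1 hf
  have hFL := memLp_mat_lift hΩ.1 hF
  have hfI : ∀ i, Integrable (fun x => f (ce x) i) (volume.restrict (liftSet Ω)) := fun i =>
    (memLp_lift hΩ.1 (hf i)).integrable hp1
  have hFI : ∀ i j, Integrable (fun x => F (ce x) i j) (volume.restrict (liftSet Ω)) :=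
    fun i j => (memLp_lift hΩ.1 (hF i j)).integrable hp1
  have hfI' : IntegrableOn (liftMap f) (liftSet Ω) := hfL.integrable hp1
  have hFI' : IntegrableOn (fun x => liftMat (F (ce x))) (liftSet Ω) := hFL.integrable hp1
  refine ⟨⟨hfI'.locallyIntegrableOn, hFI'.locallyIntegrableOn, ?_⟩, hfL, hFL⟩
  intro φ hφ1 hφ2 hφ3 v
  have hφT : MemLp φ ⊤ (volume.restrict (liftSet Ω)) :=
    hφ1.continuous.memLp_of_hasCompactSupport hφ2
  have hdφT : ∀ w, MemLp (fun x => fderiv ℝ φ x w) ⊤ (volume.restrict (liftSet Ω)) := by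
    intro w
    refine Continuous.memLp_of_hasCompactSupport ?_ (hφ2.fderiv_apply ℝ w)
    exact (hφ1.continuous_fderiv (by simp)).clm_apply continuous_const
  have hFv : Integrable (fun x => liftMat (F (ce x)) v) (volume.restrict (liftSet Ω)) :=
    (ContinuousLinearMap.apply ℝ E3 v).integrable_comp hFI'
  have hI1 : Integrable (fun x => φ x • liftMat (F (ce x)) v) (volume.restrict (liftSet Ω)) :=
    Integrable.smul_of_top_right hFv hφT
  have hI2 : Integrable (fun x => fderiv ℝ φ x v • liftMap f x) (volume.restrict (liftSet Ω)) :=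
    Integrable.smul_of_top_right hfI' (hdφT v)
  have hI3 : ∀ i j, Integrable (fun x => φ x * F (ce x) i j) (volume.restrict (liftSet Ω)) :=
    fun i j => Integrable.smul_of_top_right (hFI i j) hφT
  have hI4 : ∀ i j, Integrable (fun x => St.pd (φ ∘ ⇑ce.symm) (ce x) j * f (ce x) i)
      (volume.restrict (liftSet Ω)) := by
    intro i j
    have : (fun x => St.pd (φ ∘ ⇑ce.symm) (ce x) j * f (ce x) i) =
        fun x => fderiv ℝ φ x (ce.symm (Pi.single j 1)) • f (ce x) i := by
      funext x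
      rw [pd_unlift hφ1, smul_eq_mul]
    rw [this]
    exact Integrable.smul_of_top_right (hfI i) (hdφT _)
  have hweak : ∀ i j, ∫ x in liftSet Ω, φ x * F (ce x) i j =
      - ∫ x in liftSet Ω, St.pd (φ ∘ ⇑ce.symm) (ce x) j * f (ce x) i := by
    intro i j
    have h1 := hw (φ ∘ ⇑ce.symm) (isTest_unlift hφ1 hφ2 hφ3) i j
    rw [int_eq, int_eq] at h1
    simpa using h1
  apply ce.injective
  funext i
  rw [← coordL_apply, ← coordL_apply, map_neg, ← ContinuousLinearMap.integral_comp_comm _ hI1,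
    ← ContinuousLinearMap.integral_comp_comm _ hI2]
  have h1 : ∀ x, coordL i (φ x • liftMat (F (ce x)) v) = ∑ j, ce v j * (φ x * F (ce x) i j) := by
    intro x
    rw [map_smul, coordL_apply, ce_liftMat, smul_eq_mul, ap, Finset.mul_sum]
    refine Finset.sum_congr rfl fun j _ => by ring
  have h2 : ∀ x, coordL i (fderiv ℝ φ x v • liftMap f x) =
      ∑ j, ce v j * (St.pd (φ ∘ ⇑ce.symm) (ce x) j * f (ce x) i) := by
    intro x
    have h3 : ce (liftMap f x) = f (ce x) := ContinuousLinearEquiv.apply_symm_apply _ _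
    rw [map_smul, coordL_apply, h3, smul_eq_mul, fderiv_eq_sum hφ1, Finset.sum_mul]
    refine Finset.sum_congr rfl fun j _ => by ring
  simp_rw [h1, h2]
  rw [integral_finsetSum _ fun j _ => (hI3 i j).const_mul _,
    integral_finsetSum _ fun j _ => (hI4 i j).const_mul _, ← Finset.sum_neg_distrib]
  refine Finset.sum_congr rfl fun j _ => ?_
  rw [integral_const_mul, integral_const_mul, hweak, mul_neg]

theorem isSobolev_lift {p : ℝ} (hp : 1 ≤ p) {Ω : Set V} (hΩ : St.IsBoundedDomain Ω) {f : V → V}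
    {F : V → Mat} (h : St.IsSobolev p Ω f F) :
    IsSobolev p (liftSet Ω) (liftMap f) (fun x => liftMat (F (ce x))) :=
  isSobolev_lift_open hp hΩ.1 hΩ.2.2 h

end Vale.Agent.P073
end

section

/-!
# P073: transferring the main theorem to `Fin 3 → ℝ`
-/

set_option linter.unusedSectionVars false
set_option maxSynthPendingDepth 3

namespace Vale.Agent.P073

open MeasureTheory Set Filter Topology Metric Module
open scoped ENNReal ContDiff RealInnerProductSpace
open St (V Mat euc frob ap mm)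

theorem ce_apply_eq (T : E3 →L[ℝ] E3) (v : E3) : ce (T v) = ap (matOf T) (ce v) := by
  rw [← ce_liftMat, liftMat_matOf]

theorem matOf_add (S T : E3 →L[ℝ] E3) : matOf (S + T) = matOf S + matOf T := by
  funext i j
  simp [matOf]

theorem matOf_sub (S T : E3 →L[ℝ] E3) : matOf (S - T) = matOf S - matOf T := by
  funext i j
  simp [matOf]

theorem matOf_smul (c : ℝ) (T : E3 →L[ℝ] E3) : matOf (c • T) = c • matOf T := by
  funext i j
  simp [matOf]

/-- `matOf` as a continuous linear map. -/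
noncomputable def matOfL : (E3 →L[ℝ] E3) →L[ℝ] Mat :=
  LinearMap.toContinuousLinearMap
    { toFun := matOf
      map_add' := matOf_add
      map_smul' := matOf_smul }

theorem matOfL_apply (T : E3 →L[ℝ] E3) : matOfL T = matOf T := rfl

/-- The lifted cone. -/
def liftCone (C : Set Mat) (h1 : ∀ M ∈ C, ∀ t : ℝ, 0 < t → t • M ∈ C)
    (h2 : ∀ M ∈ C, ∀ N ∈ C, M + N ∈ C) : ConvexCone ℝ (E3 →L[ℝ] E3) where
  carrier := {T | matOf T ∈ C}
  smul_mem' t ht T hT := by
    show matOf (t • T) ∈ C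
    rw [matOf_smul]
    exact h1 _ hT t ht
  add_mem' S hS T hT := by
    show matOf (S + T) ∈ C
    rw [matOf_add]
    exact h2 _ hS _ hT

theorem coneCondition_lift {Ω Λ : Set V} (hΩ : IsOpen Ω) (hΛ : IsOpen Λ) {f : V → V}
    {F : V → Mat} (hf : MapsTo f Ω Λ) (h : St.ConeCondition Ω Λ f F) :
    ConeCondition (liftSet Ω) (liftSet Λ) (liftMap f) (fun x => liftMat (F (ce x))) := by
  obtain ⟨C, K, A, b, ⟨hC1, hC2, hC3⟩, hA, hAinj, hb, hbinj, hbder, hae⟩ := h
  have hA' : ContDiffOn ℝ ∞ A Ω := contDiffOn_pi.2 fun i => contDiffOn_pi.2 fun j => hA i j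
  have hb' : ContDiffOn ℝ ∞ (fun z : V × V => b z.1 z.2) (Ω ×ˢ Λ) :=
    contDiffOn_pi.2 fun i => hb i
  have hbd : ∀ x ∈ Ω, ∀ y ∈ Λ, DifferentiableAt ℝ (b x) y := by
    intro x hx y hy
    have h1 : DifferentiableAt ℝ (fun z : V × V => b z.1 z.2) (x, y) :=
      (hb'.contDiffAt ((hΩ.prod hΛ).mem_nhds ⟨hx, hy⟩)).differentiableAt (by simp)
    exact h1.comp y (hasFDerivAt_prodMk_right (𝕜 := ℝ) x y).differentiableAt
  have hbd' : ∀ x ∈ liftSet Ω, ∀ y ∈ liftSet Λ, fderiv ℝ (liftMap (b (ce x))) y =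
      liftMat (St.jac (b (ce x)) (ce y)) := fun x hx y hy => fderiv_liftMap (hbd _ hx _ hy)
  refine ⟨liftCone C hC1 hC2, K, fun x => liftMat (A (ce x)), fun x => liftMap (b (ce x)),
    ?_, ?_, ?_, ?_, ?_, ?_, ?_⟩
  · intro T hT v
    have h1 := hC3 (matOf T) hT (ce v)
    rwa [← ce_apply_eq, ← map_add, euc_ce, euc_ce] at h1
  · exact liftMatL.contDiff.comp_contDiffOn (hA'.comp ce.contDiff.contDiffOn fun _ hx => hx)
  · intro x hx
    rw [injective_iff_map_eq_zero]
    intro v hv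
    have h1 : ce (liftMat (A (ce x)) v) = 0 := by rw [hv, map_zero]
    rw [ce_liftMat] at h1
    have h2 := hAinj (ce x) hx (ce v) h1
    exact ce.injective (by rw [h2, map_zero])
  · have h1 : ContDiffOn ℝ ∞ (fun z : E3 × E3 => b (ce z.1) (ce z.2))
        (liftSet Ω ×ˢ liftSet Λ) := by
      have h2 : ContDiff ℝ ∞ (fun z : E3 × E3 => ((ce z.1, ce z.2) : V × V)) :=
        (ce.contDiff.comp contDiff_fst).prodMk (ce.contDiff.comp contDiff_snd)
      exact hb'.comp h2.contDiffOn fun z hz => ⟨hz.1, hz.2⟩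
    exact ce.symm.contDiff.comp_contDiffOn h1
  · intro x hx y hy z hz hyz
    have h1 : b (ce x) (ce y) = b (ce x) (ce z) := ce.symm.injective hyz
    exact ce.injective (hbinj (ce x) hx hy hz h1)
  · intro x hx y hy
    rw [injective_iff_map_eq_zero]
    intro v hv
    rw [hbd' x hx y hy] at hv
    have h1 : ce (liftMat (St.jac (b (ce x)) (ce y)) v) = 0 := by rw [hv, map_zero]
    rw [ce_liftMat] at h1
    have h2 := hbder (ce x) hx (ce y) hy (ce v) h1
    exact ce.injective (by rw [h2, map_zero])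
  · have h1 : ∀ᵐ x ∂(volume : Measure E3), ce x ∈ Ω →
        mm (mm (St.jac (b (ce x)) (f (ce x))) (F (ce x))) (A (ce x)) ∈ C :=
      mp_ce.quasiMeasurePreserving.ae hae
    filter_upwards [ae_restrict_of_ae h1, ae_restrict_mem (isOpen_liftSet hΩ).measurableSet]
      with x hx hxΩ
    have h2 := hx hxΩ
    show matOf _ ∈ C
    have h3 : fderiv ℝ (liftMap (b (ce x))) (liftMap f x) =
        liftMat (St.jac (b (ce x)) (f (ce x))) := by
      have h4 := hbd' x hxΩ (liftMap f x) (symm_mem_liftSet.2 (hf hxΩ))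
      have h5 : ce (liftMap f x) = f (ce x) := ContinuousLinearEquiv.apply_symm_apply _ _
      rw [h4, h5]
    rw [h3, ← liftMat_mm, ← liftMat_mm, matOf_liftMat]
    exact h2

/-! ### Going back -/

/-- The descent of a map. -/
noncomputable def dropMap (g : E3 → E3) : V → V := fun x => ce (g (ce.symm x))

theorem liftMap_dropMap (g : E3 → E3) : liftMap (dropMap g) = g := by
  funext x
  simp [liftMap, dropMap]

theorem contDiffOn_dropMap {Ω : Set V} {g : E3 → E3} (h : ContDiffOn ℝ ∞ g (liftSet Ω)) :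
    ContDiffOn ℝ ∞ (dropMap g) Ω :=
  ce.contDiff.comp_contDiffOn (h.comp ce.symm.contDiff.contDiffOn fun _ hx =>
    symm_mem_liftSet.2 hx)

theorem jac_dropMap {Ω : Set V} (hΩ : IsOpen Ω) {g : E3 → E3}
    (h : ContDiffOn ℝ ∞ g (liftSet Ω)) {x : E3} (hx : x ∈ liftSet Ω) :
    liftMat (St.jac (dropMap g) (ce x)) = fderiv ℝ g x := by
  have h1 : DifferentiableAt ℝ (dropMap g) (ce x) :=
    ((contDiffOn_dropMap h).contDiffAt (hΩ.mem_nhds hx)).differentiableAt (by simp)
  rw [← fderiv_liftMap h1, liftMap_dropMap]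

theorem jac_dropMap' {Ω : Set V} (hΩ : IsOpen Ω) {g : E3 → E3}
    (h : ContDiffOn ℝ ∞ g (liftSet Ω)) {x : E3} (hx : x ∈ liftSet Ω) :
    St.jac (dropMap g) (ce x) = matOf (fderiv ℝ g x) := by
  rw [← jac_dropMap hΩ h hx, matOf_liftMat]

theorem isDiffeo_drop {Ω Λ : Set V} {g : E3 → E3}
    (h : IsDiffeo (liftSet Ω) (liftSet Λ) g) : St.IsDiffeo Ω Λ (dropMap g) := by
  obtain ⟨hbij, hg, k, hk, hinv⟩ := h
  have hkm : MapsTo k (liftSet Λ) (liftSet Ω) := hinv.1.mapsTo hbij.surjOn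
  refine ⟨dropMap k, ⟨?_, ?_⟩, contDiffOn_pi.1 (contDiffOn_dropMap hg),
    contDiffOn_pi.1 (contDiffOn_dropMap hk)⟩
  · intro x hx
    have hx' := symm_mem_liftSet.2 hx
    refine ⟨hbij.mapsTo hx', ?_⟩
    show ce (k (ce.symm (ce (g (ce.symm x))))) = x
    rw [ContinuousLinearEquiv.symm_apply_apply, hinv.1 hx', ContinuousLinearEquiv.apply_symm_apply]
  · intro y hy
    have hy' := symm_mem_liftSet.2 hy
    refine ⟨hkm hy', ?_⟩
    show ce (g (ce.symm (ce (k (ce.symm y))))) = y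
    rw [ContinuousLinearEquiv.symm_apply_apply, hinv.2 hy', ContinuousLinearEquiv.apply_symm_apply]

theorem memLp_drop {p : ℝ} {Ω : Set V} (hΩ : IsOpen Ω) {G : Type*} [NormedAddCommGroup G]
    {u : E3 → G} (h : MemLp u (ENNReal.ofReal p) (volume.restrict (liftSet Ω))) :
    MemLp (fun x => u (ce.symm x)) (ENNReal.ofReal p) (volume.restrict Ω) :=
  h.comp_measurePreserving (mp_ce_symm_restrict hΩ)

theorem isSobolev_drop {p : ℝ} (hp : 1 ≤ p) {Ω : Set V} (hΩ : St.IsBoundedDomain Ω) {g : E3 → E3}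
    (hg : ContDiffOn ℝ ∞ g (liftSet Ω)) (h : IsSobolev p (liftSet Ω) g (fderiv ℝ g)) :
    St.IsSobolev p Ω (dropMap g) (St.jac (dropMap g)) := by
  obtain ⟨⟨-, -, hw⟩, hgp, hdp⟩ := h
  have hΩ' := isBoundedDomain_lift hΩ
  have hfin : IsFiniteMeasure (volume.restrict (liftSet Ω)) :=
    isFiniteMeasure_restrict.2 hΩ'.2.2.measure_lt_top.ne
  have hp1 : (1 : ℝ≥0∞) ≤ ENNReal.ofReal p := by
    rw [← ENNReal.ofReal_one]
    exact ENNReal.ofReal_le_ofReal hp
  refine ⟨?_, ?_, ?_⟩
  · exact memLp_pi_iff.1 ((ce : E3 →L[ℝ] V).comp_memLp' (memLp_drop hΩ.1 hgp))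
  · have h1 : MemLp (fun x => matOf (fderiv ℝ g (ce.symm x))) (ENNReal.ofReal p)
        (volume.restrict Ω) := matOfL.comp_memLp' (memLp_drop hΩ.1 hdp)
    have h2 : MemLp (St.jac (dropMap g)) (ENNReal.ofReal p) (volume.restrict Ω) := by
      refine (memLp_congr_ae ?_).1 h1
      filter_upwards [ae_restrict_mem hΩ.1.measurableSet] with x hx
      have h3 := jac_dropMap' hΩ.1 hg (symm_mem_liftSet.2 hx)
      rw [ContinuousLinearEquiv.apply_symm_apply] at h3
      exact h3.symm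
    intro i j
    exact memLp_pi_iff.1 (memLp_pi_iff.1 h2 i) j
  · intro φ hφ i j
    obtain ⟨hφ1, hφ2, hφ3⟩ := isTest_lift hφ
    have h1 := hw (φ ∘ ⇑ce) hφ1 hφ2 hφ3 (ce.symm (Pi.single j 1))
    have hφT : MemLp (φ ∘ ⇑ce) ⊤ (volume.restrict (liftSet Ω)) :=
      hφ1.continuous.memLp_of_hasCompactSupport hφ2
    have hdφT : ∀ w, MemLp (fun x => fderiv ℝ (φ ∘ ⇑ce) x w) ⊤ (volume.restrict (liftSet Ω)) := by
      intro w
      refine Continuous.memLp_of_hasCompactSupport ?_ (hφ2.fderiv_apply ℝ w)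
      exact (hφ1.continuous_fderiv (by simp)).clm_apply continuous_const
    have hI1 : Integrable (fun x => (φ ∘ ⇑ce) x • fderiv ℝ g x (ce.symm (Pi.single j 1)))
        (volume.restrict (liftSet Ω)) :=
      Integrable.smul_of_top_right
        ((ContinuousLinearMap.apply ℝ E3 (ce.symm (Pi.single j 1))).integrable_comp
          (hdp.integrable hp1)) hφT
    have hI2 : Integrable (fun x => fderiv ℝ (φ ∘ ⇑ce) x (ce.symm (Pi.single j 1)) • g x)
        (volume.restrict (liftSet Ω)) :=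
      Integrable.smul_of_top_right (hgp.integrable hp1) (hdφT _)
    have h2 := congrArg (coordL i) h1
    rw [map_neg, ← ContinuousLinearMap.integral_comp_comm _ hI1,
      ← ContinuousLinearMap.integral_comp_comm _ hI2] at h2
    rw [int_eq, int_eq]
    have h3 : ∫ x in liftSet Ω, φ (ce x) * St.jac (dropMap g) (ce x) i j =
        ∫ x in liftSet Ω, coordL i ((φ ∘ ⇑ce) x • fderiv ℝ g x (ce.symm (Pi.single j 1))) := by
      refine setIntegral_congr_fun (isOpen_liftSet hΩ.1).measurableSet ?_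
      intro x hx
      show φ (ce x) * St.jac (dropMap g) (ce x) i j =
        coordL i ((φ ∘ ⇑ce) x • fderiv ℝ g x (ce.symm (Pi.single j 1)))
      rw [jac_dropMap' hΩ.1 hg hx, map_smul]
      rfl
    have h4 : ∀ x, St.pd φ (ce x) j * dropMap g (ce x) i =
        coordL i (fderiv ℝ (φ ∘ ⇑ce) x (ce.symm (Pi.single j 1)) • g x) := by
      intro x
      have h5 := pd_unlift hφ1 x j
      have h6 : (φ ∘ ⇑ce) ∘ ⇑ce.symm = φ := by
        funext y
        simp
      rw [h6] at h5
      rw [map_smul, ← h5, coordL_apply, smul_eq_mul]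
      simp [dropMap]
    rw [h3, h2]
    congr 1
    refine integral_congr_ae (Eventually.of_forall fun x => ?_)
    exact (h4 x).symm

theorem continuous_frobNorm : Continuous frobNorm := by
  unfold frobNorm
  refine Real.continuous_sqrt.comp (continuous_finsetSum _ fun j _ => ?_)
  exact ((ContinuousLinearMap.apply ℝ E3 (EuclideanSpace.single j (1 : ℝ))).continuous.norm).pow 2

/-- Approximability transfers from Euclidean space to plain vectors. -/
theorem approximable_drop {p : ℝ} (hp : 1 ≤ p) {Ω Λ : Set V} (hΩ : St.IsBoundedDomain Ω)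
    {f : V → V} {F : V → Mat} (hF : St.IsSobolev p Ω f F)
    (h : DiffeoApproximable p (liftSet Ω) (liftSet Λ) (liftMap f)
      (fun x => liftMat (F (ce x)))) :
    St.DiffeoApproximable p Ω Λ f F := by
  obtain ⟨g, hg, hlim⟩ := h
  have hF' := isSobolev_lift hp hΩ hF
  have hΩo := isOpen_liftSet hΩ.1
  refine ⟨fun k => dropMap (g k), fun k => ⟨isDiffeo_drop (hg k).1,
    isSobolev_drop hp hΩ (hg k).1.2.1 (hg k).2⟩, ?_⟩
  have h1 := (ENNReal.tendsto_toReal ENNReal.zero_ne_top).comp hlim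
  rw [ENNReal.toReal_zero] at h1
  refine h1.congr fun k => ?_
  have hgs : ContDiffOn ℝ ∞ (g k) (liftSet Ω) := (hg k).1.2.1
  have hpt : ∀ x ∈ liftSet Ω, euc (dropMap (g k) (ce x) - f (ce x)) ^ p +
      frob (St.jac (dropMap (g k)) (ce x) - F (ce x)) ^ p =
      ‖g k x - liftMap f x‖ ^ p + frobNorm (fderiv ℝ (g k) x - liftMat (F (ce x))) ^ p := by
    intro x hx
    have h2 : dropMap (g k) (ce x) - f (ce x) = ce (g k x - liftMap f x) := by
      simp [dropMap, liftMap]
    have h3 : fderiv ℝ (g k) x - liftMat (F (ce x)) =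
        liftMat (St.jac (dropMap (g k)) (ce x) - F (ce x)) := by
      rw [map_sub, jac_dropMap hΩ.1 hgs hx]
    rw [h2, euc_ce, h3, frobNorm_liftMat]
  have hm1 : AEStronglyMeasurable (fun x => g k x - liftMap f x)
      (volume.restrict (liftSet Ω)) :=
    (hgs.continuousOn.aestronglyMeasurable hΩo.measurableSet).sub hF'.2.1.aestronglyMeasurable
  have hm2 : AEStronglyMeasurable (fun x => fderiv ℝ (g k) x - liftMat (F (ce x)))
      (volume.restrict (liftSet Ω)) :=
    ((hgs.continuousOn_fderiv_of_isOpen hΩo (by simp)).aestronglyMeasurable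
      hΩo.measurableSet).sub hF'.2.2.aestronglyMeasurable
  have hp0 : 0 ≤ p := by linarith
  have hm : AEStronglyMeasurable (fun x => ‖g k x - liftMap f x‖ ^ p +
      frobNorm (fderiv ℝ (g k) x - liftMat (F (ce x))) ^ p) (volume.restrict (liftSet Ω)) := by
    have c1 : Continuous fun t : ℝ => t ^ p := Real.continuous_rpow_const hp0
    exact (c1.comp_aestronglyMeasurable hm1.norm).add
      ((c1.comp continuous_frobNorm).comp_aestronglyMeasurable hm2)
  rw [int_eq]
  have h4 : ∫ x in liftSet Ω, (euc (dropMap (g k) (ce x) - f (ce x)) ^ p +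
      frob (St.jac (dropMap (g k)) (ce x) - F (ce x)) ^ p) =
      ∫ x in liftSet Ω, (‖g k x - liftMap f x‖ ^ p +
        frobNorm (fderiv ℝ (g k) x - liftMat (F (ce x))) ^ p) :=
    setIntegral_congr_fun hΩo.measurableSet hpt
  rw [h4, integral_eq_lintegral_of_nonneg_ae (Eventually.of_forall fun x => ?_) hm]
  · rfl
  · have := frobNorm_nonneg_r (fderiv ℝ (g k) x - liftMat (F (ce x)))
    positivity

end Vale.Agent.P073
end

section

/-!
# P073: passing from plain vectors to Euclidean space, for the class generated by composition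
-/

set_option maxSynthPendingDepth 3

namespace Vale.Agent.P073

open MeasureTheory Set Filter Topology Metric Module
open scoped ENNReal ContDiff RealInnerProductSpace NNReal
open St (V Mat euc frob ap mm)

theorem injective_liftMat {S : Mat} (hS : ∀ v, ap S v = 0 → v = 0) :
    Function.Injective (liftMat S) := by
  rw [injective_iff_map_eq_zero]
  intro v hv
  have h1 : ap S (ce v) = 0 := by rw [← ce_liftMat, hv, map_zero]
  exact ce.injective (by rw [hS _ h1, map_zero])

/-- An invertible matrix as an isomorphism of Euclidean space. -/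
theorem exists_equiv {S : Mat} (hS : ∀ v, ap S v = 0 → v = 0) :
    ∃ e : E3 ≃L[ℝ] E3, ∀ x, ce (e x) = ap S (ce x) := by
  have h1 := injective_liftMat hS
  have h2 : Function.Injective ((liftMat S : E3 →L[ℝ] E3) : E3 →ₗ[ℝ] E3) := h1
  refine ⟨(LinearEquiv.ofInjectiveEndo _ h2).toContinuousLinearEquiv, fun x => ?_⟩
  rw [← ce_liftMat]
  rfl

theorem ball_subset_lift {a : V} {r : ℝ} {x : E3} (hx : x ∈ ball (ce.symm a) r) :
    euc (ce x - a) < r := by
  rw [mem_ball, dist_eq_norm] at hx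
  have h1 : ce x - a = ce (x - ce.symm a) := by
    rw [map_sub, ContinuousLinearEquiv.apply_symm_apply]
  rwa [h1, euc_ce]

theorem smallDistortionAt_lift {K : ℝ} {f : V → V} {a : V} (h : St.SmallDistortionAt K f a) :
    SmallDistortionAt K (liftMap f) (ce.symm a) := by
  obtain ⟨r, S, T, hr, hS, hT, hST⟩ := h
  obtain ⟨S', hS'⟩ := exists_equiv hS
  obtain ⟨T', hT'⟩ := exists_equiv hT
  refine ⟨ball (ce.symm a) r, ball_mem_nhds _ hr, S', T', fun x hx y hy => ?_⟩
  have h1 := hST (ce x) (ce y) (ball_subset_lift hx) (ball_subset_lift hy)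
  rw [← euc_ce, ← euc_ce, hS', hT', map_sub, map_sub]
  have h2 : ∀ z, ce (liftMap f z) = f (ce z) := fun z => ContinuousLinearEquiv.apply_symm_apply _ _
  rw [h2, h2]
  exact h1

theorem inner_ce_symm (n : V) (w : E3) : inner ℝ (ce.symm n) w = ∑ i, n i * ce w i := by
  rw [PiLp.inner_apply]
  refine Finset.sum_congr rfl fun i _ => ?_
  show inner ℝ (n i) (ce w i) = _
  simp [mul_comm]

theorem dirMonotoneAt_lift {f : V → V} {a : V} (h : St.DirMonotoneAt f a) :
    DirMonotoneAt (liftMap f) (ce.symm a) := by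
  have h2 : ∀ z, ce (liftMap f z) = f (ce z) := fun z => ContinuousLinearEquiv.apply_symm_apply _ _
  obtain ⟨⟨r, L, hr, hL⟩, h⟩ := h
  refine ⟨⟨ball (ce.symm a) r, ball_mem_nhds _ hr, L.toNNReal, ?_⟩, ?_⟩
  · apply LipschitzOnWith.of_dist_le_mul
    intro x hx y hy
    have h1 := hL (ce x) (ce y) (ball_subset_lift hx) (ball_subset_lift hy)
    rw [← h2, ← h2, ← map_sub, ← map_sub, euc_ce, euc_ce] at h1
    rw [dist_eq_norm, dist_eq_norm]
    refine h1.trans ?_
    gcongr
    exact Real.le_coe_toNNReal L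
  · intro v hv
    have hv' : ce v ≠ 0 := by
      intro h0
      exact hv (ce.injective (by rw [h0, map_zero]))
    obtain ⟨n, r', hr', hn⟩ := h (ce v) hv'
    refine ⟨ce.symm n, ball (ce.symm a) r', ball_mem_nhds _ hr', fun x hx t ht hxt => ?_⟩
    have h3 := ball_subset_lift hxt
    rw [map_add, map_smul] at h3
    have h4 := hn (ce x) t ht (ball_subset_lift hx) h3
    rw [inner_ce_symm, map_sub, h2, h2, map_add, map_smul]
    exact h4

theorem generated_lift {Ω Λ : Set V} {f : V → V} (h : St.Generated Ω Λ f) :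
    Generated (liftSet Ω) (liftSet Λ) (liftMap f) ∧ St.IsBoundedDomain Ω := by
  induction h with
  | @base Ω Λ f K hΩ hΛ hf hK hloc =>
    refine ⟨Generated.base (isBoundedDomain_lift hΩ) (isBoundedDomain_lift hΛ) (isHomeo_lift hf)
      hK fun a ha => ?_, hΩ⟩
    rw [← ce.symm_apply_apply a]
    exact (hloc _ ha).imp smallDistortionAt_lift dirMonotoneAt_lift
  | @comp Ω Λ Ξ f g _ _ ih₁ ih₂ =>
    refine ⟨?_, ih₁.2⟩
    have h1 := ih₁.1.comp ih₂.1
    have h2 : liftMap g ∘ liftMap f = liftMap (fun x => g (f x)) := by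
      funext x
      show ce.symm (g (ce (ce.symm (f (ce x))))) = ce.symm (g (f (ce x)))
      rw [ContinuousLinearEquiv.apply_symm_apply]
    rwa [h2] at h1

/-- Sobolev homeomorphisms in the class generated by composition are approximable. -/
theorem st_generated_approximable {p : ℝ} (hp : 1 ≤ p) {Ω Λ : Set V} {f : V → V} {F : V → Mat}
    (h : St.Generated Ω Λ f) (hF : St.IsSobolev p Ω f F) : St.DiffeoApproximable p Ω Λ f F := by
  obtain ⟨h1, hΩ⟩ := generated_lift h
  obtain ⟨hΩ', -, F', C, hfine⟩ := h1.fine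
  exact approximable_drop hp hΩ hF
    ((hfine.toFineP hΩ'.1 hp).approximable hp hΩ'.1 hΩ'.2.2 (isSobolev_lift hp hΩ hF))

end Vale.Agent.P073
end

section

/-!
# P073: the composition theorem
-/

set_option maxSynthPendingDepth 3

namespace Vale.Agent.P073

open MeasureTheory Set Filter Topology Metric Module
open scoped ENNReal ContDiff RealInnerProductSpace NNReal
open St (V Mat euc frob ap mm)

theorem memLp_of_local {p : ℝ} {Ω : Set E3} (hΩ : IsOpen Ω) {f : E3 → E3}
    {F : E3 → E3 →L[ℝ] E3} (h : ∀ U : Set E3, IsOpen U → IsCompact (closure U) → closure U ⊆ Ω →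
      IsSobolev p U f F) {K : Set E3} (hK : IsCompact K) (hKΩ : K ⊆ Ω) :
    MemLp f (ENNReal.ofReal p) (volume.restrict K) ∧
      MemLp F (ENNReal.ofReal p) (volume.restrict K) := by
  obtain ⟨U, hU, hKU, hUΩ, hUc⟩ := exists_open_between_and_isCompact_closure hK hΩ hKΩ
  obtain ⟨-, h1, h2⟩ := h U hU hUc hUΩ
  exact ⟨h1.mono_measure (Measure.restrict_mono hKU le_rfl),
    h2.mono_measure (Measure.restrict_mono hKU le_rfl)⟩

theorem isWeakDeriv_of_local {p : ℝ} (hp : 1 ≤ p) {Ω : Set E3} (hΩ : IsOpen Ω) {f : E3 → E3}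
    {F : E3 → E3 →L[ℝ] E3} (h : ∀ U : Set E3, IsOpen U → IsCompact (closure U) → closure U ⊆ Ω →
      IsSobolev p U f F) : IsWeakDeriv Ω f F := by
  have hp1 : (1 : ℝ≥0∞) ≤ ENNReal.ofReal p := by
    rw [← ENNReal.ofReal_one]
    exact ENNReal.ofReal_le_ofReal hp
  have hK : ∀ K ⊆ Ω, IsCompact K → IntegrableOn f K ∧ IntegrableOn F K := by
    intro K hKΩ hK
    have hfin : IsFiniteMeasure (volume.restrict K) :=
      isFiniteMeasure_restrict.2 hK.measure_lt_top.ne
    obtain ⟨h1, h2⟩ := memLp_of_local hΩ h hK hKΩ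
    exact ⟨h1.integrable hp1, h2.integrable hp1⟩
  refine ⟨?_, ?_, ?_⟩
  · rw [locallyIntegrableOn_iff hΩ.isLocallyClosed]
    exact fun K h1 h2 => (hK K h1 h2).1
  · rw [locallyIntegrableOn_iff hΩ.isLocallyClosed]
    exact fun K h1 h2 => (hK K h1 h2).2
  · intro φ hφ1 hφ2 hφ3 v
    obtain ⟨U, hU, hKU, hUΩ, hUc⟩ := exists_open_between_and_isCompact_closure hφ2 hΩ hφ3
    have h1 := (h U hU hUc hUΩ).1.2.2 φ hφ1 hφ2 hKU v
    have hUsub : U ⊆ Ω := subset_closure.trans hUΩ
    rw [setIntegral_eq_of_subset_of_forall_sdiff_eq_zero hΩ.measurableSet hUsub,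
      setIntegral_eq_of_subset_of_forall_sdiff_eq_zero hΩ.measurableSet hUsub]
    · exact h1
    · rintro x ⟨-, hx⟩
      have h2 : x ∉ tsupport (fun x => fderiv ℝ φ x v) := fun h3 =>
        hx (hKU (tsupport_fderiv_apply_subset ℝ v h3))
      rw [image_eq_zero_of_notMem_tsupport h2, zero_smul]
    · rintro x ⟨-, hx⟩
      rw [image_eq_zero_of_notMem_tsupport fun h3 => hx (hKU h3), zero_smul]

theorem isSobolev_lift_local {p : ℝ} (hp : 1 ≤ p) {Ω : Set V} {f : V → V} {F : V → Mat}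
    (hΩ : St.IsBoundedDomain Ω) (h : St.IsLocSobolev p Ω f F) {U : Set E3} (hU : IsOpen U)
    (hUΩ : closure U ⊆ liftSet Ω) :
    IsSobolev p U (liftMap f) (fun x => liftMat (F (ce x))) := by
  have h1 : liftSet (⇑ce.symm ⁻¹' U) = U := by
    ext x
    show ce.symm (ce x) ∈ U ↔ x ∈ U
    rw [ContinuousLinearEquiv.symm_apply_apply]
  have h2 : closure (⇑ce.symm ⁻¹' U) ⊆ Ω := by
    have h3 : closure (⇑ce.symm ⁻¹' U) = ⇑ce.symm ⁻¹' (closure U) :=
      (ce.symm.toHomeomorph.preimage_closure U).symm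
    rw [h3]
    intro x hx
    exact symm_mem_liftSet.1 (hUΩ hx)
  have h3 : IsOpen (⇑ce.symm ⁻¹' U) := hU.preimage ce.symm.continuous
  obtain ⟨R, hR⟩ := hΩ.2.2
  have h4 := isSobolev_lift_open hp h3 ⟨R, fun x hx => hR x (h2 (subset_closure hx))⟩
    (h _ h3 h2)
  rwa [h1] at h4

theorem generated_target {Ω Λ : Set V} {f : V → V} (h : St.Generated Ω Λ f) :
    St.IsBoundedDomain Λ := by
  induction h with
  | base _ hΛ _ _ _ => exact hΛ
  | comp _ _ _ ih₂ => exact ih₂

/-- Compositions `m ∘ b` with `b` in the class generated by composition and `m` satisfying the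
cone condition are approximable. -/
theorem st_comp_approximable {p : ℝ} (hp : 1 ≤ p) {Ω Λ Ξ : Set V} {b m : V → V} {M : V → Mat}
    (hb : St.Generated Ω Λ b) (hΞ : St.IsBoundedDomain Ξ) (hm : St.IsHomeo Λ Ξ m)
    (hM : St.IsLocSobolev p Λ m M) (hC : St.ConeCondition Λ Ξ m M) {F : V → Mat}
    (hF : St.IsSobolev p Ω (fun x => m (b x)) F) :
    St.DiffeoApproximable p Ω Ξ (fun x => m (b x)) F := by
  have hΛ := generated_target hb
  obtain ⟨h1, hΩ⟩ := generated_lift hb
  obtain ⟨hΩ', hΛ', F₁, C₁, hfine⟩ := h1.fine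
  have hmaps : MapsTo m Λ Ξ := by
    obtain ⟨k, ⟨h1, -⟩, -⟩ := hm
    exact fun x hx => (h1 x hx).1
  have hloc : ∀ U : Set E3, IsOpen U → IsCompact (closure U) → closure U ⊆ liftSet Λ →
      IsSobolev p U (liftMap m) (fun x => liftMat (M (ce x))) := fun U hU _ hUΛ =>
    isSobolev_lift_local hp hΛ hM hU hUΛ
  obtain ⟨F', hF'⟩ := cone_fineP hp hΛ' (isBoundedDomain_lift hΞ) (isHomeo_lift hm)
    (isWeakDeriv_of_local hp hΛ'.1 hloc)
    (fun K hK hKΛ => (memLp_of_local hΛ'.1 hloc hK hKΛ).2)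
    (coneCondition_lift hΛ.1 hΞ.1 hmaps hC)
  obtain ⟨F'', hF''⟩ := hfine.compFineP hΩ'.1 hΩ'.2.2 hΛ'.1 hp hF'
  have h2 : liftMap m ∘ liftMap b = liftMap (fun x => m (b x)) := by
    funext x
    show ce.symm (m (ce (ce.symm (b (ce x))))) = ce.symm (m (b (ce x)))
    rw [ContinuousLinearEquiv.apply_symm_apply]
  rw [h2] at hF''
  exact approximable_drop hp hΩ hF
    (hF''.approximable hp hΩ'.1 hΩ'.2.2 (isSobolev_lift hp hΩ hF))

end Vale.Agent.P073
end
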